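import Vale.Agent.P046.Full.Base

/-!
P046, phase one: a ball that is no hypertree contains a small witness, and the number of possible
witnesses.
-/

namespace Vale.Agent.P046.Full

open Finset
open Vale.Agent.P046

variable {n : ℕ}

/-- The vertices of a set of edges. -/
def verts (A : Gr n) : Finset (Fin n) := A.biUnion id

/-- The edge sets grown from `g` by `i` triangles, each bringing a new vertex. -/
def treeCfg (g : Finset (Fin n)) : ℕ → Finset (Gr n)
  | 0 => {{g}}
  | i + 1 => (treeCfg g i).biUnion fun A =>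
      (A ×ˢ (univ \ verts A)).image fun p => A ∪ sides (insert p.2 p.1)

/-- The edge sets in which one more triangle closes on the old vertices. -/
def closeCfg (g : Finset (Fin n)) (i : ℕ) : Finset (Gr n) :=
  (treeCfg g i).biUnion fun A =>
    ((A ×ˢ verts A).image fun p => A ∪ sides (insert p.2 p.1)).filter fun B => A.card < B.card

lemma mem_verts {A : Gr n} {v : Fin n} : v ∈ verts A ↔ ∃ e ∈ A, v ∈ e := by simp [verts]

lemma exists_insert_side {E f : Finset (Fin n)} (hE : E.card = 3) (hf : f ∈ sides E) :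
    ∃ v, v ∉ f ∧ E = insert v f := by
  obtain ⟨hfE, hf2⟩ := mem_sides.1 hf
  have h : (E \ f).card = 1 := by rw [card_sdiff_of_subset hfE]; omega
  obtain ⟨v, hv⟩ := card_eq_one.1 h
  have hv' : v ∈ E \ f := by rw [hv]; exact mem_singleton_self v
  refine ⟨v, (mem_sdiff.1 hv').2, (eq_of_subset_of_card_le ?_ ?_).symm⟩
  · exact insert_subset (mem_sdiff.1 hv').1 hfE
  · rw [card_insert_of_notMem (mem_sdiff.1 hv').2]; omega

lemma card_of_mem_sides {E e : Finset (Fin n)} (h : e ∈ sides E) : e.card = 2 := (mem_sides.1 h).2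

/-- Growing keeps pairs. -/
lemma treeCfg_two {g : Finset (Fin n)} (hg : g.card = 2) :
    ∀ i, ∀ A ∈ treeCfg g i, ∀ e ∈ A, e.card = 2 := by
  intro i
  induction i with
  | zero => intro A hA e he; simp only [treeCfg, mem_singleton] at hA; subst hA; simp_all
  | succ i ih =>
    intro A hA e he
    simp only [treeCfg, mem_biUnion, mem_image] at hA
    obtain ⟨A₀, hA₀, p, hp, rfl⟩ := hA
    rcases mem_union.1 he with h | h
    · exact ih A₀ hA₀ e h
    · exact card_of_mem_sides h

/-- A new vertex brings exactly two edges. -/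
lemma union_sides_new {A : Gr n} (hA : ∀ e ∈ A, e.card = 2) {f : Finset (Fin n)} (hf : f ∈ A)
    {v : Fin n} (hv : v ∉ verts A) :
    (A ∪ sides (insert v f)).card = A.card + 2 ∧
      verts (A ∪ sides (insert v f)) ⊆ insert v (verts A) ∧
      (∀ E : Finset (Fin n), E.card = 3 → sides E ⊆ A ∪ sides (insert v f) →
        sides E ⊆ A ∨ E = insert v f) := by
  have hvf : v ∉ f := fun h => hv (mem_verts.2 ⟨f, hf, h⟩)
  have hE : (insert v f).card = 3 := by rw [card_insert_of_notMem hvf, hA f hf]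
  have hinter : A ∩ sides (insert v f) = {f} := by
    ext e
    simp only [mem_inter, mem_singleton]
    constructor
    · rintro ⟨he, hes⟩
      have hev : v ∉ e := fun h => hv (mem_verts.2 ⟨e, he, h⟩)
      refine eq_of_subset_of_card_le (fun x hx => ?_) (by rw [hA e he, hA f hf])
      rcases mem_insert.1 ((mem_sides.1 hes).1 hx) with rfl | h
      · exact absurd hx hev
      · exact h
    · rintro rfl
      exact ⟨hf, mem_sides.2 ⟨subset_insert _ _, hA e hf⟩⟩
  refine ⟨?_, ?_, ?_⟩
  · have := card_union_add_card_inter A (sides (insert v f))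
    rw [hinter, card_sides hE, card_singleton] at this
    omega
  · intro x hx
    obtain ⟨e, he, hxe⟩ := mem_verts.1 hx
    rcases mem_union.1 he with h | h
    · exact mem_insert_of_mem (mem_verts.2 ⟨e, h, hxe⟩)
    · rcases mem_insert.1 ((mem_sides.1 h).1 hxe) with rfl | h'
      · exact mem_insert_self _ _
      · exact mem_insert_of_mem (mem_verts.2 ⟨f, hf, h'⟩)
  · intro E hE3 hsub
    by_cases hvE : v ∈ E
    · refine Or.inr (eq_of_subset_of_card_le (fun x hx => ?_) (by rw [hE, hE3]))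
      by_cases hxv : x = v
      · exact hxv ▸ mem_insert_self _ _
      have hp : ({v, x} : Finset (Fin n)) ∈ sides E :=
        mem_sides.2 ⟨insert_subset hvE (singleton_subset_iff.2 hx), card_pair (Ne.symm hxv)⟩
      rcases mem_union.1 (hsub hp) with h | h
      · exact absurd (mem_verts.2 ⟨_, h, mem_insert_self _ _⟩) hv
      · exact (mem_sides.1 h).1 (mem_insert_of_mem (mem_singleton_self x))
    · refine Or.inl fun e he => ?_
      rcases mem_union.1 (hsub he) with h | h
      · exact h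
      · have hev : v ∉ e := fun hh => hvE ((mem_sides.1 he).1 hh)
        have : e = f := eq_of_subset_of_card_le (fun x hx => by
          rcases mem_insert.1 ((mem_sides.1 h).1 hx) with rfl | h'
          · exact absurd hx hev
          · exact h') (by rw [card_of_mem_sides h, hA f hf])
        exact this ▸ hf

lemma treeCfg_card {g : Finset (Fin n)} (hg : g.card = 2) :
    ∀ i, ∀ A ∈ treeCfg g i, A.card = 2 * i + 1 ∧ (verts A).card ≤ i + 2 := by
  intro i
  induction i with
  | zero =>
    intro A hA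
    simp only [treeCfg, mem_singleton] at hA
    subst hA
    simp [verts, hg]
  | succ i ih =>
    intro A hA
    simp only [treeCfg, mem_biUnion, mem_image] at hA
    obtain ⟨A₀, hA₀, p, hp, rfl⟩ := hA
    simp only [mem_product, mem_sdiff, mem_univ, true_and] at hp
    obtain ⟨h1, h2, -⟩ := union_sides_new (treeCfg_two hg i A₀ hA₀) hp.1 hp.2
    obtain ⟨c1, c2⟩ := ih A₀ hA₀
    refine ⟨by omega, ?_⟩
    have := (card_le_card h2).trans (card_insert_le _ _)
    omega

lemma card_treeCfg_le {g : Finset (Fin n)} (hg : g.card = 2) {M : ℕ} :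
    ∀ i, i ≤ M → (treeCfg g i).card ≤ ((2 * M + 1) * n) ^ i := by
  intro i
  induction i with
  | zero => intro _; simp [treeCfg]
  | succ i ih =>
    intro hi
    rw [treeCfg, pow_succ]
    refine (card_biUnion_le_card_mul _ _ ((2 * M + 1) * n) fun A hA => ?_).trans
      (Nat.mul_le_mul_right _ (ih (by omega)))
    refine card_image_le.trans ?_
    rw [card_product, (treeCfg_card hg i A hA).1]
    refine Nat.mul_le_mul (by omega) ?_
    exact (card_le_univ _).trans_eq (Fintype.card_fin n)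

lemma card_closeCfg_le {g : Finset (Fin n)} (hg : g.card = 2) {M i : ℕ} (hi : i ≤ M) :
    (closeCfg g i).card ≤ ((2 * M + 1) * n) ^ i * ((2 * M + 1) * (M + 2)) := by
  refine (card_biUnion_le_card_mul _ _ ((2 * M + 1) * (M + 2)) fun A hA => ?_).trans
    (Nat.mul_le_mul_right _ (card_treeCfg_le hg i hi))
  refine (card_filter_le _ _).trans (card_image_le.trans ?_)
  obtain ⟨h1, h2⟩ := treeCfg_card hg i A hA
  rw [card_product, h1]
  exact Nat.mul_le_mul (by omega) (h2.trans (by omega))

lemma closeCfg_card {g : Finset (Fin n)} (hg : g.card = 2) {i : ℕ} {B : Gr n}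
    (hB : B ∈ closeCfg g i) : 2 * i + 2 ≤ B.card ∧ B.card ≤ 2 * i + 4 := by
  simp only [closeCfg, mem_biUnion, mem_filter, mem_image] at hB
  obtain ⟨A, hA, ⟨p, hp, rfl⟩, hlt⟩ := hB
  have h1 := (treeCfg_card hg i A hA).1
  refine ⟨by omega, (card_union_le _ _).trans ?_⟩
  have h3 : (insert p.2 p.1).card ≤ 3 := by
    have := card_insert_le p.2 p.1
    rw [treeCfg_two hg i A hA p.1 (mem_product.1 hp).1] at this
    exact this
  have : (sides (insert p.2 p.1)).card ≤ 3 := by
    rw [sides, card_powersetCard]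
    calc (insert p.2 p.1).card.choose 2 ≤ (3 : ℕ).choose 2 := Nat.choose_le_choose 2 h3
      _ = 3 := by decide
  omega

/-- `A` is grown from `g` by a walk of `k` triangles, all of them in `S`. -/
inductive Grown (G : Gr n) (g : Finset (Fin n)) : ℕ → Gr n → Finset (Finset (Fin n)) → Prop
  | base : Grown G g 0 {g} ∅
  | step {k : ℕ} {A : Gr n} {S : Finset (Finset (Fin n))} {E : Finset (Fin n)} :
      Grown G g k A S → E ∈ tri G → ¬Disjoint (sides E) A →
        Grown G g (k + 1) (A ∪ sides E) (insert E S)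

lemma Grown.mem_self {G : Gr n} {g : Finset (Fin n)} {k : ℕ} {A : Gr n}
    {S : Finset (Finset (Fin n))} (h : Grown G g k A S) : g ∈ A := by
  induction h with
  | base => exact mem_singleton_self g
  | step _ _ _ ih => exact mem_union_left _ ih

lemma Grown.append {G : Gr n} {g : Finset (Fin n)} {k : ℕ} {A : Gr n}
    {S : Finset (Finset (Fin n))} (h : Grown G g k A S) {k' : ℕ} {A' : Gr n}
    {S' : Finset (Finset (Fin n))} (h' : Grown G g k' A' S') :
    Grown G g (k + k') (A ∪ A') (S ∪ S') := by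
  induction h' with
  | base =>
    rw [union_eq_left.2 (singleton_subset_iff.2 h.mem_self), union_empty, Nat.add_zero]
    exact h
  | step _ hE hd ih =>
    rw [← union_assoc, union_insert, ← Nat.add_assoc]
    exact ih.step hE fun hdis => hd (hdis.mono_right subset_union_right)

/-- A walk is a growing hypertree or contains a closed configuration. -/
lemma Grown.scan {G : Gr n} {g : Finset (Fin n)} (hg : g.card = 2) (hgG : g ∈ G) {k : ℕ} {A : Gr n}
    {S : Finset (Finset (Fin n))} (h : Grown G g k A S) :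
    (∃ i ≤ k, ∃ B ∈ closeCfg g i, B ⊆ G) ∨
      ∃ i ≤ k, A ∈ treeCfg g i ∧ A ⊆ G ∧
        ∀ E : Finset (Fin n), E.card = 3 → sides E ⊆ A → E ∈ S := by
  induction h with
  | base =>
    refine Or.inr ⟨0, le_rfl, mem_singleton_self _, singleton_subset_iff.2 hgG, fun E hE hs => ?_⟩
    have := card_le_card hs
    rw [card_sides hE, card_singleton] at this
    omega
  | @step k A S E _ hE hd ih =>
    rcases ih with ⟨i, hi, hB⟩ | ⟨i, hi, hA, hAG, hS⟩
    · exact Or.inl ⟨i, by omega, hB⟩
    obtain ⟨hE3, hEG⟩ := mem_tri.1 hE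
    have hU : A ∪ sides E ⊆ G := union_subset hAG hEG
    by_cases hold : sides E ⊆ A
    · rw [union_eq_left.2 hold]
      exact Or.inr ⟨i, by omega, hA, hAG, fun E' h1 h2 => mem_insert_of_mem (hS E' h1 h2)⟩
    obtain ⟨f, hfE, hfA⟩ := not_disjoint_iff.1 hd
    obtain ⟨v, hvf, rfl⟩ := exists_insert_side hE3 hfE
    by_cases hv : v ∈ verts A
    · refine Or.inl ⟨i, by omega, _, mem_biUnion.2 ⟨A, hA, mem_filter.2
        ⟨mem_image.2 ⟨(f, v), mem_product.2 ⟨hfA, hv⟩, rfl⟩, card_lt_card ?_⟩⟩, hU⟩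
      exact subset_union_left.ssubset_of_ne fun heq => hold (heq ▸ subset_union_right)
    · refine Or.inr ⟨i + 1, by omega, ?_, hU, fun E' h1 h2 => ?_⟩
      · simp only [treeCfg, mem_biUnion, mem_image]
        exact ⟨A, hA, (f, v), mem_product.2 ⟨hfA, mem_sdiff.2 ⟨mem_univ _, hv⟩⟩, rfl⟩
      · rcases (union_sides_new (treeCfg_two hg i A hA) hfA hv).2.2 E' h1 h2 with h | h
        · exact mem_insert_of_mem (hS E' h1 h)
        · exact h ▸ mem_insert_self _ _

/-- A walk together with a further triangle meeting it twice contains a closed configuration. -/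
lemma Grown.close {G : Gr n} {g : Finset (Fin n)} (hg : g.card = 2) (hgG : g ∈ G) {k : ℕ} {A : Gr n}
    {S : Finset (Finset (Fin n))} (h : Grown G g k A S) {E : Finset (Fin n)} (hE : E ∈ tri G)
    (hES : E ∉ S) {e₁ e₂ : Finset (Fin n)} (h₁ : e₁ ∈ sides E) (h₂ : e₂ ∈ sides E) (hne : e₁ ≠ e₂)
    (h₁A : e₁ ∈ A) (h₂A : e₂ ∈ A) : ∃ i ≤ k, ∃ B ∈ closeCfg g i, B ⊆ G := by
  rcases h.scan hg hgG with h' | ⟨i, hi, hA, hAG, hS⟩
  · exact h'
  obtain ⟨hE3, hEG⟩ := mem_tri.1 hE
  obtain ⟨v, hvf, rfl⟩ := exists_insert_side hE3 h₁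
  have hv2 : v ∈ e₂ := by
    by_contra hv
    refine hne (eq_of_subset_of_card_le (fun x hx => ?_)
      (by rw [card_of_mem_sides h₁, card_of_mem_sides h₂])).symm
    rcases mem_insert.1 ((mem_sides.1 h₂).1 hx) with rfl | h'
    · exact absurd hx hv
    · exact h'
  refine ⟨i, hi, _, mem_biUnion.2 ⟨A, hA, mem_filter.2
    ⟨mem_image.2 ⟨(e₁, v), mem_product.2 ⟨h₁A, mem_verts.2 ⟨e₂, h₂A, hv2⟩⟩, rfl⟩, card_lt_card ?_⟩⟩,
    union_subset hAG hEG⟩
  exact subset_union_left.ssubset_of_ne fun heq => hES (hS _ hE3 (heq ▸ subset_union_right))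

lemma ball_edge_subset (G : Gr n) (g : Finset (Fin n)) (R : ℕ) :
    (ball G g R).1 ⊆ (ball G g (R + 1)).1 := subset_union_left

lemma ball_tri_mem {G : Gr n} {g E : Finset (Fin n)} {R : ℕ} (hE : E ∈ (ball G g R).2) :
    E ∈ tri G ∧ sides E ⊆ (ball G g R).1 := by
  cases R with
  | zero => simp [ball] at hE
  | succ R =>
    exact ⟨(mem_filter.1 hE).1, fun e he => mem_union_right _ (mem_biUnion.2 ⟨E, hE, he⟩)⟩

lemma ball_tri_subset (G : Gr n) (g : Finset (Fin n)) (R : ℕ) :
    (ball G g R).2 ⊆ (ball G g (R + 1)).2 := by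
  intro E hE
  obtain ⟨hEt, hs⟩ := ball_tri_mem hE
  refine mem_filter.2 ⟨hEt, ?_⟩
  obtain ⟨e, he⟩ := sides_nonempty (mem_tri.1 hEt).1
  exact not_disjoint_iff.2 ⟨e, he, hs he⟩

/-- Every edge of a ball is reached by a short walk inside the ball. -/
lemma ball_walk (G : Gr n) (g : Finset (Fin n)) :
    ∀ R, ∀ e ∈ (ball G g R).1, ∃ k ≤ R, ∃ A, ∃ S : Finset (Finset (Fin n)),
      Grown G g k A S ∧ e ∈ A ∧ S ⊆ (ball G g R).2 := by
  intro R
  induction R with
  | zero =>
    intro e he
    exact ⟨0, le_rfl, _, _, Grown.base, he, empty_subset _⟩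
  | succ R ih =>
    intro e he
    rcases mem_union.1 he with h | h
    · obtain ⟨k, hk, A, S, hw, heA, hS⟩ := ih e h
      exact ⟨k, by omega, A, S, hw, heA, hS.trans (ball_tri_subset G g R)⟩
    · obtain ⟨E, hE, heE⟩ := mem_biUnion.1 h
      obtain ⟨f, hfE, hf⟩ := not_disjoint_iff.1 (mem_filter.1 hE).2
      obtain ⟨k, hk, A, S, hw, hfA, hS⟩ := ih f hf
      exact ⟨k + 1, by omega, _, _,
        hw.step (mem_filter.1 hE).1 (not_disjoint_iff.2 ⟨f, hfE, hfA⟩), mem_union_right _ heE,
        insert_subset hE (hS.trans (ball_tri_subset G g R))⟩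

/-- A ball that is no hypertree contains a closed configuration with few triangles. -/
theorem exists_close_of_not_treeBall {G : Gr n} {g : Finset (Fin n)} (hg : g.card = 2) (hgG : g ∈ G) :
    ∀ R, ¬treeBall G R g → ∃ i ≤ 2 * R + 1, ∃ B ∈ closeCfg g i, B ⊆ G := by
  intro R
  induction R with
  | zero => intro h; exact absurd (by simp [treeBall, ball]) h
  | succ R ih =>
    intro hbad
    by_cases hR : treeBall G R g
    swap
    · obtain ⟨i, hi, h⟩ := ih hR
      exact ⟨i, by omega, h⟩
    have hsub := ball_tri_subset G g R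
    set N := (ball G g (R + 1)).2 \ (ball G g R).2 with hN
    set EB := (ball G g R).1 with hEB
    have hmeet : ∀ E ∈ N, E ∈ tri G ∧ ∃ f ∈ sides E, f ∈ EB := fun E hE => by
      obtain ⟨h1, h2⟩ := mem_filter.1 (mem_sdiff.1 hE).1
      exact ⟨h1, not_disjoint_iff.1 h2⟩
    by_cases hA : ∃ E ∈ N, 2 ≤ (sides E ∩ EB).card
    · obtain ⟨E, hE, h2⟩ := hA
      obtain ⟨e₁, he₁, e₂, he₂, hne⟩ := one_lt_card.1 h2
      simp only [mem_inter] at he₁ he₂
      obtain ⟨k₁, hk₁, A₁, S₁, w₁, m₁, s₁⟩ := ball_walk G g R e₁ he₁.2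
      obtain ⟨k₂, hk₂, A₂, S₂, w₂, m₂, s₂⟩ := ball_walk G g R e₂ he₂.2
      have hES : E ∉ S₁ ∪ S₂ := fun h => (mem_sdiff.1 hE).2 (union_subset s₁ s₂ h)
      obtain ⟨i, hi, h⟩ := (w₁.append w₂).close hg hgG (hmeet E hE).1 hES he₁.1 he₂.1 hne
        (mem_union_left _ m₁) (mem_union_right _ m₂)
      exact ⟨i, by omega, h⟩
    push Not at hA
    have hone : ∀ E ∈ N, (sides E \ EB).card = 2 := fun E hE => by
      have h3 := card_sdiff_add_card_inter (sides E) EB
      rw [card_sides (mem_tri.1 (hmeet E hE).1).1] at h3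
      have h1 : 1 ≤ (sides E ∩ EB).card := by
        obtain ⟨f, hf1, hf2⟩ := (hmeet E hE).2
        exact card_pos.2 ⟨f, mem_inter.2 ⟨hf1, hf2⟩⟩
      have := hA E hE
      omega
    have hdis : ∃ E ∈ N, ∃ E' ∈ N, E ≠ E' ∧ ∃ e, e ∈ sides E \ EB ∧ e ∈ sides E' \ EB := by
      by_contra hno
      apply hbad
      have hpd : (↑N : Set (Finset (Fin n))).PairwiseDisjoint (fun E => sides E \ EB) := by
        intro E hE E' hE' hne
        rw [Function.onFun, disjoint_left]
        intro e he he'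
        exact hno ⟨E, hE, E', hE', hne, e, he, he'⟩
      have hedge : (ball G g (R + 1)).1 = EB ∪ N.biUnion (fun E => sides E \ EB) := by
        ext e
        constructor
        · intro he
          by_cases heB : e ∈ EB
          · exact mem_union_left _ heB
          rcases mem_union.1 he with h | h
          · exact absurd h heB
          obtain ⟨E, hE, heE⟩ := mem_biUnion.1 h
          refine mem_union_right _ (mem_biUnion.2 ⟨E, mem_sdiff.2 ⟨hE, fun hold => heB ?_⟩,
            mem_sdiff.2 ⟨heE, heB⟩⟩)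
          exact (ball_tri_mem hold).2 heE
        · intro he
          rcases mem_union.1 he with h | h
          · exact mem_union_left _ h
          obtain ⟨E, hE, heE⟩ := mem_biUnion.1 h
          exact mem_union_right _ (mem_biUnion.2 ⟨E, (mem_sdiff.1 hE).1, (mem_sdiff.1 heE).1⟩)
      have hc : (ball G g (R + 1)).1.card = EB.card + 2 * N.card := by
        rw [hedge, card_union_of_disjoint, card_biUnion hpd, sum_congr rfl hone, sum_const,
          smul_eq_mul, Nat.mul_comm]
        rw [disjoint_left]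
        intro e he he'
        obtain ⟨E, -, h⟩ := mem_biUnion.1 he'
        exact (mem_sdiff.1 h).2 he
      have hN2 : N.card + (ball G g R).2.card = (ball G g (R + 1)).2.card := by
        rw [hN, card_sdiff_add_card_eq_card hsub]
      unfold treeBall at hR ⊢
      rw [← hEB] at hR
      omega
    obtain ⟨E, hE, E', hE', hne, e, he, he'⟩ := hdis
    obtain ⟨f, hfE, hf⟩ := (hmeet E hE).2
    obtain ⟨f', hfE', hf'⟩ := (hmeet E' hE').2
    obtain ⟨k₁, hk₁, A₁, S₁, w₁, m₁, s₁⟩ := ball_walk G g R f hf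
    obtain ⟨k₂, hk₂, A₂, S₂, w₂, m₂, s₂⟩ := ball_walk G g R f' hf'
    have w := (w₁.append w₂).step (hmeet E hE).1
      (not_disjoint_iff.2 ⟨f, hfE, mem_union_left _ m₁⟩)
    have hES : E' ∉ insert E (S₁ ∪ S₂) := fun h => by
      rcases mem_insert.1 h with h | h
      · exact hne h.symm
      · exact (mem_sdiff.1 hE').2 (union_subset s₁ s₂ h)
    obtain ⟨i, hi, h⟩ := w.close hg hgG (hmeet E' hE').1 hES hfE' (mem_sdiff.1 he').1
      (fun hh => (mem_sdiff.1 he').2 (hh ▸ hf'))
      (mem_union_left _ (mem_union_right _ m₂)) (mem_union_right _ (mem_sdiff.1 he).1)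
    exact ⟨i, by omega, h⟩

/-- First moment: few edges have a ball that is no hypertree. -/
theorem sum_badBalls_le (R : ℕ) (μ : Gr n → ℝ) (hμ : ∀ G, 0 ≤ μ G)
    (hsupp : ∀ G, μ G ≠ 0 → G ⊆ complete n) {p : ℝ} (hp0 : 0 ≤ p) (hp1 : p ≤ 1)
    {c : ℝ} (hc : 0 ≤ c)
    (hpr : ∀ A : Gr n, A.card ≤ 4 * R + 6 →
      (∑ G, μ G * if A ⊆ G then 1 else 0) ≤ c * p ^ A.card) :
    ∑ G, μ G * badBalls R G ≤
      (n : ℝ) ^ 2 * ∑ i ∈ range (2 * R + 2),
        (((4 * R + 3 : ℕ) : ℝ) * n) ^ i * ((4 * R + 3 : ℕ) * (2 * R + 3 : ℕ)) *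
          (c * p ^ (2 * i + 2)) := by
  have hpt : ∀ G, μ G * badBalls R G ≤ μ G * ∑ g ∈ complete n, ∑ i ∈ range (2 * R + 2),
      ∑ B ∈ closeCfg g i, (if B ⊆ G then (1 : ℝ) else 0) := by
    intro G
    rcases eq_or_ne (μ G) 0 with h0 | h0
    · simp [h0]
    refine mul_le_mul_of_nonneg_left ?_ (hμ G)
    classical
    rw [badBalls, card_filter, Nat.cast_sum]
    refine (sum_le_sum fun g hg => ?_).trans
      (sum_le_sum_of_subset_of_nonneg (hsupp G h0) fun g _ _ =>
        sum_nonneg fun i _ => sum_nonneg fun B _ => by split_ifs <;> norm_num)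
    by_cases hb : ¬treeBall G R g
    · obtain ⟨i, hi, B, hB, hBG⟩ :=
        exists_close_of_not_treeBall (mem_powersetCard.1 (hsupp G h0 hg)).2 hg R hb
      rw [if_pos hb, Nat.cast_one]
      refine le_trans ?_ (single_le_sum (fun j _ => sum_nonneg fun B _ => by
        split_ifs <;> norm_num) (mem_range.2 (by omega : i < 2 * R + 2)))
      refine le_trans ?_ (single_le_sum (fun B _ => by split_ifs <;> norm_num) hB)
      rw [if_pos hBG]
    · rw [if_neg hb, Nat.cast_zero]
      exact sum_nonneg fun i _ => sum_nonneg fun B _ => by split_ifs <;> norm_num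
  refine (sum_le_sum fun G _ => hpt G).trans ?_
  simp only [mul_sum]
  rw [sum_comm]
  have hcard : ((complete n).card : ℝ) ≤ (n : ℝ) ^ 2 := by
    rw [complete, card_powersetCard, card_univ, Fintype.card_fin]
    exact_mod_cast Nat.choose_le_pow n 2
  refine (sum_le_sum (g := fun _g => ∑ i ∈ range (2 * R + 2),
      (((4 * R + 3 : ℕ) : ℝ) * n) ^ i * ((4 * R + 3 : ℕ) * (2 * R + 3 : ℕ)) *
        (c * p ^ (2 * i + 2))) fun g hg => ?_).trans ?_
  · have hg2 := (mem_powersetCard.1 hg).2
    rw [sum_comm]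
    refine sum_le_sum fun i hi => ?_
    rw [mem_range] at hi
    rw [sum_comm]
    have hb : ∀ B ∈ closeCfg g i, (∑ G, μ G * if B ⊆ G then (1 : ℝ) else 0) ≤
        c * p ^ (2 * i + 2) := fun B hB => by
      obtain ⟨hlo, hup⟩ := closeCfg_card hg2 hB
      exact (hpr B (by omega)).trans (mul_le_mul_of_nonneg_left
        (pow_le_pow_of_le_one hp0 hp1 hlo) hc)
    refine (sum_le_card_nsmul _ _ _ hb).trans ?_
    rw [nsmul_eq_mul]
    refine mul_le_mul_of_nonneg_right ?_ (by positivity)
    have := card_closeCfg_le hg2 (M := 2 * R + 1) (i := i) (by omega)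
    rw [show 2 * (2 * R + 1) + 1 = 4 * R + 3 by omega,
      show 2 * R + 1 + 2 = 2 * R + 3 by omega] at this
    exact_mod_cast this
  · rw [sum_const, nsmul_eq_mul, ← mul_sum]
    exact mul_le_mul_of_nonneg_right hcard (sum_nonneg fun i _ => by positivity)

end Vale.Agent.P046.Full
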