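import Vale.Agent.P046.Full.Base

/-!
P046, phase one: two different two step paths with the same ends span `K_4` or a fixed graph with
five vertices and eight edges.
-/

namespace Vale.Agent.P046.Full

open Finset
open Vale.Agent.P046

variable {n : ℕ}

lemma mem_nbrs {G : Gr n} {g f : Finset (Fin n)} (h : f ∈ nbrs G g) :
    f ≠ g ∧ f.card = 2 ∧ g.card = 2 ∧ (g ∪ f).card = 3 ∧ g ∪ f ∈ tri G := by
  obtain ⟨hfG, hne, E, hE, hgE, hfE⟩ := mem_filter.1 h
  have hg2 := (mem_sides.1 hgE).2
  have hf2 := (mem_sides.1 hfE).2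
  have hsub : g ∪ f ⊆ E := union_subset (mem_sides.1 hgE).1 (mem_sides.1 hfE).1
  have hE3 := (mem_tri.1 hE).1
  have hlt : 2 < (g ∪ f).card := by
    by_contra hle
    push Not at hle
    have e : g = g ∪ f := eq_of_subset_of_card_le subset_union_left (by omega)
    exact hne (eq_of_subset_of_card_le (union_eq_left.1 e.symm) (by omega))
  have he : g ∪ f = E := eq_of_subset_of_card_le hsub (by omega)
  exact ⟨hne, hf2, hg2, by rw [he]; exact hE3, by rw [he]; exact hE⟩

lemma pair_mem_of_subset {G : Gr n} {T p : Finset (Fin n)} (hT : T ∈ tri G) (hp : p.card = 2)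
    (hpT : p ⊆ T) : p ∈ G :=
  (mem_tri.1 hT).2 (mem_sides.2 ⟨hpT, hp⟩)

/-- The index pairs of the configuration on five vertices. -/
def fivePairs : Finset (Finset (Fin 5)) :=
  {{0, 1}, {0, 4}, {0, 2}, {0, 3}, {1, 2}, {2, 4}, {1, 3}, {3, 4}}

/-- The edges of the configuration placed by `t`. -/
def fiveEdges (t : Fin 5 → Fin n) : Gr n := fivePairs.image (fun q => q.image t)

lemma card_fiveEdges {t : Fin 5 → Fin n} (ht : Function.Injective t) :
    (fiveEdges t).card = 8 := by
  rw [fiveEdges, card_image_of_injective _ (Finset.image_injective ht)]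
  decide

/-- The quadruples counted by `quad`. -/
def quadSet (G : Gr n) :
    Finset ((_ : Finset (Fin n)) × (_ : Finset (Fin n)) × (Finset (Fin n) × Finset (Fin n))) :=
  G.sigma fun g => (G.erase g).sigma fun h =>
    ((nbrs G g).filter (fun f => h ∈ nbrs G f)).offDiag

lemma quad_eq_card (G : Gr n) : quad G = (quadSet G).card := by
  simp only [quad, quadSet, card_sigma, offDiag_card, paths2, Nat.mul_sub_one]

/-- The placements of the two configurations in `G`. -/
def quadCand (G : Gr n) :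
    Finset ((_ : Finset (Fin n)) × (_ : Finset (Fin n)) × (Finset (Fin n) × Finset (Fin n))) :=
  (((univ : Finset (Fin n)).powersetCard 4).filter (fun V => V.powersetCard 2 ⊆ G)).biUnion
      (fun V => (V.powersetCard 2).sigma fun _ => (V.powersetCard 2).sigma fun _ =>
        V.powersetCard 2 ×ˢ V.powersetCard 2) ∪
    ((univ : Finset (Fin 5 → Fin n)).filter (fun t => Function.Injective t ∧ fiveEdges t ⊆ G)).image
      (fun t => ⟨{t 0, t 1}, {t 0, t 4}, ({t 0, t 2}, {t 0, t 3})⟩)

lemma eq_pair_of_mem {f : Finset (Fin n)} (hf : f.card = 2) {x y : Fin n} (hx : x ∈ f) (hy : y ∈ f)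
    (hxy : x ≠ y) : f = {x, y} :=
  (eq_of_subset_of_card_le (insert_subset hx (singleton_subset_iff.2 hy))
    (by rw [hf, card_pair hxy])).symm

lemma quadSet_subset (G : Gr n) : quadSet G ⊆ quadCand G := by
  rintro ⟨g, h, f, f'⟩ hq
  simp only [quadSet, mem_sigma, mem_offDiag, mem_filter, mem_erase] at hq
  obtain ⟨hgG, ⟨hhg, hhG⟩, ⟨hf, hfh⟩, ⟨hf', hf'h⟩, hff⟩ := hq
  obtain ⟨hfg, hf2, hg2, c1, t1⟩ := mem_nbrs hf
  obtain ⟨hhf, hh2, -, c2, t2⟩ := mem_nbrs hfh
  obtain ⟨hfg', hf2', -, c1', t1'⟩ := mem_nbrs hf'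
  obtain ⟨hhf', -, -, c2', t2'⟩ := mem_nbrs hf'h
  have hi : ∀ {p q : Finset (Fin n)}, p.card = 2 → q.card = 2 → (p ∪ q).card = 3 →
      ∃ x, p ∩ q = {x} := fun {p q} hp hq hc => by
    have := card_union_add_card_inter p q
    exact card_eq_one.1 (by omega)
  obtain ⟨x, hx⟩ := hi hg2 hf2 c1
  obtain ⟨y, hy⟩ := hi hf2 hh2 c2
  obtain ⟨x', hx'⟩ := hi hg2 hf2' c1'
  obtain ⟨y', hy'⟩ := hi hf2' hh2 c2'
  have mx := mem_inter.1 (hx ▸ mem_singleton_self x)
  have my := mem_inter.1 (hy ▸ mem_singleton_self y)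
  have mx' := mem_inter.1 (hx' ▸ mem_singleton_self x')
  have my' := mem_inter.1 (hy' ▸ mem_singleton_self y')
  -- a configuration on four vertices
  have four : ∀ V : Finset (Fin n), V.card = 4 → g ⊆ V → h ⊆ V → f ⊆ V → f' ⊆ V →
      (∀ p : Finset (Fin n), p.card = 2 → p ⊆ V →
        p ⊆ g ∪ f ∨ p ⊆ f ∪ h ∨ p ⊆ g ∪ f' ∨ p ⊆ f' ∪ h) →
      (⟨g, h, f, f'⟩ : (_ : Finset (Fin n)) × (_ : Finset (Fin n)) × _) ∈ quadCand G := by
    intro V hV4 hg hh hfV hfV' hcov
    refine mem_union_left _ (mem_biUnion.2 ⟨V, mem_filter.2 ⟨mem_powersetCard.2 ⟨subset_univ V, hV4⟩,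
      fun p hp => ?_⟩, ?_⟩)
    · obtain ⟨hpV, hp2⟩ := mem_powersetCard.1 hp
      rcases hcov p hp2 hpV with e | e | e | e
      · exact pair_mem_of_subset t1 hp2 e
      · exact pair_mem_of_subset t2 hp2 e
      · exact pair_mem_of_subset t1' hp2 e
      · exact pair_mem_of_subset t2' hp2 e
    · simp only [mem_sigma, mem_product, mem_powersetCard]
      exact ⟨⟨hg, hg2⟩, ⟨hh, hh2⟩, ⟨hfV, hf2⟩, hfV', hf2'⟩
  rcases eq_or_ne (g ∩ h) ∅ with hd | hd
  · have hgh : (g ∪ h).card = 4 := by
      have := card_union_add_card_inter g h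
      rw [hd, card_empty] at this
      omega
    have hsep : ∀ z, z ∈ g → z ∈ h → False := fun z h1 h2 => by
      have := mem_inter.2 ⟨h1, h2⟩
      rw [hd] at this
      exact absurd this (notMem_empty z)
    have hxy : x ≠ y := fun e => hsep x mx.1 (e ▸ my.2)
    have hxy' : x' ≠ y' := fun e => hsep x' mx'.1 (e ▸ my'.2)
    have ef := eq_pair_of_mem hf2 mx.2 my.1 hxy
    have ef' := eq_pair_of_mem hf2' mx'.2 my'.1 hxy'
    have sf : f ⊆ g ∪ h := by
      rw [ef]
      exact insert_subset (mem_union_left _ mx.1) (singleton_subset_iff.2 (mem_union_right _ my.2))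
    have sf' : f' ⊆ g ∪ h := by
      rw [ef']
      exact insert_subset (mem_union_left _ mx'.1) (singleton_subset_iff.2 (mem_union_right _ my'.2))
    refine four (g ∪ h) hgh subset_union_left subset_union_right sf sf' fun p hp2 hpV => ?_
    by_contra hno
    simp only [not_or] at hno
    obtain ⟨n1, n2, n3, n4⟩ := hno
    obtain ⟨u, hu, hu'⟩ : ∃ u ∈ p, u ∉ g ∪ f := not_subset.1 n1
    obtain ⟨v, hv, hv'⟩ : ∃ v ∈ p, v ∉ f ∪ h := not_subset.1 n2
    simp only [mem_union, not_or] at hu' hv'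
    have huh : u ∈ h := (mem_union.1 (hpV hu)).resolve_left hu'.1
    have hvg : v ∈ g := (mem_union.1 (hpV hv)).resolve_right hv'.2
    have huv : u ≠ v := fun e => hsep v hvg (e ▸ huh)
    have hp := eq_pair_of_mem hp2 hu hv huv
    have hu3 : u ∉ f' := fun e => n3 <| hp ▸ insert_subset (mem_union_right _ e)
      (singleton_subset_iff.2 (mem_union_left _ hvg))
    have hv3 : v ∉ f' := fun e => n4 <| hp ▸ insert_subset (mem_union_right _ huh)
      (singleton_subset_iff.2 (mem_union_left _ e))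
    have other : ∀ {q : Finset (Fin n)}, q.card = 2 → ∀ {a b c : Fin n}, a ∈ q → b ∈ q → c ∈ q →
        b ≠ a → c ≠ a → b = c := fun {q} hq {a b c} ha hb hc h1 h2 => by
      by_contra hbc
      have e := card_le_card (insert_subset ha (insert_subset hb (singleton_subset_iff.2 hc)))
      rw [card_insert_of_notMem (by simp [Ne.symm h1, Ne.symm h2]), card_pair hbc, hq] at e
      omega
    have exx : x = x' := other hg2 hvg mx.1 mx'.1 (fun e => hv'.1 (e ▸ mx.2))
      (fun e => hv3 (e ▸ mx'.2))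
    have eyy : y = y' := other hh2 huh my.2 my'.2 (fun e => hu'.2 (e ▸ my.1))
      (fun e => hu3 (e ▸ my'.1))
    exact hff (by rw [ef, ef', exx, eyy])
  · obtain ⟨a, ha⟩ := nonempty_iff_ne_empty.2 hd
    obtain ⟨hag, hah⟩ := mem_inter.1 ha
    obtain ⟨b, hb, hba⟩ := exists_mem_ne (by omega : 1 < g.card) a
    obtain ⟨d, hdh, hda⟩ := exists_mem_ne (by omega : 1 < h.card) a
    have eg := eq_pair_of_mem hg2 hag hb (Ne.symm hba)
    have eh := eq_pair_of_mem hh2 hah hdh (Ne.symm hda)
    have hbd : b ≠ d := fun e => hhg (by rw [eg, eh, e])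
    have shape : ∀ {k : Finset (Fin n)}, k.card = 2 → k ≠ g → k ≠ h →
        ∀ {u : Fin n}, u ∈ g → u ∈ k → ∀ {w : Fin n}, w ∈ k → w ∈ h →
        k = {b, d} ∨ ∃ c, c ≠ a ∧ c ≠ b ∧ c ≠ d ∧ k = {a, c} := by
      intro k hk hkg hkh u hug huk w hwk hwh
      by_cases hak : a ∈ k
      · obtain ⟨c, hc, hca⟩ := exists_mem_ne (by omega : 1 < k.card) a
        have ek := eq_pair_of_mem hk hak hc (Ne.symm hca)
        exact Or.inr ⟨c, hca, fun e => hkg (by rw [ek, eg, e]), fun e => hkh (by rw [ek, eh, e]), ek⟩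
      · have hub : u = b := by
          rw [eg, mem_insert, mem_singleton] at hug
          exact hug.resolve_left fun e => hak (e ▸ huk)
        have hwd : w = d := by
          rw [eh, mem_insert, mem_singleton] at hwh
          exact hwh.resolve_left fun e => hak (e ▸ hwk)
        exact Or.inl (eq_pair_of_mem hk (hub ▸ huk) (hwd ▸ hwk) hbd)
    have s1 := shape hf2 hfg (Ne.symm hhf) mx.1 mx.2 my.1 my.2
    have s2 := shape hf2' hfg' (Ne.symm hhf') mx'.1 mx'.2 my'.1 my'.2
    have cover : ∀ c, c ≠ a → c ≠ b → c ≠ d → ∀ k l : Finset (Fin n),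
        k = {a, c} → l = {b, d} → ({a, b, c, d} : Finset (Fin n)).card = 4 ∧
        ∀ p : Finset (Fin n), p.card = 2 → p ⊆ {a, b, c, d} →
          p ⊆ g ∪ k ∨ p ⊆ k ∪ h ∨ p ⊆ g ∪ l ∨ p ⊆ l ∪ h := by
      intro c hca hcb hcd k l ek el
      refine ⟨by simp [hba.symm, hca.symm, hda.symm, hcb.symm, hbd, hcd], fun p hp2 hpV => ?_⟩
      obtain ⟨u, v, huv, rfl⟩ := card_eq_two.1 hp2
      simp only [insert_subset_iff, singleton_subset_iff, mem_insert, mem_singleton] at hpV
      simp only [eg, eh, ek, el, insert_subset_iff, singleton_subset_iff, mem_union, mem_insert,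
        mem_singleton]
      rcases hpV with ⟨rfl | rfl | rfl | rfl, rfl | rfl | rfl | rfl⟩ <;>
        first | exact absurd rfl huv | simp
    rcases s1 with e1 | ⟨c, hca, hcb, hcd, e1⟩ <;> rcases s2 with e2 | ⟨c', hca', hcb', hcd', e2⟩
    · exact absurd (e1.trans e2.symm) hff
    · obtain ⟨hV, hcov⟩ := cover c' hca' hcb' hcd' f' f e2 e1
      refine four {a, b, c', d} hV ?_ ?_ ?_ ?_ fun p h1 h2 => ?_
      iterate 4 simp [eg, eh, e1, e2, insert_subset_iff]
      rcases hcov p h1 h2 with e | e | e | e <;> tauto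
    · obtain ⟨hV, hcov⟩ := cover c hca hcb hcd f f' e1 e2
      refine four {a, b, c, d} hV ?_ ?_ ?_ ?_ hcov
      iterate 4 simp [eg, eh, e1, e2, insert_subset_iff]
    · have hcc : c ≠ c' := fun e => hff (by rw [e1, e2, e])
      refine mem_union_right _ (mem_image.2 ⟨![a, b, c, c', d], mem_filter.2 ⟨mem_univ _, ?_, ?_⟩, ?_⟩)
      · refine List.nodup_ofFn.1 ?_
        simp [List.ofFn_succ, hba.symm, hca.symm, hda.symm, hca'.symm, hcb.symm, hcb'.symm, hbd,
          hcd, hcd', hcc]
      · intro e he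
        simp only [fiveEdges, fivePairs, image_insert, image_singleton, mem_insert, mem_singleton] at he
        rcases he with rfl | rfl | rfl | rfl | rfl | rfl | rfl | rfl
        · simpa [eg] using hgG
        · simpa [eh] using hhG
        · exact pair_mem_of_subset t1 (by simp [hca.symm]) (by simp [e1, insert_subset_iff])
        · exact pair_mem_of_subset t1' (by simp [hca'.symm]) (by simp [e2, insert_subset_iff])
        · exact pair_mem_of_subset t1 (by simp [hcb.symm]) (by simp [eg, e1])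
        · exact pair_mem_of_subset t2 (by simp [hcd]) (by simp [eh, e1])
        · exact pair_mem_of_subset t1' (by simp [hcb'.symm]) (by simp [eg, e2])
        · exact pair_mem_of_subset t2' (by simp [hcd']) (by simp [eh, e2])
      · simp [eg, eh, e1, e2]

/-- The first moment of the number of pairs of two step paths. -/
theorem sum_quad_le (μ : Gr n → ℝ) (hμ : ∀ G, 0 ≤ μ G) {p c : ℝ}
    (hpr : ∀ A : Gr n, A.card ≤ 8 → (∑ G, μ G * if A ⊆ G then 1 else 0) ≤ c * p ^ A.card)
    (hc : 0 ≤ c) :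
    ∑ G, μ G * (quad G : ℝ) ≤
      6 ^ 4 * (n : ℝ) ^ 4 * (c * p ^ 6) + (n : ℝ) ^ 5 * (c * p ^ 8) := by
  classical
  have hpt : ∀ G, (quad G : ℝ) ≤
      ∑ V ∈ (univ : Finset (Fin n)).powersetCard 4,
        (6 ^ 4 : ℝ) * (if V.powersetCard 2 ⊆ G then 1 else 0) +
      ∑ t ∈ (univ : Finset (Fin 5 → Fin n)).filter Function.Injective,
        (if fiveEdges t ⊆ G then 1 else 0) := by
    intro G
    have h := card_le_card (quadSet_subset G)
    rw [← quad_eq_card] at h
    have h2 := h.trans ((card_union_le _ _).trans (add_le_add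
      ((card_biUnion_le).trans (sum_le_sum (g := fun _ => 6 ^ 4) fun V hV => ?_)) card_image_le))
    · rw [sum_const, smul_eq_mul] at h2
      rw [← mul_sum, sum_boole, sum_boole, filter_filter]
      calc (quad G : ℝ) ≤ ((_ : ℕ) : ℝ) := Nat.cast_le.2 h2
        _ = _ := by push_cast; ring
    · obtain ⟨hV, -⟩ := mem_filter.1 hV
      obtain ⟨-, hV4⟩ := mem_powersetCard.1 hV
      simp only [card_sigma, card_product, sum_const, smul_eq_mul, card_powersetCard, hV4]
      decide
  refine (sum_le_sum fun G _ => mul_le_mul_of_nonneg_left (hpt G) (hμ G)).trans ?_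
  simp only [mul_add, sum_add_distrib, mul_sum]
  refine add_le_add ?_ ?_
  · rw [sum_comm]
    refine (sum_le_card_nsmul _ _ (6 ^ 4 * (c * p ^ 6)) fun V hV => ?_).trans ?_
    · obtain ⟨-, hV4⟩ := mem_powersetCard.1 hV
      have h6 : (V.powersetCard 2).card = 6 := by rw [card_powersetCard, hV4]; decide
      have := hpr (V.powersetCard 2) (by omega)
      rw [h6] at this
      calc ∑ G, μ G * ((6 : ℝ) ^ 4 * if V.powersetCard 2 ⊆ G then 1 else 0)
          = 6 ^ 4 * ∑ G, μ G * (if V.powersetCard 2 ⊆ G then 1 else 0) := by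
            rw [mul_sum]; exact sum_congr rfl fun G _ => by ring
        _ ≤ _ := mul_le_mul_of_nonneg_left this (by norm_num)
    · rw [nsmul_eq_mul, card_powersetCard, card_univ, Fintype.card_fin]
      have : (n.choose 4 : ℝ) ≤ (n : ℝ) ^ 4 := by exact_mod_cast Nat.choose_le_pow n 4
      exact (mul_le_mul_of_nonneg_right this (by positivity)).trans_eq (by ring)
  · rw [sum_comm]
    refine (sum_le_card_nsmul _ _ (c * p ^ 8) fun t ht => ?_).trans ?_
    · have h8 := card_fiveEdges (mem_filter.1 ht).2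
      have := hpr (fiveEdges t) (by omega)
      rwa [h8] at this
    · rw [nsmul_eq_mul]
      refine mul_le_mul_of_nonneg_right ?_ (mul_nonneg hc ((Even.pow_nonneg (by decide) p)))
      have := card_filter_le (univ : Finset (Fin 5 → Fin n)) (Function.Injective)
      rw [card_univ, Fintype.card_fun, Fintype.card_fin, Fintype.card_fin] at this
      exact_mod_cast this

end Vale.Agent.P046.Full
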