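import Vale.Agent.P046.Full.One.Model

/-!
P046, the first phase: what a good state gives at once.
-/

namespace Vale.Agent.P046.Full.One

open Finset
open Vale.Agent.P046

variable {n : ℕ} {K : ℝ}

/-- The uniform bound on the relative codegree error during the phase. -/
noncomputable def dlt (K : ℝ) (n : ℕ) : ℝ := kap K n / Real.sqrt (Lv n)

lemma psiP_self (k : ℕ) (G : Gr n) {g : Finset (Fin n)} (hg : g ∈ G) :
    psiP n k k G g = xg (Dk n k) G g := by
  simp [psiP, xv, hg]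

lemma kap_div_le_dlt (h : Ok n) (hK : 0 ≤ K) {k : ℕ} (hk : k ≤ Nst n) :
    kap K n / Real.sqrt (Dk n k) ≤ dlt K n := by
  have hk0 : 0 ≤ kap K n := mul_nonneg hK (zero_le_one.trans h.2.1)
  exact div_le_div_of_nonneg_left hk0 (Real.sqrt_pos.2 h.lv_pos)
    (Real.sqrt_le_sqrt (h.lv_le_dk hk))

lemma good_abs_xg {k : ℕ} {G : Gr n} (hk : k ≤ Nst n) (hG : Good K n k G) {g : Finset (Fin n)}
    (hg : g ∈ G) : |xg (Dk n k) G g| ≤ kap K n / Real.sqrt (Dk n k) := by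
  have := hG.2.1 g hg k le_rfl hk
  rwa [psiP_self k G hg] at this

lemma good_deg {k : ℕ} {G : Gr n} (h : Ok n) (hK : 0 ≤ K) (hk : k ≤ Nst n) (hG : Good K n k G)
    {g : Finset (Fin n)} (hg : g ∈ G) :
    (1 - dlt K n) * Dk n k ≤ deg G g ∧ (deg G g : ℝ) ≤ (1 + dlt K n) * Dk n k := by
  have h1 := abs_le.1 ((good_abs_xg hk hG hg).trans (kap_div_le_dlt h hK hk))
  have hD := h.dk_pos k
  simp only [xg] at h1
  rw [le_sub_iff_add_le, sub_le_iff_le_add, le_div_iff₀ hD, div_le_iff₀ hD] at h1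
  constructor <;> linarith [h1.1, h1.2]

lemma sum_vdeg {G : Gr n} (hG : G ⊆ complete n) : ∑ a, vdeg G a = 2 * G.card := by
  simp only [vdeg, card_filter]
  rw [sum_comm]
  have h : ∀ e ∈ G, ∑ a : Fin n, (if a ∈ e then 1 else 0) = 2 := by
    intro e he
    have := (mem_powersetCard.1 (hG he)).2
    rw [sum_boole, Nat.cast_id]
    simpa using this
  rw [sum_congr rfl h, sum_const, smul_eq_mul, mul_comm]

lemma good_card {k : ℕ} {G : Gr n} (hG : Good K n k G) :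
    (G.card : ℝ) ≤ (1 + eta n) * m0 n (Dk n k) := by
  have h2 : ∑ a, (vdeg G a : ℝ) ≤ (n : ℝ) * ((1 + eta n) * Real.sqrt ((n : ℝ) * Dk n k)) := by
    refine (sum_le_sum fun a _ => hG.2.2.1 a).trans_eq ?_
    simp [mul_comm, mul_assoc]
  have h3 : ∑ a, (vdeg G a : ℝ) = 2 * (G.card : ℝ) := by exact_mod_cast sum_vdeg hG.1
  rw [h3, Real.sqrt_mul (Nat.cast_nonneg n)] at h2
  rw [m0]
  linarith

lemma dlt_lg_eq (h : Ok n) : dlt K n * lg n = K * lg n ^ (-(1 / 10) : ℝ) := by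
  have hl : (0 : ℝ) < lg n := zero_lt_one.trans_le h.2.1
  rw [dlt, kap, Lv, Real.sqrt_eq_rpow, ← Real.rpow_mul hl.le]
  calc K * lg n / lg n ^ (21 / 5 * (1 / 2) : ℝ) * lg n
      = K * (lg n ^ (2 : ℕ) / lg n ^ (21 / 5 * (1 / 2) : ℝ)) := by ring
    _ = K * lg n ^ (-(1 / 10) : ℝ) := by
        rw [← Real.rpow_natCast, ← Real.rpow_sub hl]
        norm_num

lemma eventually_dlt_le {ε : ℝ} (hε : 0 < ε) :
    ∀ᶠ n : ℕ in Filter.atTop, dlt K n * lg n ≤ ε := by
  have hl : Filter.Tendsto (fun n : ℕ => lg n) Filter.atTop Filter.atTop :=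
    Real.tendsto_log_atTop.comp tendsto_natCast_atTop_atTop
  have h2 : Filter.Tendsto (fun n : ℕ => K * lg n ^ (-(1 / 10) : ℝ)) Filter.atTop
      (nhds (K * 0)) :=
    ((tendsto_rpow_neg_atTop (by norm_num : (0 : ℝ) < 1 / 10)).comp hl).const_mul K
  rw [mul_zero] at h2
  filter_upwards [h2.eventually (ge_mem_nhds hε), eventually_ok] with n hn hok
  rw [dlt_lg_eq hok]
  exact hn

lemma eventually_eta_le {ε : ℝ} (hε : 0 < ε) : ∀ᶠ n : ℕ in Filter.atTop, eta n ≤ ε := by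
  have hl : Filter.Tendsto (fun n : ℕ => lg n) Filter.atTop Filter.atTop :=
    Real.tendsto_log_atTop.comp tendsto_natCast_atTop_atTop
  exact ((tendsto_rpow_neg_atTop (by norm_num : (0 : ℝ) < 1 / 20)).comp hl).eventually
    (ge_mem_nhds hε)

end Vale.Agent.P046.Full.One
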