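import Vale.Agent.P046.Full.One.Chain
import Vale.Agent.P046.Full.One.Facts

/-!
P046, the first phase: the statements of its parts and their combination.
-/

namespace Vale.Agent.P046.Full.One

open Finset
open Vale.Agent.P046

/-- The bounds on the potentials at the end of the phase. -/
def MomentStmt : Prop := ∀ K : ℝ, 1 ≤ K → ∃ C : ℝ, ∀ ε : ℝ, 0 < ε → ∀ᶠ n : ℕ in Filter.atTop,
  ∑ G, mu1 K n G * potV (Lv n) G ≤ C * m0 n (Lv n) / Lv n ∧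
  ∑ G, mu1 K n G * potU4 (Lv n) G ≤ C * m0 n (Lv n) / Lv n ^ 2 ∧
  ∑ G, mu1 K n G * potW (Lv n) G ≤ C * lg n ^ 3 * m0 n (Lv n) / Lv n ^ 2 ∧
  ∑ G, mu1 K n G * |(G.card : ℝ) - m0 n (Lv n)| ≤ ε * m0 n (Lv n)

/-- The bounds on the rare configurations at the end of the phase. -/
def CountStmt : Prop := ∀ K : ℝ, 1 ≤ K → ∀ᶠ n : ℕ in Filter.atTop,
  ∑ G, mu1 K n G * badBalls (radius n) G ≤ (n : ℝ) ^ (11 / 8 : ℝ) ∧
  ∑ G, mu1 K n G * (quad G : ℝ) ≤ (n : ℝ) ^ (11 / 8 : ℝ)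

theorem phaseOne_of (hE : ExitStmt) (hM : MomentStmt) (hC : CountStmt) : PhaseOneStmt := by
  obtain ⟨K, hK, hexit⟩ := hE
  obtain ⟨C, hMom⟩ := hM K hK
  refine ⟨C, fun ε hε => ?_⟩
  rw [← Filter.eventually_atTop]
  filter_upwards [hexit, hMom ε hε, hC K hK, eventually_ok,
    eventually_dlt_le (K := K) (show (0 : ℝ) < 1 / 2 by norm_num)] with n h1 h2 h3 h4 h5
  refine ⟨mu1 K n, mu1_closeTo h4 h1, fun G hG g hg => ?_, h2.1, h2.2.1, h2.2.2.1, h2.2.2.2,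
    h3.1, h3.2⟩
  have hK0 : (0 : ℝ) ≤ K := zero_le_one.trans hK
  obtain ⟨hlo, hhi⟩ := good_deg h4 hK0 le_rfl (good_of_mu1_ne_zero hG) hg
  rw [h4.dk_nst] at hlo hhi
  have hd0 : 0 ≤ dlt K n := by
    have := mul_nonneg hK0 (zero_le_one.trans h4.2.1)
    unfold dlt kap; positivity
  have hd : dlt K n ≤ 1 / 2 := (le_mul_of_one_le_right hd0 h4.2.1).trans h5
  have hL := h4.lv_pos
  constructor <;> nlinarith

end Vale.Agent.P046.Full.One
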