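import Vale.Agent.P046.Full.One.Hazard
import Vale.Agent.P046.Full.One.BallWitness
import Vale.Agent.P046.Full.One.QuadCount
import Vale.Agent.P046.Full.One.Stmts

/-!
P046, phase one: the bounds on the rare configurations.
-/

namespace Vale.Agent.P046.Full.One

open Finset Filter
open Vale.Agent.P046

variable {n : ℕ} {K : ℝ}

lemma tendsto_lg : Tendsto (fun n : ℕ => lg n) atTop atTop :=
  Real.tendsto_log_atTop.comp tendsto_natCast_atTop_atTop

lemma radius_le (h : 1 ≤ lg n) : (radius n : ℝ) + 3 ≤ 260 * lg n ^ (24 / 25 : ℝ) := by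
  have h1 := Real.one_le_rpow h (by norm_num : (0 : ℝ) ≤ 24 / 25)
  have h2 := Nat.ceil_lt_add_one (a := 256 * lg n ^ (24 / 25 : ℝ)) (by positivity)
  rw [radius]
  linarith

lemma count_eventually {ε : ℝ} (hε : 0 < ε) :
    ∀ᶠ n : ℕ in atTop,
      (4 * (radius n : ℝ) + 8) * (dlt K n + (4 * (radius n : ℝ) + 8) / Lv n) ≤ ε ∧
        (2 * (radius n : ℝ) + 8) * Real.log ((8 * (radius n : ℝ) + 24) * Lv n) ≤ ε * lg n := by
  set P : ℝ := 8 * 260
  have t1 : ∀ {e : ℝ}, 0 < e → Tendsto (fun n : ℕ => lg n ^ (-e)) atTop (nhds 0) := fun he =>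
    (tendsto_rpow_neg_atTop he).comp tendsto_lg
  have A := ((t1 (by norm_num : (0 : ℝ) < 7 / 50)).const_mul (P * |K|)).add
    ((t1 (by norm_num : (0 : ℝ) < 57 / 25)).const_mul (P * P))
  rw [mul_zero, mul_zero, add_zero] at A
  have B : Tendsto (fun x : ℝ => P * (Real.log P + 6 * Real.log x) / x ^ (1 / 25 : ℝ)) atTop (nhds 0) := by
    have b1 : Tendsto (fun x : ℝ => P * Real.log P * x ^ (-(1 / 25) : ℝ)) atTop (nhds 0) := by
      simpa using (tendsto_rpow_neg_atTop (by norm_num : (0 : ℝ) < 1 / 25)).const_mul (P * Real.log P)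
    have b2 : Tendsto (fun x : ℝ => P * 6 * (Real.log x / x ^ (1 / 25 : ℝ))) atTop (nhds 0) := by
      simpa using ((isLittleO_log_rpow_atTop (by norm_num : (0 : ℝ) < 1 / 25)).tendsto_div_nhds_zero
        ).const_mul (P * 6)
    have b3 := b1.add b2
    rw [add_zero] at b3
    refine b3.congr' ?_
    filter_upwards [eventually_gt_atTop 0] with x hx
    rw [Real.rpow_neg hx.le]
    ring
  filter_upwards [A.eventually (ge_mem_nhds hε), (B.comp tendsto_lg).eventually (ge_mem_nhds hε),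
    eventually_ok] with n hA hB hok
  simp only [Function.comp_apply] at hA hB
  set l := lg n with hl
  have hl1 : 1 ≤ l := hok.2.1
  have hl0 : 0 < l := zero_lt_one.trans_le hl1
  have hP : (0 : ℝ) < P := by norm_num [P]
  have hR := radius_le hl1
  have hR0 : (0 : ℝ) ≤ (radius n : ℝ) := Nat.cast_nonneg _
  have hr : ∀ a b : ℝ, l ^ a * l ^ b = l ^ (a + b) := fun a b => (Real.rpow_add hl0 a b).symm
  have h4 : 4 * (radius n : ℝ) + 8 ≤ P * l ^ (24 / 25 : ℝ) := by simp only [P]; linarith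
  have hLv : Lv n = l ^ (21 / 5 : ℝ) := rfl
  constructor
  · have hd : dlt K n ≤ |K| * l ^ (-(11 / 10) : ℝ) := by
      rw [dlt, kap, hLv, Real.sqrt_eq_rpow, ← Real.rpow_mul hl0.le]
      calc K * l / l ^ (21 / 5 * (1 / 2) : ℝ) ≤ |K| * l / l ^ (21 / 5 * (1 / 2) : ℝ) := by
            refine div_le_div_of_nonneg_right ?_ (Real.rpow_nonneg hl0.le _)
            exact mul_le_mul_of_nonneg_right (le_abs_self K) hl0.le
        _ = |K| * (l ^ (1 : ℝ) / l ^ (21 / 5 * (1 / 2) : ℝ)) := by rw [Real.rpow_one]; ring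
        _ = |K| * l ^ (-(11 / 10) : ℝ) := by rw [← Real.rpow_sub hl0]; norm_num
    have hm : (4 * (radius n : ℝ) + 8) / Lv n ≤ P * l ^ (-(81 / 25) : ℝ) := by
      rw [hLv]
      refine (div_le_div_of_nonneg_right h4 (Real.rpow_nonneg hl0.le _)).trans (le_of_eq ?_)
      rw [mul_div_assoc, ← Real.rpow_sub hl0]
      norm_num
    calc (4 * (radius n : ℝ) + 8) * (dlt K n + (4 * (radius n : ℝ) + 8) / Lv n)
        ≤ (4 * (radius n : ℝ) + 8) * (|K| * l ^ (-(11 / 10) : ℝ) + P * l ^ (-(81 / 25) : ℝ)) :=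
          mul_le_mul_of_nonneg_left (add_le_add hd hm) (by positivity)
      _ ≤ P * l ^ (24 / 25 : ℝ) * (|K| * l ^ (-(11 / 10) : ℝ) + P * l ^ (-(81 / 25) : ℝ)) :=
          mul_le_mul_of_nonneg_right h4 (by positivity)
      _ = P * |K| * (l ^ (24 / 25 : ℝ) * l ^ (-(11 / 10) : ℝ)) +
          P * P * (l ^ (24 / 25 : ℝ) * l ^ (-(81 / 25) : ℝ)) := by ring
      _ ≤ ε := by rw [hr, hr]; norm_num; norm_num at hA; exact hA
  · have h5 : 2 * (radius n : ℝ) + 8 ≤ P * l ^ (24 / 25 : ℝ) := by simp only [P]; linarith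
    have h6 : 8 * (radius n : ℝ) + 24 ≤ P * l := by
      have : l ^ (24 / 25 : ℝ) ≤ l := by
        simpa using Real.rpow_le_rpow_of_exponent_le hl1 (by norm_num : (24 / 25 : ℝ) ≤ 1)
      simp only [P]; linarith
    have h7 : (8 * (radius n : ℝ) + 24) * Lv n ≤ P * l ^ (6 : ℝ) := by
      refine (mul_le_mul_of_nonneg_right h6 hok.lv_pos.le).trans ?_
      rw [hLv, mul_assoc]
      refine mul_le_mul_of_nonneg_left ?_ hP.le
      calc l * l ^ (21 / 5 : ℝ) = l ^ (1 + 21 / 5 : ℝ) := by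
            rw [Real.rpow_add hl0, Real.rpow_one]
        _ ≤ l ^ (6 : ℝ) := Real.rpow_le_rpow_of_exponent_le hl1 (by norm_num)
    have hlog : Real.log ((8 * (radius n : ℝ) + 24) * Lv n) ≤ Real.log P + 6 * Real.log l := by
      refine (Real.log_le_log (mul_pos (by positivity) hok.lv_pos) h7).trans (le_of_eq ?_)
      rw [Real.log_mul hP.ne' (Real.rpow_pos_of_pos hl0 _).ne', Real.log_rpow hl0]
    have hpos : 0 ≤ Real.log P + 6 * Real.log l :=
      add_nonneg (Real.log_nonneg (by norm_num [P])) (mul_nonneg (by norm_num) (Real.log_nonneg hl1))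
    rw [div_le_iff₀ (Real.rpow_pos_of_pos hl0 _)] at hB
    calc (2 * (radius n : ℝ) + 8) * Real.log ((8 * (radius n : ℝ) + 24) * Lv n)
        ≤ (2 * (radius n : ℝ) + 8) * (Real.log P + 6 * Real.log l) :=
          mul_le_mul_of_nonneg_left hlog (by positivity)
      _ ≤ P * l ^ (24 / 25 : ℝ) * (Real.log P + 6 * Real.log l) :=
          mul_le_mul_of_nonneg_right h5 hpos
      _ = l ^ (24 / 25 : ℝ) * (P * (Real.log P + 6 * Real.log l)) := by ring
      _ ≤ l ^ (24 / 25 : ℝ) * (ε * l ^ (1 / 25 : ℝ)) :=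
          mul_le_mul_of_nonneg_left hB (Real.rpow_nonneg hl0.le _)
      _ = ε * (l ^ (24 / 25 : ℝ) * l ^ (1 / 25 : ℝ)) := by ring
      _ = ε * l := by rw [hr]; norm_num

theorem countStmt : CountStmt := by
  intro K hK
  filter_upwards [count_eventually (K := K) (show (0 : ℝ) < 1 / 16 by norm_num), eventually_ok]
    with n hn h
  have hK0 : (0 : ℝ) ≤ K := zero_le_one.trans hK
  set R := radius n
  set p := Real.sqrt (Lv n / n) with hp
  set c := (n : ℝ) ^ (1 / 16 : ℝ) with hc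
  have hn0 := h.n_pos
  have hL := h.lv_pos
  have hp2 : p ^ 2 = Lv n / n := Real.sq_sqrt (by positivity)
  have hp1 : p ≤ 1 := by
    rw [hp, Real.sqrt_le_one, div_le_one hn0]
    exact h.2.2.2.2.le
  have hpr : ∀ A : Gr n, A.card ≤ 4 * R + 8 →
      (∑ G, mu1 K n G * if A ⊆ G then 1 else 0) ≤ c * p ^ A.card := fun A hA =>
    sum_mu1_subset_le h hK0 (M := 4 * (R : ℝ) + 8) (by exact_mod_cast hA) hn.1
  set Q : ℝ := (8 * (R : ℝ) + 24) * Lv n with hQ
  have hR0 : (0 : ℝ) ≤ (R : ℝ) := Nat.cast_nonneg _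
  have hQ1 : 1 ≤ Q := by nlinarith [h.2.2.2.1]
  have hQB : Q ^ (2 * R + 8) ≤ c := by
    rw [hc, Real.rpow_def_of_pos hn0]
    refine (Real.log_le_iff_le_exp (by positivity)).1 ?_
    rw [Real.log_pow]
    push_cast
    exact hn.2.trans (le_of_eq (mul_comm _ _))
  have hup : (n : ℝ) * (c * c) ≤ (n : ℝ) ^ (11 / 8 : ℝ) := by
    rw [hc, ← Real.rpow_add hn0]
    nth_rewrite 1 [← Real.rpow_one (n : ℝ)]
    rw [← Real.rpow_add hn0]
    exact Real.rpow_le_rpow_of_exponent_le (by exact_mod_cast (by have := h.1; omega : 1 ≤ n))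
      (by norm_num)
  have hsupp : ∀ G, mu1 K n G ≠ 0 → G ⊆ complete n := fun G hG => (good_of_mu1_ne_zero hG).1
  constructor
  · refine (sum_badBalls_le R (mu1 K n) (mu1_nonneg h) hsupp (Real.sqrt_nonneg _) hp1
      (by positivity : 0 ≤ c) fun A hA => hpr A (by omega)).trans (le_trans ?_ hup)
    have ht : ∀ i ∈ range (2 * R + 2),
        (((4 * R + 3 : ℕ) : ℝ) * n) ^ i * ((4 * R + 3 : ℕ) * (2 * R + 3 : ℕ)) *
          (c * p ^ (2 * i + 2)) ≤ c * (Q ^ (2 * R + 4) / n) := by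
      intro i hi
      rw [mem_range] at hi
      have hpp : p ^ (2 * i + 2) = (Lv n / n) ^ i * (Lv n / n) := by
        rw [pow_add, pow_mul, hp2]
      rw [hpp]
      have hcast : ((4 * R + 3 : ℕ) : ℝ) = 4 * (R : ℝ) + 3 ∧
          ((2 * R + 3 : ℕ) : ℝ) = 2 * (R : ℝ) + 3 := by constructor <;> push_cast <;> ring
      rw [hcast.1, hcast.2]
      have e : ((4 * (R : ℝ) + 3) * n) ^ i * ((4 * (R : ℝ) + 3) * (2 * (R : ℝ) + 3)) *
          (c * ((Lv n / n) ^ i * (Lv n / n))) =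
          c * (((4 * (R : ℝ) + 3) * Lv n) ^ i * ((4 * (R : ℝ) + 3) * ((2 * (R : ℝ) + 3) * Lv n))) / n := by
        rw [mul_pow, mul_pow, div_pow]
        field_simp
      rw [e, mul_div_assoc]
      refine mul_le_mul_of_nonneg_left (div_le_div_of_nonneg_right ?_ hn0.le) (by positivity)
      have b1 : (4 * (R : ℝ) + 3) * Lv n ≤ Q :=
        mul_le_mul_of_nonneg_right (by linarith) hL.le
      have b2 : 4 * (R : ℝ) + 3 ≤ Q := le_trans (le_mul_of_one_le_right (by positivity) h.2.2.2.1) b1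
      have b3 : (2 * (R : ℝ) + 3) * Lv n ≤ Q := mul_le_mul_of_nonneg_right (by linarith) hL.le
      calc ((4 * (R : ℝ) + 3) * Lv n) ^ i * ((4 * (R : ℝ) + 3) * ((2 * (R : ℝ) + 3) * Lv n))
          ≤ Q ^ i * (Q * Q) := mul_le_mul (pow_le_pow_left₀ (by positivity) b1 _)
            (mul_le_mul b2 b3 (by positivity) (by positivity)) (by positivity) (by positivity)
        _ = Q ^ (i + 2) := by ring
        _ ≤ Q ^ (2 * R + 4) := pow_le_pow_right₀ hQ1 (by omega)
    refine (mul_le_mul_of_nonneg_left (sum_le_sum ht) (by positivity)).trans ?_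
    rw [sum_const, card_range, nsmul_eq_mul]
    have hcnt : ((2 * R + 2 : ℕ) : ℝ) ≤ Q := by
      push_cast
      calc 2 * (R : ℝ) + 2 ≤ (8 * (R : ℝ) + 24) * 1 := by linarith
        _ ≤ Q := mul_le_mul_of_nonneg_left h.2.2.2.1 (by positivity)
    have e3 : ((2 * R + 2 : ℕ) : ℝ) * Q ^ (2 * R + 4) ≤ c :=
      calc ((2 * R + 2 : ℕ) : ℝ) * Q ^ (2 * R + 4) ≤ Q * Q ^ (2 * R + 4) :=
            mul_le_mul_of_nonneg_right hcnt (by positivity)
        _ = Q ^ (2 * R + 5) := by ring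
        _ ≤ Q ^ (2 * R + 8) := pow_le_pow_right₀ hQ1 (by omega)
        _ ≤ c := hQB
    calc (n : ℝ) ^ 2 * (((2 * R + 2 : ℕ) : ℝ) * (c * (Q ^ (2 * R + 4) / n)))
        = (n : ℝ) * (c * (((2 * R + 2 : ℕ) : ℝ) * Q ^ (2 * R + 4))) := by field_simp
      _ ≤ (n : ℝ) * (c * c) :=
          mul_le_mul_of_nonneg_left (mul_le_mul_of_nonneg_left e3 (by positivity)) hn0.le
  · refine (sum_quad_le (mu1 K n) (mu1_nonneg h) (p := p) (c := c)
      (fun A hA => hpr A (by omega)) (by positivity)).trans (le_trans ?_ hup)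
    have e6 : p ^ 6 = (Lv n / n) ^ 3 := by rw [← hp2]; ring
    have e8 : p ^ 8 = (Lv n / n) ^ 4 := by rw [← hp2]; ring
    rw [e6, e8]
    have hL1 := h.2.2.2.1
    have e : 6 ^ 4 * (n : ℝ) ^ 4 * (c * (Lv n / n) ^ 3) + (n : ℝ) ^ 5 * (c * (Lv n / n) ^ 4) =
        (n : ℝ) * (c * (6 ^ 4 * Lv n ^ 3 + Lv n ^ 4)) := by field_simp
    rw [e]
    refine mul_le_mul_of_nonneg_left (mul_le_mul_of_nonneg_left ?_ (by positivity)) hn0.le
    refine le_trans ?_ hQB
    have hQ24 : 24 * Lv n ≤ Q := mul_le_mul_of_nonneg_right (by linarith) hL.le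
    calc 6 ^ 4 * Lv n ^ 3 + Lv n ^ 4 ≤ (24 * Lv n) ^ 4 := by nlinarith [pow_pos hL 3]
      _ ≤ Q ^ 4 := pow_le_pow_left₀ (by positivity) hQ24 4
      _ ≤ Q ^ (2 * R + 8) := pow_le_pow_right₀ hQ1 (by omega)

end Vale.Agent.P046.Full.One
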