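import Vale.Agent.P046.Full.One.Chain
import Vale.Agent.P046.Full.One.Facts

/-!
P046, the first phase: exponential potentials for the degrees and the common neighbourhoods.
-/

namespace Vale.Agent.P046.Full.One

open Finset
open Vale.Agent.P046

variable {n : ℕ}

/-- A decreasing count loses at most three per step and at least `ρ` times itself in total: the
exponential of its ratio to the prediction grows at most by the error in the rates. -/
lemma count_step (G : Gr n) (f : Gr n → ℕ) {h ρ s m m' : ℝ} (h0 : 0 ≤ h) (hs : 0 ≤ s)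
    (hm' : 0 < m') (hmm : m' ≤ m) (h3s : 3 * s ≤ m')
    (hmono : ∀ E ∈ tri G, f (rem G E) ≤ f G) (hjump : ∀ E ∈ tri G, f G ≤ f (rem G E) + 3)
    (hrate : ρ * f G ≤ ∑ E ∈ tri G, ((f G : ℝ) - f (rem G E))) :
    step1 h (fun J => Real.exp (s * f J / m')) G ≤
      Real.exp (s * f G / m + s * f G / m' * ((1 - m' / m) - h * ρ * (1 - 3 * s / m'))) := by
  have hm : 0 < m := hm'.trans_le hmm
  set j : Finset (Fin n) → ℝ := fun E => (f G : ℝ) - f (rem G E) with hj
  have hE : ∀ E ∈ tri G, Real.exp (s * f (rem G E) / m') ≤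
      Real.exp (s * f G / m') * (1 - s / m' * j E * (1 - 3 * s / m')) := by
    intro E hE
    have j0 : 0 ≤ j E := sub_nonneg.2 (by exact_mod_cast hmono E hE)
    have j3 : j E ≤ 3 := by
      have : (f G : ℝ) ≤ f (rem G E) + 3 := by exact_mod_cast hjump E hE
      rw [hj]; linarith
    have e : s * f (rem G E) / m' = s * f G / m' + -(s / m' * j E) := by rw [hj]; ring
    rw [e, Real.exp_add]
    refine mul_le_mul_of_nonneg_left ?_ (Real.exp_pos _).le
    have hy0 : 0 ≤ s / m' * j E := by positivity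
    have hy1 : s / m' * j E ≤ 1 := by
      rw [div_mul_eq_mul_div, div_le_one hm']
      nlinarith
    have h2 := (abs_le.1 (Real.abs_exp_sub_one_sub_id_le
      (x := -(s / m' * j E)) (by rw [abs_neg, abs_of_nonneg hy0]; exact hy1))).2
    have h3 : s / m' * j E * (s / m' * j E) ≤ s / m' * j E * (3 * s / m') := by
      refine mul_le_mul_of_nonneg_left ?_ hy0
      rw [div_mul_eq_mul_div]
      exact div_le_div_of_nonneg_right (by nlinarith) hm'.le
    nlinarith
  set A := Real.exp (s * f G / m')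
  have h3 : 0 ≤ 1 - 3 * s / m' := sub_nonneg.2 ((div_le_one hm').2 h3s)
  calc step1 h (fun J => Real.exp (s * f J / m')) G
      = (1 - h * (tri G).card) * A + h * ∑ E ∈ tri G, Real.exp (s * f (rem G E) / m') :=
        step1_eq _ _ _
    _ ≤ (1 - h * (tri G).card) * A +
          h * ∑ E ∈ tri G, A * (1 - s / m' * j E * (1 - 3 * s / m')) :=
        add_le_add le_rfl (mul_le_mul_of_nonneg_left (sum_le_sum hE) h0)
    _ = A * (1 - h * (s / m') * (1 - 3 * s / m') * ∑ E ∈ tri G, j E) := by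
        simp only [mul_sub, sum_sub_distrib, sum_const, nsmul_eq_mul, mul_one, ← mul_sum,
          ← sum_mul]
        ring
    _ ≤ A * (1 - h * (s / m') * (1 - 3 * s / m') * (ρ * f G)) :=
        mul_le_mul_of_nonneg_left (sub_le_sub_left (mul_le_mul_of_nonneg_left hrate
          (mul_nonneg (by positivity) h3)) _) (Real.exp_pos _).le
    _ ≤ A * Real.exp (-(h * (s / m') * (1 - 3 * s / m') * (ρ * f G))) :=
        mul_le_mul_of_nonneg_left (by
          have := Real.add_one_le_exp (-(h * (s / m') * (1 - 3 * s / m') * (ρ * f G)))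
          linarith) (Real.exp_pos _).le
    _ = _ := by
        rw [← Real.exp_add]
        congr 1
        field_simp
        ring

/-- The loss of degree at `a`. -/
lemma vdeg_rem (G : Gr n) (a : Fin n) {E : Finset (Fin n)} (hE : E ∈ tri G) :
    vdeg (rem G E) a + ((sides E).filter (fun e => a ∈ e)).card = vdeg G a := by
  simp only [vdeg, rem]
  rw [← card_union_of_disjoint]
  · congr 1
    ext e
    simp only [mem_union, mem_filter, mem_sdiff]
    constructor
    · rintro (⟨⟨h1, -⟩, h2⟩ | ⟨h1, h2⟩)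
      · exact ⟨h1, h2⟩
      · exact ⟨(mem_tri.1 hE).2 h1, h2⟩
    · rintro ⟨h1, h2⟩
      by_cases h : e ∈ sides E
      · exact Or.inr ⟨h, h2⟩
      · exact Or.inl ⟨⟨h1, h⟩, h2⟩
  · rw [disjoint_left]
    intro e h1 h2
    simp only [mem_filter, mem_sdiff] at h1 h2
    exact h1.1.2 h2.1

/-- The total loss of degree at `a`. -/
lemma vdeg_rate (G : Gr n) (a : Fin n) :
    ∑ E ∈ tri G, ((vdeg G a : ℝ) - vdeg (rem G E) a) =
      ∑ e ∈ G.filter (fun e => a ∈ e), (deg G e : ℝ) := by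
  have h1 : ∀ E ∈ tri G, ((vdeg G a : ℝ) - vdeg (rem G E) a) =
      ∑ e ∈ sides E, (if a ∈ e then (1 : ℝ) else 0) := by
    intro E hE
    rw [sum_boole, ← vdeg_rem G a hE]
    push_cast
    ring
  rw [sum_congr rfl h1, sum_tri_sides G (fun e => if a ∈ e then (1 : ℝ) else 0), sum_filter]
  refine sum_congr rfl fun e _ => ?_
  split_ifs <;> simp

/-- The common neighbours of three vertices, as a set. -/
def com3 (G : Gr n) (a b c : Fin n) : Finset (Fin n) :=
  univ.filter (fun w : Fin n => {a, w} ∈ G ∧ {b, w} ∈ G ∧ {c, w} ∈ G)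

lemma c3_eq (G : Gr n) (a b c : Fin n) : c3 G a b c = (com3 G a b c).card := rfl

lemma com3_rem_subset (G : Gr n) (a b c : Fin n) (E : Finset (Fin n)) :
    com3 (rem G E) a b c ⊆ com3 G a b c := by
  intro w hw
  simp only [com3, rem, mem_filter, mem_sdiff] at hw ⊢
  exact ⟨hw.1, hw.2.1.1, hw.2.2.1.1, hw.2.2.2.1⟩

lemma com3_lost {G : Gr n} {a b c w : Fin n} {E : Finset (Fin n)} (hw : w ∈ com3 G a b c) :
    w ∉ com3 (rem G E) a b c ↔ {a, w} ∈ sides E ∨ {b, w} ∈ sides E ∨ {c, w} ∈ sides E := by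
  simp only [com3, rem, mem_filter, mem_sdiff, mem_univ, true_and] at hw ⊢
  obtain ⟨ha, hb, hc⟩ := hw
  simp only [ha, hb, hc, true_and]
  tauto

lemma com3_jump (G : Gr n) (a b c : Fin n) {E : Finset (Fin n)} (hE : E ∈ tri G) :
    c3 G a b c ≤ c3 (rem G E) a b c + 3 := by
  have h : com3 G a b c ⊆ com3 (rem G E) a b c ∪ E := by
    intro w hw
    by_cases hw' : w ∈ com3 (rem G E) a b c
    · exact mem_union_left _ hw'
    · refine mem_union_right _ ?_
      rcases (com3_lost hw).1 hw' with h | h | h <;> exact (mem_sides.1 h).1 (by simp)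
  rw [c3_eq, c3_eq]
  exact (card_le_card h).trans ((card_union_le _ _).trans_eq (by rw [(mem_tri.1 hE).1]))

/-- The total loss of common neighbours. -/
lemma com3_rate (G : Gr n) {a b c : Fin n} (hab : a ≠ b) (hac : a ≠ c) (hbc : b ≠ c) {δ : ℝ}
    (hd : ∀ g ∈ G, δ ≤ (deg G g : ℝ)) :
    (3 * δ - 3) * c3 G a b c ≤
      ∑ E ∈ tri G, ((c3 G a b c : ℝ) - c3 (rem G E) a b c) := by
  classical
  have h1 : ∀ E ∈ tri G, ((c3 G a b c : ℝ) - c3 (rem G E) a b c) =
      ∑ w ∈ com3 G a b c, (if {a, w} ∈ sides E ∨ {b, w} ∈ sides E ∨ {c, w} ∈ sides E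
        then (1 : ℝ) else 0) := by
    intro E hE
    rw [c3_eq, c3_eq, sum_boole, ← card_sdiff_add_card_eq_card (com3_rem_subset G a b c E)]
    have e : com3 G a b c \ com3 (rem G E) a b c = (com3 G a b c).filter
        (fun w => {a, w} ∈ sides E ∨ {b, w} ∈ sides E ∨ {c, w} ∈ sides E) := by
      ext w
      simp only [mem_sdiff, mem_filter]
      exact and_congr_right fun hw => com3_lost hw
    rw [e]
    push_cast
    ring
  rw [sum_congr rfl h1, sum_comm]
  rw [c3_eq, mul_comm, ← nsmul_eq_mul]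
  refine card_nsmul_le_sum _ _ _ fun w hw => ?_
  simp only [com3, mem_filter, mem_univ, true_and] at hw
  obtain ⟨ha, hb, hc⟩ := hw
  rw [sum_boole]
  set A := (tri G).filter (fun E => ({a, w} : Finset (Fin n)) ∈ sides E) with hA
  set B := (tri G).filter (fun E => ({b, w} : Finset (Fin n)) ∈ sides E) with hB
  set C := (tri G).filter (fun E => ({c, w} : Finset (Fin n)) ∈ sides E) with hC
  have hne : ∀ x y : Fin n, x ≠ y → ({x, w} : Finset (Fin n)) ∈ G → ({y, w} : Finset (Fin n)) ∈ G →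
      (((tri G).filter (fun E => ({x, w} : Finset (Fin n)) ∈ sides E)) ∩
       ((tri G).filter (fun E => ({y, w} : Finset (Fin n)) ∈ sides E))).card ≤ 1 := by
    intro x y hxy _ _
    rw [card_le_one]
    intro E hE F hF
    simp only [mem_inter, mem_filter] at hE hF
    by_contra hEF
    have h := shared_unique (mem_tri.1 hE.1.1).1 (mem_tri.1 hF.1.1).1 hEF hE.1.2 hF.1.2 hE.2.2
      hF.2.2
    have hx : x ∈ ({y, w} : Finset (Fin n)) := h ▸ by simp
    have hxw : x = w := by simpa [hxy] using hx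
    have hy : y ∈ ({x, w} : Finset (Fin n)) := h.symm ▸ by simp
    have hyw : y = w := by simpa [hxy.symm] using hy
    exact hxy (hxw.trans hyw.symm)
  have hAB : (A ∩ B).card ≤ 1 := hne a b hab ha hb
  have hAC : (A ∩ C).card ≤ 1 := hne a c hac ha hc
  have hBC : (B ∩ C).card ≤ 1 := hne b c hbc hb hc
  have hU : (tri G).filter (fun E => ({a, w} : Finset (Fin n)) ∈ sides E ∨ {b, w} ∈ sides E ∨
      {c, w} ∈ sides E) = A ∪ (B ∪ C) := by
    rw [hA, hB, hC, ← filter_or, ← filter_or]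
  have u1 := card_union_add_card_inter B C
  have u2 := card_union_add_card_inter A (B ∪ C)
  have u3 : (A ∩ (B ∪ C)).card ≤ (A ∩ B).card + (A ∩ C).card := by
    rw [inter_union_distrib_left]; exact card_union_le _ _
  have hnat : A.card + B.card + C.card ≤ (A ∪ (B ∪ C)).card + 3 := by omega
  have hreal : (A.card : ℝ) + B.card + C.card ≤ ((A ∪ (B ∪ C)).card : ℝ) + 3 := by
    exact_mod_cast hnat
  have d1 : δ ≤ (A.card : ℝ) := hd _ ha
  have d2 : δ ≤ (B.card : ℝ) := hd _ hb
  have d3 : δ ≤ (C.card : ℝ) := hd _ hc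
  rw [hU]
  linarith

/-- The floor of the common neighbour prediction. -/
noncomputable def flr (n : ℕ) : ℝ := lg n * Real.sqrt (lg n)

/-- The common neighbour prediction without the floor. -/
noncomputable def t3 (n k : ℕ) : ℝ := Dk n k * Real.sqrt (Dk n k) / Real.sqrt n

lemma m3_eq (k : ℕ) : m3 n k = max (t3 n k) (flr n) := rfl

lemma flr_pos (h : Ok n) : 0 < flr n :=
  mul_pos (zero_lt_one.trans_le h.2.1) (Real.sqrt_pos.2 (zero_lt_one.trans_le h.2.1))

lemma t3_succ (h : Ok n) (k : ℕ) :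
    t3 n (k + 1) = t3 n k / ((1 + 2 * qs n) * Real.sqrt (1 + 2 * qs n)) := by
  have := h.base_pos
  rw [t3, t3, Ok.dk_succ, Real.sqrt_div (h.dk_pos k).le]
  field_simp

lemma t3_pos (h : Ok n) (k : ℕ) : 0 < t3 n k :=
  div_pos (mul_pos (h.dk_pos k) (Real.sqrt_pos.2 (h.dk_pos k))) (Real.sqrt_pos.2 h.n_pos)

/-- The slack left for the second order terms of the common neighbour potential. -/
noncomputable def phi3 (n k : ℕ) : ℝ := 2 / flr n - min (1 / t3 n k) (2 / flr n)

lemma phi3_nonneg (k : ℕ) : 0 ≤ phi3 n k := sub_nonneg.2 (min_le_right _ _)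

/-- The weight of the degree potential. -/
noncomputable def sV (n : ℕ) : ℝ := lg n ^ 2

/-- The compensator of the degree potential per step. -/
noncomputable def compV (K : ℝ) (n : ℕ) : ℝ :=
  4 * sV n * qs n * (dlt K n + 3 * sV n / Real.sqrt n)

/-- The weight of the common neighbour potential. -/
noncomputable def sC (n : ℕ) : ℝ := lg n ^ (11 / 10 : ℝ)

/-- The compensator of the common neighbour potential up to step `k`. -/
noncomputable def remC (K : ℝ) (n k : ℕ) : ℝ :=
  ((Nst n - k : ℕ) : ℝ) * (12 * sC n * qs n * (dlt K n + 1 / Lv n)) + 36 * sC n ^ 2 * phi3 n k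

/-- The degree potential. -/
noncomputable def potDeg (K : ℝ) (n k : ℕ) (a : Fin n) (G : Gr n) : ℝ :=
  Real.exp (sV n * (vdeg G a : ℝ) / Real.sqrt ((n : ℝ) * Dk n k) - sV n * (1 + eta n) +
    ((Nst n - k : ℕ) : ℝ) * compV K n)

/-- The common neighbour potential. -/
noncomputable def potC3 (K : ℝ) (n k : ℕ) (a b c : Fin n) (G : Gr n) : ℝ :=
  Real.exp (sC n * (c3 G a b c : ℝ) / m3 n k - sC n * (1 + eta n) + remC K n k)

lemma step1_mul_const (h c : ℝ) (f : Gr n → ℝ) (G : Gr n) :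
    step1 h (fun J => f J * c) G = step1 h f G * c := by
  simp only [step1_eq, ← sum_mul]
  ring

/-- The step of the degree potential. -/
lemma potDeg_step {K : ℝ} (h : Ok n) (hK : 0 ≤ K) (heta : eta n ≤ 1 / 2)
    (hs : 3 * sV n ≤ Real.sqrt n) {k : ℕ} (hk1 : k < Nst n) {G : Gr n} (hG : Good K n k G)
    (a : Fin n) : step1 (hk n k) (potDeg K n (k + 1) a) G ≤ potDeg K n k a G := by
  have hq := h.qs_pos
  have hD := h.dk_pos k
  have hD' := h.dk_pos (k + 1)
  have hn := h.n_pos
  have hs0 : 0 ≤ sV n := sq_nonneg _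
  set q := qs n
  set s := sV n
  set m := Real.sqrt ((n : ℝ) * Dk n k) with hmd
  set m' := Real.sqrt ((n : ℝ) * Dk n (k + 1)) with hm'd
  set δ := dlt K n
  have hm' : 0 < m' := Real.sqrt_pos.2 (by positivity)
  have hmm : m' ≤ m :=
    Real.sqrt_le_sqrt (mul_le_mul_of_nonneg_left (h.dk_anti (Nat.le_succ k)) hn.le)
  have hm : 0 < m := hm'.trans_le hmm
  have hsn : Real.sqrt n ≤ m' := Real.sqrt_le_sqrt (le_mul_of_one_le_right hn.le
    (h.2.2.2.1.trans (h.lv_le_dk (by omega))))
  have hrate : (1 - δ) * Dk n k * vdeg G a ≤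
      ∑ E ∈ tri G, ((vdeg G a : ℝ) - vdeg (rem G E) a) := by
    rw [vdeg_rate, vdeg, mul_comm, ← nsmul_eq_mul]
    exact card_nsmul_le_sum _ _ _ fun e he =>
      (good_deg h hK hk1.le hG (mem_filter.1 he).1).1
  have hcs := count_step G (fun J => vdeg J a) (h.hk_pos k).le hs0 hm' hmm (hs.trans hsn)
    (fun E hE => (Nat.le_add_right _ _).trans_eq (vdeg_rem G a hE))
    (fun E hE => by
      rw [← vdeg_rem G a hE]
      exact Nat.add_le_add_left ((card_filter_le _ _).trans_eq (card_sides (mem_tri.1 hE).1)) _)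
    hrate
  set c0 := -s * (1 + eta n) + ((Nst n - (k + 1) : ℕ) : ℝ) * compV K n with hc0
  have e : potDeg K n (k + 1) a = fun J => Real.exp (s * (vdeg J a : ℝ) / m') * Real.exp c0 := by
    funext J
    rw [potDeg, ← Real.exp_add]
    congr 1
    rw [hc0]; ring
  rw [e, step1_mul_const]
  refine (mul_le_mul_of_nonneg_right hcs (Real.exp_pos _).le).trans ?_
  rw [potDeg, ← Real.exp_add, Real.exp_le_exp]
  have hbase : Real.sqrt (1 + 2 * q) ≤ 1 + q :=
    (Real.sqrt_le_left (by linarith)).2 (by nlinarith)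
  have hmeq : m = m' * Real.sqrt (1 + 2 * q) := by
    have h1 : Dk n k = Dk n (k + 1) * (1 + 2 * q) := by
      have h2 : (1 + 2 * qs n) ≠ 0 := h.base_pos.ne'
      rw [Ok.dk_succ, div_mul_cancel₀ _ h2]
    rw [hmd, hm'd, ← Real.sqrt_mul (by positivity), h1]
    ring_nf
  have hb : (1 - m' / m) - hk n k * ((1 - δ) * Dk n k) * (1 - 3 * s / m') ≤
      q * (δ + 3 * s / Real.sqrt n) := by
    have h1 : 1 - m' / m ≤ q := by
      rw [sub_le_iff_le_add, ← sub_le_iff_le_add', le_div_iff₀ hm, hmeq]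
      have := mul_le_mul_of_nonneg_left hbase hm'.le
      nlinarith [Real.sqrt_nonneg (1 + 2 * q)]
    have h2 : hk n k * ((1 - δ) * Dk n k) = q * (1 - δ) := by
      rw [hk]; field_simp; ring
    rw [h2]
    have h3 : 3 * s / m' ≤ 3 * s / Real.sqrt n :=
      div_le_div_of_nonneg_left (by positivity) (Real.sqrt_pos.2 hn) hsn
    have h4 : 0 ≤ 3 * s / m' := by positivity
    have hδ0 : 0 ≤ δ := div_nonneg (mul_nonneg hK (zero_le_one.trans h.2.1)) (Real.sqrt_nonneg _)
    nlinarith [mul_le_mul_of_nonneg_left h3 hq.le, mul_nonneg (mul_nonneg hq.le hδ0) h4]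
  have hf : (vdeg G a : ℝ) / m' ≤ 4 := by
    rw [div_le_iff₀ hm']
    refine (hG.2.2.1 a).trans ?_
    rw [← hmd, hmeq]
    have hq1 : q ≤ 1 := by
      refine h.qs_le.trans ((div_le_one (by exact_mod_cast h.nst_pos)).2 (h.2.2.1.trans ?_))
      exact_mod_cast Nat.le_self_pow (by norm_num) n
    have h5 : (1 + eta n) * Real.sqrt (1 + 2 * q) ≤ 3 / 2 * 2 :=
      mul_le_mul (by linarith) (by linarith) (Real.sqrt_nonneg _) (by norm_num)
    have := mul_le_mul_of_nonneg_left h5 hm'.le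
    linarith
  have hcomp : 0 ≤ q * (δ + 3 * s / Real.sqrt n) := by
    have hδ0 : 0 ≤ δ := div_nonneg (mul_nonneg hK (zero_le_one.trans h.2.1)) (Real.sqrt_nonneg _)
    positivity
  have h6 : s * (vdeg G a : ℝ) / m' * ((1 - m' / m) - hk n k * ((1 - δ) * Dk n k) *
      (1 - 3 * s / m')) ≤ compV K n := by
    refine (mul_le_mul_of_nonneg_left hb (by positivity)).trans ?_
    rw [mul_div_assoc]
    refine (mul_le_mul_of_nonneg_right (mul_le_mul_of_nonneg_left hf hs0) hcomp).trans_eq ?_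
    rw [compV]; ring
  have h7 : ((Nst n - k : ℕ) : ℝ) = ((Nst n - (k + 1) : ℕ) : ℝ) + 1 := by
    have : Nst n - k = Nst n - (k + 1) + 1 := by omega
    exact_mod_cast this
  rw [hc0, h7]
  linarith

/-- The real inequality behind the step of the common neighbour potential. -/
lemma c3_bracket {q w t t' m' s δ u L f η mk : ℝ} (hq : 0 < q) (hq' : q ≤ 1 / 10)
    (hw1 : 1 + 2 * q ≤ w) (hw2 : w ≤ (1 + 2 * q) * (1 + q)) (ht : 0 < t) (hm' : 0 < m')
    (hmt : t' ≤ m') (htt : t' = t / w) (hs : 0 ≤ s) (hδ : 0 ≤ δ)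
    (hu : 0 ≤ u) (huL : u ≤ L) (hf : f ≤ (1 + η) * mk) (hf0 : 0 ≤ f) (hη : η ≤ 1 / 2)
    (hmk : mk = t) :
    s * f / m' * ((1 - m' / t) - (3 * q * (1 - δ) - 3 * q * u) * (1 - 3 * s / m')) ≤
      12 * s * q * (δ + L) + 36 * s ^ 2 * (1 / t' - 1 / t) := by
  have hw0 : 0 < w := by linarith
  have ht' : 0 < t' := htt ▸ div_pos ht hw0
  have hwle : w ≤ 3 / 2 := hw2.trans
    ((mul_le_mul (by linarith : 1 + 2 * q ≤ 6 / 5) (by linarith : 1 + q ≤ 11 / 10)
      (by linarith) (by norm_num)).trans (by norm_num))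
  have hv0 : 0 ≤ 3 * s / m' := by positivity
  have h1 : 1 - m' / t ≤ 3 * q := by
    have h0 : t' / t ≤ m' / t := div_le_div_of_nonneg_right hmt ht.le
    have h0' : t' / t = 1 / w := by rw [htt]; field_simp
    have h0'' : 1 - 3 * q ≤ 1 / w := by
      rw [le_div_iff₀ hw0]
      have := mul_le_mul_of_nonneg_left hw2 (by linarith : (0 : ℝ) ≤ 1 - 3 * q)
      nlinarith [pow_pos hq 2, pow_pos hq 3]
    linarith
  have h3 : (1 - m' / t) - (3 * q * (1 - δ) - 3 * q * u) * (1 - 3 * s / m') ≤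
      3 * q * (δ + L) + 3 * q * (3 * s / m') := by
    have h8 := mul_nonneg (mul_nonneg hq.le hδ) hv0
    have h9 := mul_nonneg (mul_nonneg hq.le hu) hv0
    have h10 := mul_le_mul_of_nonneg_left huL hq.le
    linarith
  have hfm : f / m' ≤ 4 := by
    rw [div_le_iff₀ hm']
    subst hmk
    have h4 : mk = t' * w := by rw [htt, div_mul_cancel₀ _ hw0.ne']
    have h5 : t' * w ≤ m' * (3 / 2) := mul_le_mul hmt hwle hw0.le hm'.le
    have h6 : (1 + η) * mk ≤ 3 / 2 * mk := mul_le_mul_of_nonneg_right (by linarith) ht.le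
    linarith
  have h4 : q / m' ≤ 1 / t' - 1 / t := by
    refine (div_le_div_of_nonneg_left hq.le ht' hmt).trans ?_
    have e0 : 1 / t' - 1 / t = (w - 1) / t := by rw [htt]; field_simp
    rw [e0, htt, div_div_eq_mul_div]
    refine div_le_div_of_nonneg_right ?_ ht.le
    have := mul_le_mul_of_nonneg_left hwle hq.le
    linarith
  have hsum : 0 ≤ 3 * q * (δ + L) + 3 * q * (3 * s / m') := by
    have : 0 ≤ L := hu.trans huL
    positivity
  calc s * f / m' * ((1 - m' / t) - (3 * q * (1 - δ) - 3 * q * u) * (1 - 3 * s / m'))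
      ≤ s * f / m' * (3 * q * (δ + L) + 3 * q * (3 * s / m')) :=
        mul_le_mul_of_nonneg_left h3 (by positivity)
    _ ≤ (s * 4) * (3 * q * (δ + L) + 3 * q * (3 * s / m')) := by
        refine mul_le_mul_of_nonneg_right ?_ hsum
        rw [mul_div_assoc]
        exact mul_le_mul_of_nonneg_left hfm hs
    _ = 12 * s * q * (δ + L) + 36 * s ^ 2 * (q / m') := by ring
    _ ≤ _ := by gcongr

/-- The step of the common neighbour potential. -/
lemma potC3_step {K : ℝ} (h : Ok n) (hK : 0 ≤ K) (hd : dlt K n ≤ 1 / 2) (heta : eta n ≤ 1 / 2)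
    (hL : 2 ≤ Lv n) (hs : 3 * sC n ≤ flr n) (hq' : qs n ≤ 1 / 10)
    {k : ℕ} (hk1 : k < Nst n) {G : Gr n} (hG : Good K n k G)
    {a b c : Fin n} (hab : a ≠ b) (hac : a ≠ c) (hbc : b ≠ c) :
    step1 (hk n k) (potC3 K n (k + 1) a b c) G ≤ potC3 K n k a b c G := by
  have hq := h.qs_pos
  have hD := h.dk_pos k
  have hDL : Lv n ≤ Dk n k := h.lv_le_dk hk1.le
  have hflr := flr_pos h
  have ht := t3_pos h k
  have ht' := t3_pos h (k + 1)
  have hs0 : 0 ≤ sC n := Real.rpow_nonneg (zero_le_one.trans h.2.1) _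
  have hδ0 : 0 ≤ dlt K n :=
    div_nonneg (mul_nonneg hK (zero_le_one.trans h.2.1)) (Real.sqrt_nonneg _)
  set q := qs n with hqd
  set s := sC n
  set δ := dlt K n
  set t := t3 n k
  set t' := t3 n (k + 1)
  set w := (1 + 2 * q) * Real.sqrt (1 + 2 * q) with hwd
  have hsq1 : 1 ≤ Real.sqrt (1 + 2 * q) := Real.one_le_sqrt.2 (by linarith)
  have hsq2 : Real.sqrt (1 + 2 * q) ≤ 1 + q := (Real.sqrt_le_left (by linarith)).2 (by nlinarith)
  have hw0 : 0 < w := by positivity
  have hw1 : 1 + 2 * q ≤ w := le_mul_of_one_le_right (by linarith) hsq1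
  have hw2 : w ≤ (1 + 2 * q) * (1 + q) := mul_le_mul_of_nonneg_left hsq2 (by linarith)
  have htt : t' = t / w := t3_succ h k
  have htle : t' ≤ t := by rw [htt]; exact div_le_self ht.le (by linarith)
  set m := m3 n k with hmd
  set m' := m3 n (k + 1) with hm'd
  have hm' : 0 < m' := hflr.trans_le (le_max_right _ _)
  have hmm : m' ≤ m := max_le_max htle le_rfl
  have h3s : 3 * s ≤ m' := hs.trans (le_max_right _ _)
  have hm : 0 < m := hm'.trans_le hmm
  set ρ := 3 * ((1 - δ) * Dk n k) - 3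
  have hρ : 0 ≤ ρ := by
    have : 1 ≤ (1 - δ) * Dk n k := by nlinarith
    linarith
  have hcs := count_step G (fun J => c3 J a b c) (h.hk_pos k).le hs0 hm' hmm h3s
    (fun E _ => card_le_card (com3_rem_subset G a b c E))
    (fun E hE => com3_jump G a b c hE)
    (com3_rate G hab hac hbc fun g hg => (good_deg h hK hk1.le hG hg).1)
  set c0 := -s * (1 + eta n) + remC K n (k + 1) with hc0
  have e : potC3 K n (k + 1) a b c =
      fun J => Real.exp (s * (c3 J a b c : ℝ) / m') * Real.exp c0 := by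
    funext J
    rw [potC3, ← Real.exp_add]
    congr 1
    rw [hc0]; ring
  rw [e, step1_mul_const]
  refine (mul_le_mul_of_nonneg_right hcs (Real.exp_pos _).le).trans ?_
  rw [potC3, ← Real.exp_add, Real.exp_le_exp]
  have h7 : ((Nst n - k : ℕ) : ℝ) = ((Nst n - (k + 1) : ℕ) : ℝ) + 1 := by
    have : Nst n - k = Nst n - (k + 1) + 1 := by omega
    exact_mod_cast this
  set X := s * (c3 G a b c : ℝ) / m' with hX
  have hX0 : 0 ≤ X := by positivity
  set br := (1 - m' / m) - hk n k * ρ * (1 - 3 * s / m') with hbr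
  have hu0 : 0 ≤ 3 * s / m' := by positivity
  have hu1 : 3 * s / m' ≤ 1 := (div_le_one hm').2 h3s
  suffices hkey : X * br ≤ 12 * s * q * (δ + 1 / Lv n) + 36 * s ^ 2 * (phi3 n k - phi3 n (k + 1)) by
    rw [hc0, remC, remC, h7]
    linarith
  have hcomp : 0 ≤ 12 * s * q * (δ + 1 / Lv n) := by
    have := h.lv_pos
    positivity
  have hphi : phi3 n k - phi3 n (k + 1) =
      min (1 / t') (2 / flr n) - min (1 / t) (2 / flr n) := by simp only [phi3, t, t']; ring
  rw [hphi]
  by_cases hfl : t ≤ flr n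
  · have e1 : m' = m := by
      rw [hmd, hm'd, m3_eq, m3_eq, max_eq_right hfl, max_eq_right (htle.trans hfl)]
    have h1 : br ≤ 0 := by
      rw [hbr, e1, div_self hm.ne', sub_self, zero_sub, neg_nonpos]
      exact mul_nonneg (mul_nonneg (h.hk_pos k).le hρ) (by rw [← e1]; linarith)
    have h2 : min (1 / t) (2 / flr n) ≤ min (1 / t') (2 / flr n) :=
      min_le_min (one_div_le_one_div_of_le ht' htle) le_rfl
    have := mul_nonneg (by positivity : (0 : ℝ) ≤ 36 * s ^ 2) (sub_nonneg.2 h2)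
    linarith only [mul_nonpos_of_nonneg_of_nonpos hX0 h1, this, hcomp]
  · rw [not_le] at hfl
    have e1 : m = t := by rw [hmd, m3_eq]; exact max_eq_left hfl.le
    have hwle : w ≤ 3 / 2 := hw2.trans
      ((mul_le_mul (by linarith only [hq'] : 1 + 2 * q ≤ 6 / 5) (by linarith only [hq'] : 1 + q ≤ 11 / 10)
        (by linarith only [hq]) (by norm_num)).trans (by norm_num))
    have ht2 : flr n / 2 ≤ t' := by
      rw [htt, div_le_div_iff₀ two_pos hw0]
      have := mul_le_mul_of_nonneg_left hwle hflr.le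
      linarith only [this, hfl, hflr]
    have p1 : min (1 / t') (2 / flr n) = 1 / t' := by
      refine min_eq_left ?_
      rw [div_le_div_iff₀ ht' hflr]
      linarith
    have p2 : min (1 / t) (2 / flr n) = 1 / t := by
      refine min_eq_left ?_
      rw [div_le_div_iff₀ ht hflr]
      linarith
    rw [p1, p2]
    have h2 : hk n k * ρ = 3 * q * (1 - δ) - 3 * q * (1 / Dk n k) := by
      simp only [ρ, hk, q]; field_simp
    have h4 : 1 / Dk n k ≤ 1 / Lv n := one_div_le_one_div_of_le h.lv_pos hDL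
    have h5 : (0 : ℝ) ≤ 1 / Dk n k := by positivity
    have h6 := c3_bracket hq hq' hw1 hw2 ht hm' (le_max_left _ _) htt hs0 hδ0 h5 h4
      (hG.2.2.2 a b c hab hac hbc) (Nat.cast_nonneg _) heta (by rw [← hmd, e1])
    rw [hX, hbr, h2, e1]
    exact h6

end Vale.Agent.P046.Full.One
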