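import Vale.Agent.P046.Full.One.ExitPred
import Vale.Agent.P046.Full.One.Degrees
import Vale.Agent.P046.Full.One.Stmts
import Vale.Agent.P046.StartState

/-!
P046, the first phase: the killed chain loses at most `n ^ (-9)` of its mass (`ExitStmt`).
-/

namespace Vale.Agent.P046.Full.One

open Finset
open Vale.Agent.P046

variable {n : ℕ} {K : ℝ}

/-- The triples of different vertices. -/
def dist3 (n : ℕ) : Finset (Fin n × Fin n × Fin n) :=
  univ.filter (fun p => p.1 ≠ p.2.1 ∧ p.1 ≠ p.2.2 ∧ p.2.1 ≠ p.2.2)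

/-- The total potential of a state. -/
noncomputable def totPot (K : ℝ) (n k : ℕ) (G : Gr n) : ℝ :=
  (∑ g, ∑ j ∈ Icc k (Nst n), (termP K n 1 k j g G + termP K n (-1) k j g G)) +
    ∑ a, potDeg K n k a G + ∑ p ∈ dist3 n, potC3 K n k p.1 p.2.1 p.2.2 G +
      (if G ⊆ complete n then 0 else 1)

/-- The conditions on `n` for the exit bound. -/
def BigExit (K : ℝ) (n : ℕ) : Prop :=
  BigPred K n ∧ eta n ≤ 1 / 2 ∧ 3 * sV n ≤ Real.sqrt n ∧ 3 * sC n ≤ flr n ∧ qs n ≤ 1 / 10 ∧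
    8 * lg n * (dlt K n + 3 * sV n / Real.sqrt n) ≤ eta n ∧
    24 * lg n * (dlt K n + 1 / Lv n) + 144 * sC n / flr n ≤ eta n ∧
    200 * lg n ≤ eta n * sV n ∧ 200 * lg n ≤ eta n * sC n ∧ kap K n * dlt K n ≤ K ^ 2

lemma totPot_nonneg (k : ℕ) (G : Gr n) : 0 ≤ totPot K n k G := by
  unfold totPot
  refine add_nonneg (add_nonneg (add_nonneg ?_ ?_) ?_) (by split_ifs <;> norm_num)
  · exact sum_nonneg fun g _ => sum_nonneg fun j _ =>
      add_nonneg (termP_nonneg _ _ _ _ _ _) (termP_nonneg _ _ _ _ _ _)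
  · exact sum_nonneg fun a _ => (Real.exp_pos _).le
  · exact sum_nonneg fun p _ => (Real.exp_pos _).le

lemma step1_add (h : ℝ) (f g : Gr n → ℝ) (G : Gr n) :
    step1 h (fun J => f J + g J) G = step1 h f G + step1 h g G := by
  simp only [step1_eq, sum_add_distrib]; ring

lemma step1_finset_sum {ι : Type*} (s : Finset ι) (h : ℝ) (f : ι → Gr n → ℝ) (G : Gr n) :
    step1 h (fun J => ∑ i ∈ s, f i J) G = ∑ i ∈ s, step1 h (f i) G := by
  classical
  induction s using Finset.induction with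
  | empty => simp [step1]
  | insert i s hi ih =>
    simp only [sum_insert hi]
    rw [step1_add, ih]

/-- Outside the good states the potential is at least one. -/
lemma totPot_bad (hB : BigExit K n) {k : ℕ} {G : Gr n}
    (hG : ¬Good K n k G) : 1 ≤ totPot K n k G := by
  have h := hB.1.1
  have hK0 : 0 ≤ K := zero_le_one.trans hB.1.2.1
  have hl0 : 0 ≤ lg n := zero_le_one.trans h.2.1
  have hd0 : 0 ≤ dlt K n := div_nonneg (mul_nonneg hK0 hl0) (Real.sqrt_nonneg _)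
  have hA : 0 ≤ ∑ g, ∑ j ∈ Icc k (Nst n), (termP K n 1 k j g G + termP K n (-1) k j g G) :=
    sum_nonneg fun g _ => sum_nonneg fun j _ =>
      add_nonneg (termP_nonneg _ _ _ _ _ _) (termP_nonneg _ _ _ _ _ _)
  have hB' : 0 ≤ ∑ a, potDeg K n k a G := sum_nonneg fun a _ => (Real.exp_pos _).le
  have hC : 0 ≤ ∑ p ∈ dist3 n, potC3 K n k p.1 p.2.1 p.2.2 G :=
    sum_nonneg fun p _ => (Real.exp_pos _).le
  have hD : (0 : ℝ) ≤ if G ⊆ complete n then 0 else 1 := by split_ifs <;> norm_num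
  unfold totPot
  by_cases h1 : G ⊆ complete n
  swap
  · rw [if_neg h1]; linarith
  by_cases h2 : ∀ g ∈ G, ∀ j, k ≤ j → j ≤ Nst n →
      |psiP n k j G g| ≤ kap K n / Real.sqrt (Dk n j)
  swap
  · push Not at h2
    obtain ⟨g, hg, j, hkj, hjN, hbad⟩ := h2
    have hs := Real.sqrt_pos.2 (h.dk_pos j)
    rw [div_lt_iff₀ hs] at hbad
    have hR : 0 ≤ ((Nst n - k : ℕ) : ℝ) * compP K n := by
      refine mul_nonneg (Nat.cast_nonneg _) (mul_nonneg h.qs_pos.le ?_)
      positivity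
    have hone : 1 ≤ termP K n 1 k j g G + termP K n (-1) k j g G := by
      rcases le_total 0 (psiP n k j G g) with hp | hp
      · rw [abs_of_nonneg hp] at hbad
        have : 1 ≤ termP K n 1 k j g G := by
          rw [termP, if_pos hg]; exact Real.one_le_exp (by linarith)
        linarith [termP_nonneg K (-1) k j g G]
      · rw [abs_of_nonpos hp] at hbad
        have : 1 ≤ termP K n (-1) k j g G := by
          rw [termP, if_pos hg]; exact Real.one_le_exp (by linarith)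
        linarith [termP_nonneg K 1 k j g G]
    have h0 : ∀ g' j', 0 ≤ termP K n 1 k j' g' G + termP K n (-1) k j' g' G := fun g' j' =>
      add_nonneg (termP_nonneg _ _ _ _ _ _) (termP_nonneg _ _ _ _ _ _)
    have h3 := single_le_sum (s := Icc k (Nst n))
      (f := fun j' => termP K n 1 k j' g G + termP K n (-1) k j' g G) (fun j' _ => h0 g j')
      (mem_Icc.2 ⟨hkj, hjN⟩)
    have h4 := single_le_sum (s := (univ : Finset (Finset (Fin n))))
      (f := fun g' => ∑ j' ∈ Icc k (Nst n), (termP K n 1 k j' g' G + termP K n (-1) k j' g' G))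
      (fun g' _ => sum_nonneg fun j' _ => h0 g' j') (mem_univ g)
    linarith
  by_cases h3 : ∀ a, (vdeg G a : ℝ) ≤ (1 + eta n) * Real.sqrt ((n : ℝ) * Dk n k)
  swap
  · push Not at h3
    obtain ⟨a, ha⟩ := h3
    have hs : 0 < Real.sqrt ((n : ℝ) * Dk n k) := Real.sqrt_pos.2 (mul_pos h.n_pos (h.dk_pos k))
    have hone : 1 ≤ potDeg K n k a G := by
      refine Real.one_le_exp ?_
      have hsV : 0 ≤ sV n := sq_nonneg _
      have hR : 0 ≤ ((Nst n - k : ℕ) : ℝ) * compV K n := by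
        refine mul_nonneg (Nat.cast_nonneg _) ?_
        have := h.qs_pos
        unfold compV
        positivity
      have hmul : sV n * (1 + eta n) ≤ sV n * (vdeg G a : ℝ) / Real.sqrt ((n : ℝ) * Dk n k) := by
        rw [le_div_iff₀ hs, mul_assoc]
        exact mul_le_mul_of_nonneg_left ha.le hsV
      linarith
    have := single_le_sum (s := (univ : Finset (Fin n))) (f := fun a => potDeg K n k a G)
      (fun a _ => (Real.exp_pos _).le) (mem_univ a)
    linarith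
  have h4 : ¬∀ a b c : Fin n, a ≠ b → a ≠ c → b ≠ c → (c3 G a b c : ℝ) ≤ (1 + eta n) * m3 n k :=
    fun h4 => hG ⟨h1, h2, h3, h4⟩
  push Not at h4
  obtain ⟨a, b, c, hab, hac, hbc, hbad⟩ := h4
  have hm : 0 < m3 n k := (flr_pos h).trans_le (le_max_right _ _)
  have hone : 1 ≤ potC3 K n k a b c G := by
    refine Real.one_le_exp ?_
    have hsC : 0 ≤ sC n := Real.rpow_nonneg hl0 _
    have hR : 0 ≤ remC K n k := by
      have := phi3_nonneg (n := n) k
      have := h.qs_pos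
      have := h.lv_pos
      unfold remC
      positivity
    have hmul : sC n * (1 + eta n) ≤ sC n * (c3 G a b c : ℝ) / m3 n k := by
      rw [le_div_iff₀ hm, mul_assoc]
      exact mul_le_mul_of_nonneg_left hbad.le hsC
    linarith
  have := single_le_sum (s := dist3 n) (f := fun p => potC3 K n k p.1 p.2.1 p.2.2 G)
    (fun p _ => (Real.exp_pos _).le) (a := (a, b, c)) (by simp [dist3, hab, hac, hbc])
  linarith

/-- On good states the potential does not grow. -/
lemma totPot_step (hB : BigExit K n) {k : ℕ} (hk1 : k < Nst n) {G : Gr n} (hG : Good K n k G) :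
    step1 (hk n k) (totPot K n (k + 1)) G ≤ totPot K n k G := by
  obtain ⟨hP, heta, hsV, hsC, hq, -⟩ := hB
  have h := hP.1
  have hK0 : 0 ≤ K := zero_le_one.trans hP.2.1
  have hd : dlt K n ≤ 1 / 2 := by
    have h0 : 0 ≤ dlt K n :=
      div_nonneg (mul_nonneg hK0 (zero_le_one.trans h.2.1)) (Real.sqrt_nonneg _)
    linarith [le_mul_of_one_le_right h0 h.2.1, hP.2.2.1]
  have hL : 2 ≤ Lv n := le_trans (by norm_num) hP.2.2.2.1
  unfold totPot
  simp only [step1_add, step1_finset_sum]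
  refine add_le_add (add_le_add (add_le_add ?_ ?_) ?_) ?_
  · refine sum_le_sum fun g _ => ?_
    refine (sum_le_sum fun j hj => add_le_add
      (termP_step hP (mem_Icc.1 hj).1 (mem_Icc.1 hj).2 hG (Or.inl rfl) g)
      (termP_step hP (mem_Icc.1 hj).1 (mem_Icc.1 hj).2 hG (Or.inr rfl) g)).trans ?_
    exact sum_le_sum_of_subset_of_nonneg (Icc_subset_Icc (Nat.le_succ k) le_rfl) fun j _ _ =>
      add_nonneg (termP_nonneg _ _ _ _ _ _) (termP_nonneg _ _ _ _ _ _)
  · exact sum_le_sum fun a _ => potDeg_step h hK0 heta hsV hk1 hG a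
  · refine sum_le_sum fun p hp => ?_
    simp only [dist3, mem_filter, mem_univ, true_and] at hp
    exact potC3_step h hK0 hd heta hL hsC hq hk1 hG hp.1 hp.2.1 hp.2.2
  · rw [if_pos hG.1, step1_eq, if_pos hG.1]
    rw [sum_eq_zero fun E _ => if_pos ((rem_subset G E).trans hG.1)]
    simp

/-- At the start the potential is tiny. -/
lemma totPot_zero (hB : BigExit K n) (hK : (10 : ℝ) ^ 8 ≤ K) (hKd : K * (dlt K n * lg n) ≤ 1) :
    totPot K n 0 (complete n) ≤ 1 / (n : ℝ) ^ 9 := by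
  obtain ⟨hP, heta, -, -, -, hcV, hcC, hsV, hsC, -⟩ := hB
  obtain ⟨h, hK1, hdl, hL, -⟩ := hP
  have hn := h.n_pos
  have hl : 1 ≤ lg n := h.2.1
  have hlg0 : 0 ≤ lg n := zero_le_one.trans hl
  have hq := h.qs_pos
  have hN : qs n * Nst n ≤ lg n := h.qs_mul_nst_le
  have hn1 : (1 : ℝ) ≤ n := by exact_mod_cast (show 1 ≤ n by have := h.1; omega)
  have hexp : Real.exp (-(100 * lg n)) = 1 / (n : ℝ) ^ 100 := by
    rw [Real.exp_neg, one_div, lg, show (100 : ℝ) * Real.log n = ((100 : ℕ) : ℝ) * Real.log n by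
      norm_num, Real.exp_nat_mul, Real.exp_log hn]
  have hd0 : 0 ≤ dlt K n := div_nonneg (mul_nonneg (zero_le_one.trans hK1) hlg0) (Real.sqrt_nonneg _)
  have hDk0 : Dk n 0 = n := by simp [Dk]
  -- predictions
  have hpsi : ∀ g ∈ complete n, ∀ j ≤ Nst n, ∀ σ : ℝ, (σ = 1 ∨ σ = -1) →
      termP K n σ 0 j g (complete n) ≤ 1 / (n : ℝ) ^ 100 := by
    intro g hg j hj σ hσ
    rw [termP, if_pos hg, ← hexp, Real.exp_le_exp]
    have hdeg : ∀ f ∈ complete n, (deg (complete n) f : ℝ) = (n : ℝ) - 2 := fun f hf => by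
      rw [deg_complete hf, Nat.cast_sub (by have := h.1; omega), Nat.cast_ofNat]
    have hx : ∀ f, |xv (n : ℝ) (complete n) f| ≤ 2 / n := by
      intro f
      by_cases hf : f ∈ complete n
      · rw [xv, if_pos hf, xg, hdeg f hf, sub_div, div_self hn.ne', sub_sub_cancel_left,
          abs_neg, abs_of_nonneg (by positivity)]
      · simp [xv, hf]
        positivity
    have hpb : |psiP n 0 j (complete n) g| ≤ 2 / Dk n j := by
      rw [psiP, hDk0, Nat.sub_zero]
      refine (mop_iter_sup_le (Δ := (n : ℝ)) hn.le (fun f hf => by rw [hdeg f hf]; linarith)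
        subset_rfl (le_of_eq (abs_of_nonneg (div_nonneg hq.le hn.le))) hx j g).trans_eq ?_
      rw [show 1 + 2 * (qs n / (n : ℝ)) * (n : ℝ) = 1 + 2 * qs n by field_simp]
      have := h.base_pos
      rw [Dk]
      field_simp
    have hDj := h.dk_pos j
    have hs1 : 1 ≤ Real.sqrt (Dk n j) := Real.one_le_sqrt.2 (h.2.2.2.1.trans (h.lv_le_dk hj))
    have h1 : σ * Real.sqrt (Dk n j) * psiP n 0 j (complete n) g ≤ 2 := by
      refine (le_abs_self _).trans ?_
      rw [abs_mul, abs_mul, show |σ| = 1 by rcases hσ with rfl | rfl <;> simp, one_mul,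
        abs_of_nonneg (Real.sqrt_nonneg _)]
      refine (mul_le_mul_of_nonneg_left hpb (Real.sqrt_nonneg _)).trans ?_
      rw [mul_div_assoc', div_le_iff₀ hDj]
      nlinarith [Real.mul_self_sqrt hDj.le]
    have hc : ((Nst n - 0 : ℕ) : ℝ) * compP K n ≤ 3000000 * lg n := by
      rw [Nat.sub_zero, compP]
      have h2 : kap K n ^ 2 / Real.sqrt (Lv n) ≤ 1 := by
        have : kap K n ^ 2 / Real.sqrt (Lv n) = K * (dlt K n * lg n) := by
          rw [dlt, kap]; ring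
        linarith
      calc (Nst n : ℝ) * (qs n * (801 * kap K n ^ 2 / Real.sqrt (Lv n) + 2500000))
          = (qs n * Nst n) * (801 * (kap K n ^ 2 / Real.sqrt (Lv n)) + 2500000) := by ring
        _ ≤ lg n * (801 * 1 + 2500000) := by gcongr
        _ ≤ _ := by nlinarith
    have hk8 : (10 : ℝ) ^ 8 * lg n ≤ kap K n := mul_le_mul_of_nonneg_right hK hlg0
    linarith
  have hdeg0 : ∀ a, potDeg K n 0 a (complete n) ≤ 1 / (n : ℝ) ^ 100 := by
    intro a
    rw [potDeg, ← hexp, Real.exp_le_exp, hDk0, Real.sqrt_mul_self hn.le, Nat.sub_zero]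
    have hv : (vdeg (complete n) a : ℝ) ≤ n := by
      have h1 : vdeg (complete n) a ≤ ((univ : Finset (Fin n)).image (fun b => ({a, b} : Finset (Fin n)))).card := by
        refine card_le_card fun e he => ?_
        obtain ⟨he, hae⟩ := mem_filter.1 he
        obtain ⟨-, hc⟩ := mem_powersetCard.1 he
        obtain ⟨b, hb, hba⟩ := exists_mem_ne (by omega : 1 < e.card) a
        refine mem_image.2 ⟨b, mem_univ b, eq_of_subset_of_card_le ?_ ?_⟩
        · intro x hx; simp at hx; rcases hx with rfl | rfl <;> assumption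
        · rw [card_pair hba.symm, hc]
      exact_mod_cast h1.trans (card_image_le.trans (by simp))
    have hsV0 : 0 ≤ sV n := sq_nonneg _
    have h1 : sV n * (vdeg (complete n) a : ℝ) / n ≤ sV n := by
      rw [div_le_iff₀ hn]; exact mul_le_mul_of_nonneg_left hv hsV0
    have h2 : (Nst n : ℝ) * compV K n ≤ sV n * eta n / 2 := by
      rw [compV]
      calc (Nst n : ℝ) * (4 * sV n * qs n * (dlt K n + 3 * sV n / Real.sqrt n))
          = 4 * sV n * (qs n * Nst n) * (dlt K n + 3 * sV n / Real.sqrt n) := by ring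
        _ ≤ 4 * sV n * lg n * (dlt K n + 3 * sV n / Real.sqrt n) := by gcongr
        _ = sV n / 2 * (8 * lg n * (dlt K n + 3 * sV n / Real.sqrt n)) := by ring
        _ ≤ sV n / 2 * eta n := mul_le_mul_of_nonneg_left hcV (by positivity)
        _ = _ := by ring
    linarith
  have hc30 : ∀ p ∈ dist3 n, potC3 K n 0 p.1 p.2.1 p.2.2 (complete n) ≤ 1 / (n : ℝ) ^ 100 := by
    intro p _
    rw [potC3, ← hexp, Real.exp_le_exp]
    have hm : (n : ℝ) ≤ m3 n 0 := by
      refine le_trans ?_ (le_max_left _ _)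
      rw [hDk0, mul_div_assoc, div_self (Real.sqrt_pos.2 hn).ne', mul_one]
    have hsC0 : 0 ≤ sC n := Real.rpow_nonneg hlg0 _
    have h1 : sC n * (c3 (complete n) p.1 p.2.1 p.2.2 : ℝ) / m3 n 0 ≤ sC n := by
      rw [div_le_iff₀ (hn.trans_le hm)]
      refine mul_le_mul_of_nonneg_left (le_trans ?_ hm) hsC0
      exact_mod_cast (card_filter_le _ _).trans (by simp)
    have hflr := flr_pos h
    have h2 : remC K n 0 ≤ sC n * eta n / 2 := by
      rw [remC, Nat.sub_zero]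
      have hphi : phi3 n 0 ≤ 2 / flr n := by
        refine sub_le_self _ (le_min ?_ (by positivity))
        have := t3_pos h 0
        positivity
      have := h.lv_pos
      calc (Nst n : ℝ) * (12 * sC n * qs n * (dlt K n + 1 / Lv n)) + 36 * sC n ^ 2 * phi3 n 0
          = 12 * sC n * (qs n * Nst n) * (dlt K n + 1 / Lv n) + 36 * sC n ^ 2 * phi3 n 0 := by ring
        _ ≤ 12 * sC n * lg n * (dlt K n + 1 / Lv n) + 36 * sC n ^ 2 * (2 / flr n) := by gcongr
        _ = sC n / 2 * (24 * lg n * (dlt K n + 1 / Lv n) + 144 * sC n / flr n) := by ring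
        _ ≤ sC n / 2 * eta n := mul_le_mul_of_nonneg_left hcC (by positivity)
        _ = _ := by ring
    linarith
  have hpos : 0 ≤ 1 / (n : ℝ) ^ 100 := by positivity
  unfold totPot
  rw [if_pos subset_rfl, add_zero]
  have hA : ∑ g, ∑ j ∈ Icc 0 (Nst n),
      (termP K n 1 0 j g (complete n) + termP K n (-1) 0 j g (complete n)) ≤
      (n : ℝ) ^ 2 * ((2 * (n : ℝ) ^ 60) * (2 * (1 / (n : ℝ) ^ 100))) := by
    rw [← sum_subset (subset_univ (complete n)) (fun g _ hg => by simp [termP, hg])]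
    refine (sum_le_card_nsmul _ _ ((2 * (n : ℝ) ^ 60) * (2 * (1 / (n : ℝ) ^ 100)))
      fun g hg => ?_).trans ?_
    · refine (sum_le_card_nsmul _ _ (2 * (1 / (n : ℝ) ^ 100)) fun j hj => ?_).trans ?_
      · rw [two_mul]
        exact add_le_add (hpsi g hg j (mem_Icc.1 hj).2 1 (Or.inl rfl))
          (hpsi g hg j (mem_Icc.1 hj).2 (-1) (Or.inr rfl))
      · rw [Nat.card_Icc, Nat.sub_zero, nsmul_eq_mul, Nst, Nat.cast_add, Nat.cast_pow, Nat.cast_one]
        gcongr
        linarith [one_le_pow₀ hn1 (n := 60)]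
    · rw [nsmul_eq_mul]
      gcongr
      have h2 : (complete n).card ≤ n ^ 2 := by
        simp only [complete, card_powersetCard, card_univ, Fintype.card_fin]
        exact Nat.choose_le_pow n 2
      exact_mod_cast h2
  have hB1 : ∑ a, potDeg K n 0 a (complete n) ≤ (n : ℝ) * (1 / (n : ℝ) ^ 100) :=
    (sum_le_card_nsmul _ _ _ fun a _ => hdeg0 a).trans_eq (by simp)
  have hC1 : ∑ p ∈ dist3 n, potC3 K n 0 p.1 p.2.1 p.2.2 (complete n) ≤
      (n : ℝ) ^ 3 * (1 / (n : ℝ) ^ 100) := by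
    refine (sum_le_card_nsmul _ _ _ hc30).trans ?_
    rw [nsmul_eq_mul]
    refine mul_le_mul_of_nonneg_right ?_ hpos
    have h2 : (dist3 n).card ≤ n ^ 3 := (card_filter_le _ _).trans (le_of_eq (by simp; ring))
    exact_mod_cast h2
  refine (add_le_add (add_le_add hA hB1) hC1).trans ?_
  rw [le_div_iff₀ (by positivity)]
  have h3n : (3 : ℝ) ≤ n := by exact_mod_cast h.1
  have e : ((n : ℝ) ^ 2 * (2 * (n : ℝ) ^ 60 * (2 * (1 / (n : ℝ) ^ 100))) +
      (n : ℝ) * (1 / (n : ℝ) ^ 100) + (n : ℝ) ^ 3 * (1 / (n : ℝ) ^ 100)) * (n : ℝ) ^ 9 =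
      (4 * (n : ℝ) ^ 71 + (n : ℝ) ^ 10 + (n : ℝ) ^ 12) / (n : ℝ) ^ 100 := by ring
  rw [e, div_le_one (by positivity)]
  have h10 : (n : ℝ) ^ 10 ≤ (n : ℝ) ^ 71 := pow_le_pow_right₀ hn1 (by norm_num)
  have h12 : (n : ℝ) ^ 12 ≤ (n : ℝ) ^ 71 := pow_le_pow_right₀ hn1 (by norm_num)
  calc 4 * (n : ℝ) ^ 71 + (n : ℝ) ^ 10 + (n : ℝ) ^ 12 ≤ 6 * (n : ℝ) ^ 71 := by linarith
    _ ≤ (n : ℝ) ^ 2 * (n : ℝ) ^ 71 := by gcongr; nlinarith
    _ ≤ _ := by rw [← pow_add]; exact pow_le_pow_right₀ hn1 (by norm_num)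

lemma eventually_big (hK : 1 ≤ K) :
    ∀ᶠ n : ℕ in Filter.atTop, BigExit K n ∧ K * (dlt K n * lg n) ≤ 1 := by
  have hl : Filter.Tendsto (fun n : ℕ => lg n) Filter.atTop Filter.atTop :=
    Real.tendsto_log_atTop.comp tendsto_natCast_atTop_atTop
  have hK0 : 0 < K := zero_lt_one.trans_le hK
  have neg : ∀ p : ℝ, 0 < p → ∀ c : ℝ, 0 < c →
      ∀ᶠ n : ℕ in Filter.atTop, lg n ^ (-p) ≤ c := fun p hp c hc =>
    ((tendsto_rpow_neg_atTop hp).comp hl).eventually (ge_mem_nhds hc)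
  have pos : ∀ p : ℝ, 0 < p → ∀ c : ℝ,
      ∀ᶠ n : ℕ in Filter.atTop, c ≤ lg n ^ p := fun p hp c =>
    ((tendsto_rpow_atTop hp).comp hl).eventually_ge_atTop c
  have hsq : ∀ c : ℝ, 0 < c → ∀ᶠ n : ℕ in Filter.atTop,
      lg n ^ (4 : ℝ) ≤ c * Real.sqrt n := by
    intro c hc
    have := (isLittleO_log_rpow_rpow_atTop (4 : ℝ) (show (0 : ℝ) < 1 / 2 by norm_num)).bound hc
    filter_upwards [tendsto_natCast_atTop_atTop.eventually this] with n hn
    rw [Real.norm_eq_abs, Real.norm_eq_abs, abs_of_nonneg (Real.rpow_nonneg (Nat.cast_nonneg n) _),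
      ← Real.sqrt_eq_rpow] at hn
    exact (le_abs_self _).trans hn
  filter_upwards [eventually_ok, neg (1 / 20) (by norm_num) (1 / (200 * K)) (by positivity),
    neg (1 / 20) (by norm_num) (1 / 10000) (by norm_num), pos (1 / 20) (by norm_num) 200,
    pos (21 / 5) (by norm_num) ((114 : ℝ) ^ 2), pos (11 / 5) (by norm_num) (4 * K ^ 2),
    hsq (1 / 100) (by norm_num)] with n h h1 h2 h3 h4 h5 h6
  have hl1 := h.2.1
  have hl0 : 0 < lg n := zero_lt_one.trans_le hl1
  have hn := h.n_pos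
  have ee : ∀ a b c : ℝ, a + b = c → lg n ^ a * lg n ^ b = lg n ^ c := fun a b c e => by
    rw [← Real.rpow_add hl0, e]
  have mono : ∀ a b : ℝ, a ≤ b → lg n ^ a ≤ lg n ^ b := fun a b e =>
    Real.rpow_le_rpow_of_exponent_le hl1 e
  have r1 : lg n = lg n ^ (1 : ℝ) := (Real.rpow_one _).symm
  have hrs : Real.sqrt (lg n) = lg n ^ (1 / 2 : ℝ) := Real.sqrt_eq_rpow _
  have hflr : flr n = lg n ^ (3 / 2 : ℝ) := by
    rw [flr, hrs]
    nth_rw 1 [r1]
    exact ee _ _ _ (by norm_num)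
  have heta : eta n = lg n ^ (-(1 / 20) : ℝ) := rfl
  have hlgdlt : dlt K n * lg n = K * lg n ^ (-(1 / 10) : ℝ) := dlt_lg_eq h
  have h110 : lg n ^ (-(1 / 10) : ℝ) = lg n ^ (-(1 / 20) : ℝ) * lg n ^ (-(1 / 20) : ℝ) :=
    (ee _ _ _ (by norm_num)).symm
  have he0 : 0 < lg n ^ (-(1 / 20) : ℝ) := Real.rpow_pos_of_pos hl0 _
  rw [le_div_iff₀ (by positivity : (0 : ℝ) < 200 * K)] at h1
  have hKd1 : dlt K n * lg n ≤ lg n ^ (-(1 / 20) : ℝ) / 200 := by
    rw [hlgdlt, h110]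
    have := mul_le_mul_of_nonneg_left h1 he0.le
    linarith
  have hKd2 : K * (dlt K n * lg n) ≤ 1 := by
    rw [hlgdlt, h110]
    have h11 := mul_le_mul h1 h1 (by positivity) zero_le_one
    linarith [mul_nonneg (mul_nonneg he0.le he0.le) (sq_nonneg K)]
  have hsVl : sV n = lg n ^ (2 : ℝ) := by rw [sV, ← Real.rpow_natCast]; norm_num
  have hn3 : lg n ^ (3 : ℝ) ≤ lg n ^ (-(1 / 20) : ℝ) * (1 / 100 * Real.sqrt n) := by
    refine le_trans ?_ (mul_le_mul_of_nonneg_left h6 he0.le)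
    rw [ee _ _ (79 / 20) (by norm_num)]
    exact mono _ _ (by norm_num)
  have hsn : 0 < Real.sqrt n := Real.sqrt_pos.2 hn
  refine ⟨⟨⟨h, hK, by linarith, h4, ?_⟩, by rw [heta]; linarith, ?_, ?_, ?_, ?_, ?_, ?_, ?_, ?_⟩,
    hKd2⟩
  · have : kap K n ^ 2 = K ^ 2 * lg n ^ (2 : ℝ) := by
      rw [kap, mul_pow, ← Real.rpow_natCast (lg n) 2]; norm_num
    rw [this, Lv, ← ee 2 (11 / 5) (21 / 5) (by norm_num)]
    have := mul_le_mul_of_nonneg_left h5 (Real.rpow_pos_of_pos hl0 (2 : ℝ)).le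
    linarith
  · rw [hsVl]
    have := mono 2 4 (by norm_num)
    linarith
  · rw [hflr, sC, ← ee (11 / 10) (2 / 5) (3 / 2) (by norm_num)]
    have h7 : (3 : ℝ) ≤ lg n ^ (2 / 5 : ℝ) :=
      le_trans (by linarith) (mono (1 / 20) (2 / 5) (by norm_num))
    have := mul_le_mul_of_nonneg_left h7 (Real.rpow_pos_of_pos hl0 (11 / 10 : ℝ)).le
    linarith
  · refine h.qs_le.trans ?_
    rw [div_le_iff₀ (by exact_mod_cast h.nst_pos), Nst, Nat.cast_pow]
    have h3n : (3 : ℝ) ≤ n := by exact_mod_cast h.1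
    calc lg n ≤ (n : ℝ) := h.2.2.1
      _ ≤ 1 / 10 * ((n : ℝ) * (n : ℝ) ^ 3) := by
          have : (27 : ℝ) ≤ (n : ℝ) ^ 3 := le_trans (by norm_num) (pow_le_pow_left₀ (by norm_num) h3n 3)
          nlinarith
      _ ≤ 1 / 10 * (n : ℝ) ^ 60 := by
          rw [← pow_succ']
          refine mul_le_mul_of_nonneg_left ?_ (by norm_num)
          exact pow_le_pow_right₀ (by linarith) (by norm_num)
  · rw [heta, hsVl]
    have h7 : 24 * (lg n * lg n ^ (2 : ℝ) / Real.sqrt n) ≤ lg n ^ (-(1 / 20) : ℝ) / 2 := by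
      have : lg n * lg n ^ (2 : ℝ) = lg n ^ (3 : ℝ) := by
        nth_rw 1 [r1]; exact ee _ _ _ (by norm_num)
      rw [this, mul_div_assoc', div_le_iff₀ hsn]
      linarith [mul_nonneg he0.le hsn.le]
    calc 8 * lg n * (dlt K n + 3 * lg n ^ (2 : ℝ) / Real.sqrt n)
        = 8 * (dlt K n * lg n) + 24 * (lg n * lg n ^ (2 : ℝ) / Real.sqrt n) := by ring
      _ ≤ _ := by linarith
  · rw [heta, hflr, sC, Lv]
    have a1 : lg n * (1 / lg n ^ (21 / 5 : ℝ)) ≤ lg n ^ (-(1 / 20) : ℝ) / 1000 := by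
      have e : lg n * (1 / lg n ^ (21 / 5 : ℝ)) = lg n ^ (-(16 / 5) : ℝ) := by
        rw [mul_one_div]
        nth_rw 1 [r1]
        rw [← Real.rpow_sub hl0]
        norm_num
      rw [e]
      calc lg n ^ (-(16 / 5) : ℝ) ≤ lg n ^ (-(2 / 20) : ℝ) := mono _ _ (by norm_num)
        _ = lg n ^ (-(1 / 20) : ℝ) * lg n ^ (-(1 / 20) : ℝ) := (ee _ _ _ (by norm_num)).symm
        _ ≤ lg n ^ (-(1 / 20) : ℝ) * (1 / 10000) := mul_le_mul_of_nonneg_left h2 he0.le
        _ ≤ _ := by linarith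
    have a2 : lg n ^ (11 / 10 : ℝ) / lg n ^ (3 / 2 : ℝ) ≤ lg n ^ (-(1 / 20) : ℝ) / 1000 := by
      rw [← Real.rpow_sub hl0]
      calc lg n ^ ((11 / 10 : ℝ) - 3 / 2) ≤ lg n ^ (-(2 / 20) : ℝ) := mono _ _ (by norm_num)
        _ = lg n ^ (-(1 / 20) : ℝ) * lg n ^ (-(1 / 20) : ℝ) := (ee _ _ _ (by norm_num)).symm
        _ ≤ lg n ^ (-(1 / 20) : ℝ) * (1 / 10000) := mul_le_mul_of_nonneg_left h2 he0.le
        _ ≤ _ := by linarith
    calc 24 * lg n * (dlt K n + 1 / lg n ^ (21 / 5 : ℝ)) +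
          144 * lg n ^ (11 / 10 : ℝ) / lg n ^ (3 / 2 : ℝ)
        = 24 * (dlt K n * lg n) + 24 * (lg n * (1 / lg n ^ (21 / 5 : ℝ))) +
          144 * (lg n ^ (11 / 10 : ℝ) / lg n ^ (3 / 2 : ℝ)) := by ring
      _ ≤ _ := by linarith
  · rw [heta, hsVl, ee _ _ (39 / 20) (by norm_num),
      show (39 / 20 : ℝ) = 19 / 20 + 1 by norm_num, Real.rpow_add hl0, Real.rpow_one]
    exact mul_le_mul_of_nonneg_right (h3.trans (mono _ _ (by norm_num))) hl0.le
  · rw [heta, sC, ee _ _ (21 / 20) (by norm_num),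
      show (21 / 20 : ℝ) = 1 / 20 + 1 by norm_num, Real.rpow_add hl0, Real.rpow_one]
    exact mul_le_mul_of_nonneg_right h3 hl0.le
  · calc kap K n * dlt K n = K * (dlt K n * lg n) := by rw [kap]; ring
      _ ≤ 1 := hKd2
      _ ≤ K ^ 2 := one_le_pow₀ hK

theorem exitStmt : ExitStmt := by
  refine ⟨(10 : ℝ) ^ 8, by norm_num, ?_⟩
  filter_upwards [eventually_big (K := (10 : ℝ) ^ 8) (by norm_num)] with n hn
  have h := hn.1.1.1
  refine le_trans ?_ (mass_lb h (totPot ((10 : ℝ) ^ 8) n) totPot_nonneg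
    (fun k _ G hG => totPot_bad hn.1 hG) (fun k hk G hG => totPot_step hn.1 hk hG))
  linarith [totPot_zero hn.1 le_rfl hn.2]

end Vale.Agent.P046.Full.One
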