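import Vale.Agent.P046.Full.One.Facts
import Vale.Agent.P046.Full.One.Balls

/-!
P046, the first phase: the scales of the potentials along the grid and the conditions on `n`.
-/

namespace Vale.Agent.P046.Full.One

open Finset Filter
open Vale.Agent.P046

variable {n : ℕ} {K D q : ℝ}

/-- The constant of the squared neighbour sums. -/
def cW : ℝ := 14000

/-- The constant of the squared error. -/
def cA : ℝ := 4 * cW + 24

/-- The constant of the fourth power of the error. -/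
def cU : ℝ := 8 * cW + 40 * cA + 70

/-- The constant of the deviation of the number of edges. -/
def cZ : ℝ := 2 * cA + 9

/-- `m0 / D ^ 2`. -/
noncomputable def bs (n : ℕ) (D : ℝ) : ℝ := m0 n D / D ^ 2

/-- The square root of `D / n`. -/
noncomputable def rs (n : ℕ) (D : ℝ) : ℝ := Real.sqrt D / Real.sqrt n

/-- The floor of the common neighbour count. -/
noncomputable def lam15 (n : ℕ) : ℝ := lg n * Real.sqrt (lg n)

/-- `n` is large enough for the moments. -/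
structure Big (K : ℝ) (n : ℕ) : Prop where
  ok : Ok n
  hK : 1 ≤ K
  small : dlt K n ≤ 1 / 2048
  eta1 : eta n ≤ 1
  spec : 3 * eta n + 2 * dlt K n + 5 / Lv n ≤ 1 / 1024
  L16 : 16 ≤ Lv n
  lamL : lam15 n ≤ Lv n
  kapL : kap K n ^ 2 * lam15 n ≤ Lv n
  lamA : 40 * cA ≤ lam15 n
  lamU : 320 * cU ≤ lam15 n
  kap6 : kap K n ^ 6 * (320 * cU) ≤ n
  kap4 : kap K n ^ 4 * Lv n ≤ n
  L3 : Lv n ^ 3 ≤ n

lemma eventually_momBig (hK : 1 ≤ K) : ∀ᶠ n : ℕ in atTop, Big K n := by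
  have hK0 : 0 ≤ K := zero_le_one.trans hK
  have t : ∀ {e : ℝ}, 0 < e → Tendsto (fun n : ℕ => lg n ^ e) atTop atTop := fun he =>
    (tendsto_rpow_atTop he).comp tendsto_lg
  have hU : 0 < 320 * cU := by norm_num [cU, cA, cW]
  have hpoly : ∀ᶠ n : ℕ in atTop,
      (K ^ 6 * (320 * cU) + K ^ 4 + 1) * lg n ^ 15 ≤ (n : ℝ) := by
    have h0 : 0 < K ^ 6 * (320 * cU) + K ^ 4 + 1 := by positivity
    have h := tendsto_natCast_atTop_atTop.eventually
      ((Real.isLittleO_pow_log_id_atTop (n := 15)).bound (inv_pos.2 h0))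
    filter_upwards [h, eventually_ok] with n hn hok
    rw [Real.norm_eq_abs, Real.norm_eq_abs] at hn
    simp only [id, abs_of_pos hok.n_pos] at hn
    rw [mul_comm, ← le_div_iff₀ h0, div_eq_inv_mul]
    exact (le_abs_self _).trans hn
  filter_upwards [eventually_ok, eventually_dlt_le (K := K) (show (0 : ℝ) < 1 / 8192 by norm_num),
    eventually_eta_le (show (0 : ℝ) < 1 / 8192 by norm_num),
    (t (show (0 : ℝ) < 21 / 5 by norm_num)).eventually_ge_atTop 40960,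
    (t (show (0 : ℝ) < 7 / 10 by norm_num)).eventually_ge_atTop (K ^ 2),
    tendsto_lg.eventually_ge_atTop (320 * cU), hpoly] with n hok hd he hL hc hl hp
  have hl1 := hok.2.1
  have hl0 : 0 < lg n := zero_lt_one.trans_le hl1
  have hLv : Lv n = lg n ^ (21 / 5 : ℝ) := rfl
  rw [← hLv] at hL
  have hd0 : 0 ≤ dlt K n := by
    have := mul_nonneg hK0 hl0.le
    unfold dlt kap
    positivity
  have hd' : dlt K n ≤ 1 / 8192 := (le_mul_of_one_le_right hd0 hl1).trans hd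
  have h5L : 5 / Lv n ≤ 1 / 8192 := by rw [div_le_iff₀ hok.lv_pos]; linarith
  have hlam : lam15 n = lg n ^ (3 / 2 : ℝ) := by
    rw [lam15, Real.sqrt_eq_rpow, show (3 / 2 : ℝ) = 1 + 1 / 2 by norm_num, Real.rpow_add hl0,
      Real.rpow_one]
  have hlam1 : lg n ≤ lam15 n := le_mul_of_one_le_right hl0.le (Real.one_le_sqrt.2 hl1)
  have hA : 40 * cA ≤ 320 * cU := by norm_num [cU, cA, cW]
  have hL5 : Lv n ≤ lg n ^ 5 := by
    rw [hLv, ← Real.rpow_natCast]
    exact Real.rpow_le_rpow_of_exponent_le hl1 (by norm_num)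
  have h15 : ∀ m : ℕ, m ≤ 15 → lg n ^ m ≤ lg n ^ 15 := fun m hm => pow_le_pow_right₀ hl1 hm
  have hc6 : 0 ≤ K ^ 6 * (320 * cU) := by positivity
  have hc4 : 0 ≤ K ^ 4 := by positivity
  have hl15 : 0 ≤ lg n ^ 15 := by positivity
  refine ⟨hok, hK, by linarith, by linarith, by linarith, by linarith, ?_, ?_, hA.trans
    (hl.trans hlam1), hl.trans hlam1, ?_, ?_, ?_⟩
  · rw [hlam, hLv]
    exact Real.rpow_le_rpow_of_exponent_le hl1 (by norm_num)
  · have e : lg n ^ (21 / 5 : ℝ) = lg n ^ (7 / 10 : ℝ) * (lg n ^ 2 * lg n ^ (3 / 2 : ℝ)) := by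
      rw [← Real.rpow_natCast (lg n) 2, ← Real.rpow_add hl0, ← Real.rpow_add hl0]
      norm_num
    rw [hlam, hLv, kap, mul_pow, mul_assoc, e]
    exact mul_le_mul_of_nonneg_right hc (by positivity)
  · refine le_trans ?_ hp
    calc kap K n ^ 6 * (320 * cU) = K ^ 6 * (320 * cU) * lg n ^ 6 := by rw [kap]; ring
      _ ≤ (K ^ 6 * (320 * cU) + K ^ 4 + 1) * lg n ^ 15 :=
          mul_le_mul (by linarith) (h15 6 (by norm_num)) (by positivity) (by linarith)
  · refine le_trans ?_ hp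
    calc kap K n ^ 4 * Lv n ≤ K ^ 4 * lg n ^ 4 * lg n ^ 5 := by
          rw [kap, mul_pow]; exact mul_le_mul_of_nonneg_left hL5 (by positivity)
      _ = K ^ 4 * lg n ^ 9 := by ring
      _ ≤ (K ^ 6 * (320 * cU) + K ^ 4 + 1) * lg n ^ 15 :=
          mul_le_mul (by linarith) (h15 9 (by norm_num)) (by positivity) (by linarith)
  · refine le_trans ?_ hp
    calc Lv n ^ 3 ≤ (lg n ^ 5) ^ 3 := pow_le_pow_left₀ hok.lv_pos.le hL5 3
      _ = 1 * lg n ^ 15 := by ring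
      _ ≤ _ := mul_le_mul_of_nonneg_right (by linarith) hl15

/-! ### The scales -/

lemma m0_nonneg (n : ℕ) (D : ℝ) : 0 ≤ m0 n D := by unfold m0; positivity

lemma bs_nonneg (n : ℕ) (D : ℝ) : 0 ≤ bs n D := div_nonneg (m0_nonneg n D) (sq_nonneg D)

lemma m0_eq (hD : 0 < D) : m0 n D = bs n D * D ^ 2 := by rw [bs, div_mul_cancel₀]; positivity

lemma m0_sq_div (hD : 0 < D) : m0 n D ^ 2 / D = (n : ℝ) ^ 3 / 4 := by
  rw [m0, div_pow, mul_pow, mul_pow, Real.sq_sqrt (Nat.cast_nonneg n), Real.sq_sqrt hD.le]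
  field_simp
  ring

lemma m0_le (hDn : D ≤ n) : m0 n D ≤ (n : ℝ) ^ 2 / 2 := by
  have h := Real.sqrt_le_sqrt hDn
  have e := Real.mul_self_sqrt (Nat.cast_nonneg n : (0 : ℝ) ≤ n)
  rw [m0]
  calc (n : ℝ) * Real.sqrt n * Real.sqrt D / 2 ≤ (n : ℝ) * Real.sqrt n * Real.sqrt n / 2 := by gcongr
    _ = (n : ℝ) ^ 2 / 2 := by rw [mul_assoc, e]; ring

lemma half_le_bs (hD : 0 < D) (hDn : D ≤ n) : 1 / 2 ≤ bs n D := by
  have h := Real.sqrt_le_sqrt hDn
  have e := Real.mul_self_sqrt hD.le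
  have h1 : D * Real.sqrt D ≤ (n : ℝ) * Real.sqrt n :=
    mul_le_mul hDn h (Real.sqrt_nonneg _) (Nat.cast_nonneg _)
  rw [bs, m0, le_div_iff₀ (by positivity)]
  nlinarith [mul_le_mul_of_nonneg_right h1 (Real.sqrt_nonneg D)]

lemma bs_rs (hD : 0 < D) (hn : 0 < n) : bs n D * rs n D = (n : ℝ) / (2 * D) := by
  have : (0 : ℝ) < Real.sqrt n := Real.sqrt_pos.2 (by exact_mod_cast hn)
  have e := Real.sq_sqrt hD.le
  rw [bs, rs, m0]
  field_simp
  linear_combination e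

lemma bs_rs_cube (hD : 0 < D) (hn : 0 < n) :
    D * Real.sqrt D / Real.sqrt n * bs n D = (n : ℝ) / 2 := by
  have h := bs_rs hD hn
  rw [rs] at h
  linear_combination (norm := (field_simp; ring)) D * h

lemma sqrt_div_base (hq : 0 ≤ q) :
    Real.sqrt (D / (1 + 2 * q)) = Real.sqrt D / Real.sqrt (1 + 2 * q) ∧
      0 < Real.sqrt (1 + 2 * q) ∧ Real.sqrt (1 + 2 * q) ^ 2 = 1 + 2 * q := by
  have hp : 0 < 1 + 2 * q := by linarith
  exact ⟨Real.sqrt_div' D hp.le, Real.sqrt_pos.2 hp, Real.sq_sqrt hp.le⟩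

lemma bs_next (hD : 0 < D) (hq : 0 ≤ q) : (1 + 2 * q) * bs n D ≤ bs n (D / (1 + 2 * q)) := by
  obtain ⟨e1, e2, e3⟩ := sqrt_div_base (D := D) hq
  have h1 : 1 ≤ Real.sqrt (1 + 2 * q) := Real.one_le_sqrt.2 (by linarith)
  have e : bs n (D / (1 + 2 * q)) = (1 + 2 * q) * Real.sqrt (1 + 2 * q) * bs n D := by
    rw [bs, bs, m0, m0, e1]
    field_simp
    rw [e3]
  rw [e]
  exact mul_le_mul_of_nonneg_right (le_mul_of_one_le_right (by linarith) h1) (bs_nonneg n D)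

lemma bs_mul_next (hD : 0 < D) (hq : 0 ≤ q) (hq1 : q ≤ 1) :
    (1 + q / 2) * (D * bs n D) ≤ D / (1 + 2 * q) * bs n (D / (1 + 2 * q)) := by
  obtain ⟨e1, e2, e3⟩ := sqrt_div_base (D := D) hq
  have e : D / (1 + 2 * q) * bs n (D / (1 + 2 * q)) = Real.sqrt (1 + 2 * q) * (D * bs n D) := by
    rw [bs, bs, m0, m0, e1]
    field_simp
    rw [e3]
    ring
  rw [e]
  refine mul_le_mul_of_nonneg_right ?_ (mul_nonneg hD.le (bs_nonneg n D))
  exact Real.le_sqrt_of_sq_le (by nlinarith)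

lemma uU_next (hD : 0 < D) (hq : 0 ≤ q) (hn : 0 < n) (κ : ℝ) :
    (1 + 2 * q) * (bs n D * (1 + κ * rs n D)) ≤
      bs n (D / (1 + 2 * q)) * (1 + κ * rs n (D / (1 + 2 * q))) := by
  have h1 := bs_next (n := n) hD hq
  have hp : 0 < 1 + 2 * q := by linarith
  have h2 := bs_rs hD hn
  have h3 := bs_rs (div_pos hD hp) hn
  have h4 : (1 + 2 * q) * ((n : ℝ) / (2 * D)) = (n : ℝ) / (2 * (D / (1 + 2 * q))) := by
    field_simp
  linear_combination h1 + κ * (1 + 2 * q) * h2 - κ * h3 + κ * h4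

/-- The floor is at most the common neighbour count. -/
lemma lam15_le_m3 (n k : ℕ) : lam15 n ≤ m3 n k := le_max_right _ _

lemma cube_le_m3 (n k : ℕ) : Dk n k * Real.sqrt (Dk n k) / Real.sqrt n ≤ m3 n k := le_max_left _ _

lemma one_le_lam15 (h : Ok n) : 1 ≤ lam15 n := one_le_mul_of_one_le_of_one_le h.2.1
  (Real.one_le_sqrt.2 h.2.1)

/-- The scale of the squared neighbour sums grows like `1 + 2 q` once the floor is reached, and
does not decrease before. -/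
lemma m3_bs_next (h : Ok n) (k : ℕ) :
    m3 n k * bs n (Dk n k) ≤ m3 n (k + 1) * bs n (Dk n (k + 1)) ∧
      (Dk n k * Real.sqrt (Dk n k) / Real.sqrt n ≤ lam15 n →
        (1 + 2 * qs n) * (m3 n k * bs n (Dk n k)) ≤ m3 n (k + 1) * bs n (Dk n (k + 1))) := by
  have hn : 0 < n := by exact_mod_cast h.n_pos
  have hb := bs_next (n := n) (h.dk_pos k) h.qs_pos.le
  rw [← Ok.dk_succ] at hb
  have hlate : Dk n k * Real.sqrt (Dk n k) / Real.sqrt n ≤ lam15 n →
      (1 + 2 * qs n) * (m3 n k * bs n (Dk n k)) ≤ m3 n (k + 1) * bs n (Dk n (k + 1)) := fun hl => by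
    have e : m3 n k = lam15 n := max_eq_right hl
    rw [e]
    calc (1 + 2 * qs n) * (lam15 n * bs n (Dk n k)) = lam15 n * ((1 + 2 * qs n) * bs n (Dk n k)) := by
          ring
      _ ≤ lam15 n * bs n (Dk n (k + 1)) :=
          mul_le_mul_of_nonneg_left hb (zero_le_one.trans (one_le_lam15 h))
      _ ≤ _ := mul_le_mul_of_nonneg_right (lam15_le_m3 n _) (bs_nonneg n _)
  refine ⟨?_, hlate⟩
  rcases le_total (Dk n k * Real.sqrt (Dk n k) / Real.sqrt n) (lam15 n) with hl | hl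
  · refine le_trans (le_mul_of_one_le_left ?_ (by linarith [h.qs_pos])) (hlate hl)
    exact mul_nonneg ((zero_le_one.trans (one_le_lam15 h)).trans (lam15_le_m3 n k)) (bs_nonneg n _)
  · have e : m3 n k = Dk n k * Real.sqrt (Dk n k) / Real.sqrt n := max_eq_left hl
    rw [e, bs_rs_cube (h.dk_pos k) hn, ← bs_rs_cube (h.dk_pos (k + 1)) hn]
    exact mul_le_mul_of_nonneg_right (cube_le_m3 n _) (bs_nonneg n _)

namespace Big

variable (h : Big K n) {k : ℕ} (hk : k ≤ Nst n)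
include h hk

lemma sixteen_le_dk : 16 ≤ Dk n k := h.L16.trans (h.ok.lv_le_dk hk)

lemma m3_le_dk : m3 n k ≤ Dk n k := by
  refine max_le ?_ (h.lamL.trans (h.ok.lv_le_dk hk))
  have hn : (0 : ℝ) < Real.sqrt n := Real.sqrt_pos.2 h.ok.n_pos
  rw [div_le_iff₀ hn]
  exact mul_le_mul_of_nonneg_left (Real.sqrt_le_sqrt (h.ok.dk_le_n k)) (h.ok.dk_pos k).le

lemma kap_m3_div_le : kap K n ^ 2 * (m3 n k / Dk n k) ≤ 1 + kap K n ^ 2 * rs n (Dk n k) := by
  have hD := h.ok.dk_pos k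
  have hκ : 0 ≤ kap K n ^ 2 := sq_nonneg _
  have hr : 0 ≤ rs n (Dk n k) := by unfold rs; positivity
  have h1 : m3 n k ≤ rs n (Dk n k) * Dk n k + lam15 n := by
    refine max_le ?_ (le_add_of_nonneg_left (mul_nonneg hr hD.le))
    rw [show Dk n k * Real.sqrt (Dk n k) / Real.sqrt n = rs n (Dk n k) * Dk n k by rw [rs]; ring]
    exact le_add_of_nonneg_right (zero_le_one.trans (one_le_lam15 h.ok))
  rw [mul_div, div_le_iff₀ hD]
  linarith [mul_le_mul_of_nonneg_left h1 hκ, h.kapL.trans (h.ok.lv_le_dk hk)]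

omit hk in
lemma cU_scale_le : 160 * cU * (1 + kap K n ^ 2 * rs n (Dk n k)) ≤ 2 * m3 n k := by
  have hD := h.ok.dk_pos k
  have hn : (0 : ℝ) < Real.sqrt n := Real.sqrt_pos.2 h.ok.n_pos
  have hU : 0 < cU := by norm_num [cU, cA, cW]
  have hκ : 0 ≤ kap K n ^ 2 := sq_nonneg _
  set r := rs n (Dk n k) with hr
  have hr0 : 0 ≤ r := by rw [hr]; unfold rs; positivity
  have e : r ^ 3 * n = Dk n k * Real.sqrt (Dk n k) / Real.sqrt n := by
    have e1 := Real.sq_sqrt hD.le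
    have e2 := Real.sq_sqrt h.ok.n_pos.le
    have en : (n : ℝ) ≠ 0 := h.ok.n_pos.ne'
    calc r ^ 3 * n = Real.sqrt (Dk n k) ^ 2 * Real.sqrt (Dk n k) * n /
          (Real.sqrt n ^ 2 * Real.sqrt n) := by rw [hr, rs]; ring
      _ = Dk n k * Real.sqrt (Dk n k) * n / ((n : ℝ) * Real.sqrt n) := by rw [e1, e2]
      _ = _ := by field_simp
  have hkey : 320 * cU * (kap K n ^ 2 * r) ≤ 320 * cU + r ^ 3 * n := by
    rcases le_total (kap K n ^ 2 * r) 1 with h1 | h1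
    · have : 0 ≤ r ^ 3 * n := by positivity
      linarith [mul_le_mul_of_nonneg_left h1 (by positivity : 0 ≤ 320 * cU)]
    · have h2 : kap K n ^ 2 * r ≤ kap K n ^ 2 * r * (kap K n ^ 2 * r) ^ 2 :=
        le_mul_of_one_le_right (by linarith) (one_le_pow₀ h1)
      have h3 := mul_le_mul_of_nonneg_left h.kap6 (pow_nonneg hr0 3)
      linarith [mul_le_mul_of_nonneg_left h2 (by positivity : 0 ≤ 320 * cU)]
  linarith [h.lamU.trans (lam15_le_m3 n k), (e.le.trans (cube_le_m3 n k))]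

end Big

end Vale.Agent.P046.Full.One
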