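import Vale.Agent.P046.Full.One.Vec

/-!
P046, phase one: while the common neighbourhoods are quasirandom, the adjacency operator of the
triangles is bounded below by a small multiple of the predicted codegree.
-/

namespace Vale.Agent.P046.Full.One

open Finset
open Vale.Agent.P046

variable {n : ℕ}

/-- The neighbours of a vertex. -/
def vnb (G : Gr n) (a : Fin n) : Finset (Fin n) := univ.filter (fun b => ({a, b} : Finset _) ∈ G)

/-- The adjacency inside a neighbourhood. -/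
noncomputable def linkA (G : Gr n) (b c : Fin n) : ℝ := if ({b, c} : Finset _) ∈ G then 1 else 0

lemma mem_vnb {G : Gr n} {a b : Fin n} : b ∈ vnb G a ↔ ({a, b} : Finset _) ∈ G := by simp [vnb]

lemma pair_card {G : Gr n} (hG : G ⊆ complete n) {a b : Fin n} (h : ({a, b} : Finset _) ∈ G) :
    a ≠ b := by
  rintro rfl
  have := (mem_powersetCard.1 (hG h)).2
  simp at this

lemma card_vnb {G : Gr n} (hG : G ⊆ complete n) (a : Fin n) : (vnb G a).card = vdeg G a := by
  refine card_bij' (fun b _ => ({a, b} : Finset (Fin n))) (fun e _ => if h : (e.erase a).Nonempty then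
    (e.erase a).min' h else a) (fun b hb => ?_) (fun e he => ?_) (fun b hb => ?_) (fun e he => ?_)
  · exact mem_filter.2 ⟨mem_vnb.1 hb, mem_insert_self _ _⟩
  · obtain ⟨heG, hae⟩ := mem_filter.1 he
    obtain ⟨c, hc⟩ := card_eq_one.1 (show (e.erase a).card = 1 by
      rw [card_erase_of_mem hae, (mem_powersetCard.1 (hG heG)).2])
    have hne : (e.erase a).Nonempty := by rw [hc]; exact singleton_nonempty c
    rw [dif_pos hne]
    have : (e.erase a).min' hne = c := by simp [hc]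
    rw [this, mem_vnb]
    have he2 : e = {a, c} := by rw [← hc, insert_erase hae]
    exact he2 ▸ heG
  · have hab := pair_card hG (mem_vnb.1 hb)
    have hc : ({a, b} : Finset (Fin n)).erase a = {b} :=
      erase_insert (by simpa using hab)
    simp [hc]
  · obtain ⟨heG, hae⟩ := mem_filter.1 he
    obtain ⟨c, hc⟩ := card_eq_one.1 (show (e.erase a).card = 1 by
      rw [card_erase_of_mem hae, (mem_powersetCard.1 (hG heG)).2])
    simp only [hc, singleton_nonempty, dif_pos, min'_singleton]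
    rw [← hc, insert_erase hae]

/-- The degrees inside a neighbourhood are codegrees. -/
lemma sum_linkA {G : Gr n} (hG : G ⊆ complete n) {a b : Fin n} (hb : b ∈ vnb G a) :
    ∑ c ∈ vnb G a, linkA G b c = deg G {a, b} := by
  have hab := pair_card hG (mem_vnb.1 hb)
  simp only [linkA, sum_boole, deg]
  congr 1
  refine card_bij (fun c _ => ({a, b, c} : Finset (Fin n))) (fun c hc => ?_) (fun c hc c' hc' e => ?_)
    (fun E hE => ?_)
  · obtain ⟨hc, hbc⟩ := mem_filter.1 hc
    have hac := pair_card hG (mem_vnb.1 hc)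
    have hbc' := pair_card hG hbc
    have h3 : ({a, b, c} : Finset (Fin n)).card = 3 := by simp [hab, hac, hbc']
    refine mem_filter.2 ⟨mem_tri.2 ⟨h3, fun e he => ?_⟩,
      mem_sides.2 ⟨by simp [insert_subset_iff], card_pair hab⟩⟩
    obtain ⟨hes, he2⟩ := mem_sides.1 he
    obtain ⟨u, v, huv, rfl⟩ := card_eq_two.1 he2
    simp only [insert_subset_iff, singleton_subset_iff, mem_insert, mem_singleton] at hes
    rcases hes with ⟨rfl | rfl | rfl, rfl | rfl | rfl⟩ <;>
      first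
        | exact absurd rfl huv
        | exact mem_vnb.1 hb
        | exact mem_vnb.1 hc
        | exact hbc
        | (rw [pair_comm]; first | exact mem_vnb.1 hb | exact mem_vnb.1 hc | exact hbc)
  · obtain ⟨hc, hbc⟩ := mem_filter.1 hc
    have hac := pair_card hG (mem_vnb.1 hc)
    have hbc' := pair_card hG hbc
    have : c ∈ ({a, b, c'} : Finset (Fin n)) := by rw [← e]; simp
    simp only [mem_insert, mem_singleton] at this
    tauto
  · obtain ⟨hEt, habE⟩ := mem_filter.1 hE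
    obtain ⟨hE3, hEG⟩ := mem_tri.1 hEt
    obtain ⟨hsub, -⟩ := mem_sides.1 habE
    obtain ⟨c, hc⟩ := card_eq_one.1 (show (E \ {a, b}).card = 1 by
      rw [card_sdiff_of_subset hsub, hE3, card_pair hab])
    have hc' : c ∈ E \ {a, b} := by rw [hc]; exact mem_singleton_self c
    simp only [mem_sdiff, mem_insert, mem_singleton, not_or] at hc'
    obtain ⟨hcE, hca, hcb⟩ := hc'
    have haE : a ∈ E := hsub (mem_insert_self _ _)
    have hbE : b ∈ E := hsub (mem_insert_of_mem (mem_singleton_self b))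
    refine ⟨c, mem_filter.2 ⟨mem_vnb.2 (hEG (mem_sides.2 ⟨?_, card_pair (Ne.symm hca)⟩)),
      hEG (mem_sides.2 ⟨?_, card_pair (Ne.symm hcb)⟩)⟩, eq_of_subset_of_card_le ?_ ?_⟩
    · simp [insert_subset_iff, haE, hcE]
    · simp [insert_subset_iff, hbE, hcE]
    · simp [insert_subset_iff, haE, hbE, hcE]
    · simp [hE3, hab, Ne.symm hca, Ne.symm hcb]

/-- The quadratic form in one neighbourhood. -/
noncomputable def linkForm (G : Gr n) (v : Vec n) (a : Fin n) : ℝ :=
  ∑ b ∈ vnb G a, ∑ c ∈ vnb G a, linkA G b c * v {a, b} * v {a, c}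

/-- Ordered triangles sum to the quadratic form. -/
lemma ip_bop_eq_link {G : Gr n} (hG : G ⊆ complete n) (v : Vec n) :
    ip v (bop G v) = ∑ a, linkForm G v a := by
  rw [sum_mul_bop]
  have h1 : ∀ a, linkForm G v a = ∑ p ∈ ((univ : Finset (Fin n × Fin n)).filter fun p =>
      ({a, p.1} : Finset _) ∈ G ∧ ({a, p.2} : Finset _) ∈ G ∧ ({p.1, p.2} : Finset _) ∈ G),
      v {a, p.1} * v {a, p.2} := by
    intro a
    simp only [linkForm, linkA, ite_mul, one_mul, zero_mul, sum_filter, Fintype.sum_prod_type, vnb]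
    refine sum_congr rfl fun b _ => ?_
    split_ifs with hb
    · refine sum_congr rfl fun c _ => ?_
      by_cases hc : ({a, c} : Finset (Fin n)) ∈ G <;> by_cases hbc : ({b, c} : Finset (Fin n)) ∈ G <;>
        simp [hb, hc, hbc]
    · simp [hb]
  simp only [h1]
  rw [sum_sigma', sum_sigma', sum_sigma']
  refine (sum_bij (fun q _ => (⟨⟨({q.1, q.2.1, q.2.2} : Finset (Fin n)), {q.1, q.2.1}⟩, {q.1, q.2.2}⟩ :
      (_ : (_ : Finset (Fin n)) × Finset (Fin n)) × Finset (Fin n)))
    (fun q hq => ?_) (fun q hq q' hq' e => ?_) (fun t ht => ?_) (fun q hq => rfl)).symm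
  · obtain ⟨a, b, c⟩ := q
    simp only [mem_sigma, mem_univ, mem_filter, true_and] at hq
    obtain ⟨h1, h2, h3⟩ := hq
    have hab := pair_card hG h1
    have hac := pair_card hG h2
    have hbc := pair_card hG h3
    have h3' : ({a, b, c} : Finset (Fin n)).card = 3 := by simp [hab, hac, hbc]
    simp only [mem_sigma, mem_erase, mem_sides]
    refine ⟨⟨mem_tri.2 ⟨h3', fun e he => ?_⟩, by simp [insert_subset_iff], card_pair hab⟩, ?_,
      by simp [insert_subset_iff], card_pair hac⟩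
    · obtain ⟨hes, he2⟩ := mem_sides.1 he
      obtain ⟨u, w, huw, rfl⟩ := card_eq_two.1 he2
      simp only [insert_subset_iff, singleton_subset_iff, mem_insert, mem_singleton] at hes
      rcases hes with ⟨rfl | rfl | rfl, rfl | rfl | rfl⟩ <;>
        first
          | exact absurd rfl huw
          | assumption
          | (rw [pair_comm]; assumption)
    · intro e
      have : c ∈ ({a, b} : Finset (Fin n)) := e ▸ mem_insert_of_mem (mem_singleton_self c)
      simp [Ne.symm hac, Ne.symm hbc] at this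
  · obtain ⟨a, b, c⟩ := q
    obtain ⟨a', b', c'⟩ := q'
    simp only [mem_sigma, mem_univ, mem_filter, true_and] at hq hq'
    have hab := pair_card hG hq.1
    have hac := pair_card hG hq.2.1
    have hbc := pair_card hG hq.2.2
    simp only [Sigma.mk.injEq, heq_eq_eq] at e
    obtain ⟨⟨-, e1⟩, e2⟩ := e
    have ha' : a' ∈ ({a, b} : Finset (Fin n)) := e1 ▸ mem_insert_self a' _
    have ha'' : a' ∈ ({a, c} : Finset (Fin n)) := e2 ▸ mem_insert_self a' _
    simp only [mem_insert, mem_singleton] at ha' ha''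
    have haa : a' = a := by
      rcases ha' with h | h
      · exact h
      · rcases ha'' with h' | h'
        · exact h'
        · exact absurd (h.symm.trans h') hbc
    subst haa
    have hb' : b ∈ ({a', b'} : Finset (Fin n)) := e1 ▸ mem_insert_of_mem (mem_singleton_self b)
    have hc' : c ∈ ({a', c'} : Finset (Fin n)) := e2 ▸ mem_insert_of_mem (mem_singleton_self c)
    simp only [mem_insert, mem_singleton] at hb' hc'
    rw [hb'.resolve_left (Ne.symm hab), hc'.resolve_left (Ne.symm hac)]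
  · obtain ⟨⟨E, g⟩, f⟩ := t
    simp only [mem_sigma, mem_erase, mem_sides] at ht
    obtain ⟨⟨hE, hgE, hg2⟩, hfg, hfE, hf2⟩ := ht
    obtain ⟨hE3, hEG⟩ := mem_tri.1 hE
    have hi : (g ∩ f).card = 1 := by
      have h1 := card_le_card (union_subset hgE hfE)
      have h2 := card_union_add_card_inter g f
      have h3 : (g ∩ f).card < 2 := by
        by_contra h
        push Not at h
        have e1 : g ∩ f = g := eq_of_subset_of_card_le inter_subset_left (by omega)
        exact hfg (eq_of_subset_of_card_le (inter_eq_left.1 e1) (by omega)).symm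
      omega
    obtain ⟨a, ha⟩ := card_eq_one.1 hi
    obtain ⟨hag, haf⟩ := mem_inter.1 (ha ▸ mem_singleton_self a)
    obtain ⟨b, hb, hba⟩ := exists_mem_ne (by omega : 1 < g.card) a
    obtain ⟨c, hc, hca⟩ := exists_mem_ne (by omega : 1 < f.card) a
    have eg : ({a, b} : Finset (Fin n)) = g := eq_of_subset_of_card_le
      (insert_subset hag (singleton_subset_iff.2 hb)) (by rw [hg2, card_pair (Ne.symm hba)])
    have ef : ({a, c} : Finset (Fin n)) = f := eq_of_subset_of_card_le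
      (insert_subset haf (singleton_subset_iff.2 hc)) (by rw [hf2, card_pair (Ne.symm hca)])
    have hbc : b ≠ c := fun e => hfg (by rw [← eg, ← ef, e])
    have eE : ({a, b, c} : Finset (Fin n)) = E := eq_of_subset_of_card_le
      (insert_subset (hgE hag) (insert_subset (hgE hb) (singleton_subset_iff.2 (hfE hc))))
      (by simp [hE3, Ne.symm hba, Ne.symm hca, hbc])
    refine ⟨⟨a, b, c⟩, ?_, ?_⟩
    · simp only [mem_sigma, mem_univ, mem_filter, true_and]
      refine ⟨eg ▸ hEG (mem_sides.2 ⟨hgE, hg2⟩), ef ▸ hEG (mem_sides.2 ⟨hfE, hf2⟩),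
        hEG (mem_sides.2 ⟨?_, card_pair hbc⟩)⟩
      rw [← eE]
      simp
    · simp only [eg, ef, eE]

/-- The neighbourhood vectors carry each edge twice. -/
lemma sum_vnb_sq {G : Gr n} (hG : G ⊆ complete n) (v : Vec n) :
    ∑ a, ∑ b ∈ vnb G a, v {a, b} ^ 2 = 2 * ∑ g ∈ G, v g ^ 2 := by
  have h2 : ∀ g ∈ G, 2 * v g ^ 2 = ∑ _a ∈ g, v g ^ 2 := fun g hg => by
    rw [sum_const, (mem_powersetCard.1 (hG hg)).2, nsmul_eq_mul]
    norm_num
  rw [mul_sum, sum_congr rfl h2, sum_sigma', sum_sigma']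
  refine sum_bij (fun q _ => (⟨({q.1, q.2} : Finset (Fin n)), q.1⟩ : (_ : Finset (Fin n)) × Fin n))
    (fun q hq => ?_) (fun q hq q' hq' e => ?_) (fun t ht => ?_) (fun q hq => rfl)
  · obtain ⟨a, b⟩ := q
    simp only [mem_sigma, mem_univ, true_and] at hq ⊢
    exact ⟨mem_vnb.1 hq, mem_insert_self _ _⟩
  · obtain ⟨a, b⟩ := q
    obtain ⟨a', b'⟩ := q'
    simp only [mem_sigma, mem_univ, true_and] at hq
    simp only [Sigma.mk.injEq, heq_eq_eq] at e
    obtain ⟨e1, rfl⟩ := e
    have hab := pair_card hG (mem_vnb.1 hq)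
    have : b ∈ ({a, b'} : Finset (Fin n)) := e1 ▸ mem_insert_of_mem (mem_singleton_self b)
    simp only [mem_insert, mem_singleton] at this
    rw [this.resolve_left (Ne.symm hab)]
  · obtain ⟨g, a⟩ := t
    simp only [mem_sigma] at ht
    obtain ⟨hgG, hag⟩ := ht
    have hg2 := (mem_powersetCard.1 (hG hgG)).2
    obtain ⟨b, hb, hba⟩ := exists_mem_ne (by omega : 1 < g.card) a
    have eg : ({a, b} : Finset (Fin n)) = g := eq_of_subset_of_card_le
      (insert_subset hag (singleton_subset_iff.2 hb)) (by rw [hg2, card_pair (Ne.symm hba)])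
    refine ⟨⟨a, b⟩, ?_, by simp [eg]⟩
    simp only [mem_sigma, mem_univ, true_and, mem_vnb, eg]
    exact hgG

/-- A nearly regular graph with bounded common neighbourhoods is bounded below. -/
lemma link_lower {N : Finset (Fin n)} {M : Fin n → Fin n → ℝ} {D δ ε : ℝ} (hD : 0 < D)
    (hδ0 : 0 ≤ δ) (hδ : δ ≤ 1 / 2) (hε : 0 ≤ ε) (hsym : ∀ b c, M b c = M c b)
    (hdeg : ∀ b ∈ N, |(∑ c ∈ N, M b c) - D| ≤ δ * D)
    (hsq : ∀ z : Fin n → ℝ, ∑ b ∈ N, z b = 0 →
      ∑ e ∈ N, (∑ b ∈ N, M e b * z b) ^ 2 ≤ ε ^ 2 * D ^ 2 * ∑ b ∈ N, z b ^ 2)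
    (w : Fin n → ℝ) :
    -((ε + 2 * δ ^ 2) * D * ∑ b ∈ N, w b ^ 2) ≤ ∑ b ∈ N, ∑ c ∈ N, M b c * w b * w c := by
  rcases N.eq_empty_or_nonempty with rfl | hne
  · simp
  set m := (∑ b ∈ N, w b) / N.card with hm
  set z : Fin n → ℝ := fun b => w b - m with hz
  have hN : (0 : ℝ) < N.card := by exact_mod_cast card_pos.2 hne
  have hz0 : ∑ b ∈ N, z b = 0 := by
    simp only [hz, sum_sub_distrib, sum_const, nsmul_eq_mul, hm]
    field_simp
    ring
  set d : Fin n → ℝ := fun b => ∑ c ∈ N, M b c with hd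
  set Z := ∑ b ∈ N, z b ^ 2 with hZ
  set az : Fin n → ℝ := fun e => ∑ b ∈ N, M e b * z b with haz
  have hsw : ∑ b ∈ N, ∑ c ∈ N, M b c * w b * w c =
      m ^ 2 * ∑ b ∈ N, d b + 2 * m * ∑ b ∈ N, (d b - D) * z b + ∑ b ∈ N, z b * az b := by
    have e : ∀ b c, M b c * w b * w c =
        m ^ 2 * M b c + m * (M b c * z b) + m * (M b c * z c) + z b * (M b c * z c) := fun b c => by
      simp only [hz]; ring
    have h3 : ∑ b ∈ N, ∑ c ∈ N, M b c * z c = ∑ b ∈ N, ∑ c ∈ N, M b c * z b := by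
      rw [sum_comm]
      exact sum_congr rfl fun c _ => sum_congr rfl fun b _ => by rw [hsym b c]
    have h4 : ∑ b ∈ N, ∑ c ∈ N, M b c * z b = ∑ b ∈ N, (d b - D) * z b := by
      simp only [sub_mul, sum_sub_distrib, ← mul_sum, hz0, mul_zero, sub_zero, hd, sum_mul]
    simp only [e, sum_add_distrib, ← mul_sum, h3, h4, hd, haz]
    ring
  rw [hsw]
  have hZ0 : 0 ≤ Z := sum_nonneg fun b _ => sq_nonneg _
  have h1 : (1 - δ) * D * N.card ≤ ∑ b ∈ N, d b := by
    refine le_trans (le_of_eq ?_)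
      (sum_le_sum (f := fun _ => (1 - δ) * D) fun b hb => by linarith [abs_le.1 (hdeg b hb)])
    rw [sum_const, nsmul_eq_mul]; ring
  have h2 : |∑ b ∈ N, (d b - D) * z b| ≤ δ * D * (Real.sqrt N.card * Real.sqrt Z) := by
    refine (abs_sum_le_sum_abs _ _).trans ?_
    refine (sum_le_sum (g := fun b => δ * D * (1 * |z b|)) fun b hb => ?_).trans ?_
    · rw [abs_mul, one_mul]; exact mul_le_mul_of_nonneg_right (hdeg b hb) (abs_nonneg _)
    · rw [← mul_sum]
      refine mul_le_mul_of_nonneg_left ?_ (by positivity)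
      have := Real.sum_mul_le_sqrt_mul_sqrt N (fun _ => (1 : ℝ)) (fun b => |z b|)
      simpa [sq_abs] using this
  have h3 : |∑ b ∈ N, z b * az b| ≤ ε * D * Z := by
    refine (abs_sum_le_sum_abs _ _).trans ?_
    have hcs := Real.sum_mul_le_sqrt_mul_sqrt N (fun b => |z b|) (fun b => |az b|)
    simp only [sq_abs, abs_mul] at hcs ⊢
    refine hcs.trans ?_
    calc Real.sqrt Z * Real.sqrt (∑ b ∈ N, az b ^ 2) ≤ Real.sqrt Z * (ε * D * Real.sqrt Z) := by
          refine mul_le_mul_of_nonneg_left ?_ (Real.sqrt_nonneg _)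
          rw [show ε * D * Real.sqrt Z = Real.sqrt (ε ^ 2 * D ^ 2 * Z) by
            rw [Real.sqrt_mul (by positivity), ← mul_pow, Real.sqrt_sq (by positivity)]]
          exact Real.sqrt_le_sqrt (hsq z hz0)
      _ = ε * D * Z := by
          have hzz := Real.mul_self_sqrt hZ0
          linear_combination (ε * D) * hzz
  have hA : -(2 * δ ^ 2 * D * Z) ≤
      m ^ 2 * ((1 - δ) * D * N.card) - 2 * |m| * (δ * D * (Real.sqrt N.card * Real.sqrt Z)) := by
    have e1 := Real.mul_self_sqrt hN.le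
    have e2 := Real.mul_self_sqrt hZ0
    have e3 := sq_abs m
    have hkey : 0 ≤ 1 / 2 * D * (|m| * Real.sqrt N.card - 2 * δ * Real.sqrt Z) ^ 2 := by positivity
    have hexp : 1 / 2 * D * (|m| * Real.sqrt N.card - 2 * δ * Real.sqrt Z) ^ 2 =
        1 / 2 * D * m ^ 2 * N.card - 2 * |m| * (δ * D * (Real.sqrt N.card * Real.sqrt Z)) +
          2 * δ ^ 2 * D * Z := by
      linear_combination (1 / 2 * D * |m| ^ 2) * e1 + (2 * δ ^ 2 * D) * e2 +
        (1 / 2 * D * (N.card : ℝ)) * e3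
    have : 0 ≤ (1 / 2 - δ) * (m ^ 2 * D * N.card) := mul_nonneg (by linarith) (by positivity)
    linarith
  have hw2 : Z ≤ ∑ b ∈ N, w b ^ 2 := by
    have : ∑ b ∈ N, w b ^ 2 = Z + N.card * m ^ 2 := by
      simp only [hZ]
      have e : ∀ b, w b ^ 2 = z b ^ 2 + 2 * m * z b + m ^ 2 := fun b => by simp only [hz]; ring
      simp only [e, sum_add_distrib, ← mul_sum, hz0, sum_const, nsmul_eq_mul]
      ring
    rw [this]
    linarith [mul_nonneg hN.le (sq_nonneg m)]
  have hc0 : 0 ≤ (ε + 2 * δ ^ 2) * D := by positivity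
  have hmd : -(2 * |m| * (δ * D * (Real.sqrt N.card * Real.sqrt Z))) ≤
      2 * m * ∑ b ∈ N, (d b - D) * z b := by
    refine le_trans (neg_le_neg (mul_le_mul_of_nonneg_left h2 (by positivity : 0 ≤ 2 * |m|))) ?_
    calc -(2 * |m| * |∑ b ∈ N, (d b - D) * z b|) = -|2 * m * ∑ b ∈ N, (d b - D) * z b| := by
          rw [abs_mul, abs_mul, abs_two]
      _ ≤ _ := neg_abs_le _
  linarith [mul_le_mul_of_nonneg_left h1 (sq_nonneg m), abs_le.1 h3, hA, hmd,
    mul_le_mul_of_nonneg_left hw2 hc0]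

/-- The common neighbours bound the squared adjacency on mean zero vectors. -/
lemma link_sq {N : Finset (Fin n)} {P : Fin n → Fin n → ℝ} {κ r : ℝ}
    (hsym : ∀ b c, P b c = P c b)
    (hrow : ∀ b ∈ N, ∑ c ∈ N, |κ - P b c| ≤ r) (z : Fin n → ℝ) (hz : ∑ b ∈ N, z b = 0) :
    ∑ b ∈ N, ∑ c ∈ N, P b c * z b * z c ≤ r * ∑ b ∈ N, z b ^ 2 := by
  have e : ∑ b ∈ N, ∑ c ∈ N, P b c * z b * z c = ∑ b ∈ N, ∑ c ∈ N, (P b c - κ) * z b * z c := by
    have h : ∑ b ∈ N, ∑ c ∈ N, κ * z b * z c = 0 := by simp only [← mul_sum, hz, mul_zero, sum_const_zero]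
    simp only [sub_mul, sum_sub_distrib, h, sub_zero]
  rw [e]
  have hb : ∀ b c, (P b c - κ) * z b * z c ≤
      1 / 2 * (|κ - P b c| * z b ^ 2) + 1 / 2 * (|κ - P c b| * z c ^ 2) := fun b c => by
    rw [hsym c b, abs_sub_comm κ]
    refine (le_abs_self _).trans ?_
    rw [abs_mul, abs_mul]
    have h2 := mul_le_mul_of_nonneg_left (two_mul_le_add_sq |z b| |z c|) (abs_nonneg (P b c - κ))
    rw [sq_abs, sq_abs] at h2
    linarith
  refine (sum_le_sum fun b _ => sum_le_sum fun c _ => hb b c).trans ?_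
  simp only [sum_add_distrib]
  rw [sum_comm (f := fun b c => 1 / 2 * (|κ - P c b| * z c ^ 2)), ← two_mul]
  simp only [mul_sum]
  refine sum_le_sum fun b hb' => ?_
  simp only [← mul_sum, ← sum_mul]
  have := mul_le_mul_of_nonneg_right (hrow b hb') (sq_nonneg (z b))
  linarith

/-- The lower bound on the adjacency operator. -/
theorem ip_bop_ge_of_c3 {G : Gr n} (hG : G ⊆ complete n) {D δ κ M ε : ℝ} (hD : 0 < D) (hδ0 : 0 ≤ δ)
    (hδ : δ ≤ 1 / 2) (hκ : 0 ≤ κ) (hε : 0 ≤ ε)
    (hdeg : ∀ g ∈ G, (1 - δ) * D ≤ deg G g ∧ (deg G g : ℝ) ≤ (1 + δ) * D)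
    (hv : ∀ a, (vdeg G a : ℝ) ≤ M)
    (hc : ∀ a b c : Fin n, a ≠ b → a ≠ c → b ≠ c → (c3 G a b c : ℝ) ≤ κ)
    (hrow : M * κ - (1 - δ) ^ 2 * D ^ 2 + 3 * D + κ ≤ ε ^ 2 * D ^ 2) (v : Vec n) :
    -(2 * (ε + 2 * δ ^ 2) * D * ∑ g ∈ G, v g ^ 2) ≤ ip v (bop G v) := by
  rw [ip_bop_eq_link hG]
  have key : ∀ a, -((ε + 2 * δ ^ 2) * D * ∑ b ∈ vnb G a, v {a, b} ^ 2) ≤ linkForm G v a := by
    intro a
    set N := vnb G a with hN
    set M' := linkA G with hM'
    have hsym : ∀ b c, M' b c = M' c b := fun b c => by simp only [hM', linkA, pair_comm b c]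
    have h01 : ∀ b c, 0 ≤ M' b c ∧ M' b c ≤ 1 := fun b c => by
      simp only [hM', linkA]; split_ifs <;> norm_num
    have hd : ∀ b ∈ N, |(∑ c ∈ N, M' b c) - D| ≤ δ * D := fun b hb => by
      rw [hM', sum_linkA hG hb]
      obtain ⟨h1, h2⟩ := hdeg _ (mem_vnb.1 hb)
      exact abs_le.2 ⟨by linarith, by linarith⟩
    refine link_lower hD hδ0 hδ hε hsym hd (fun z hz => ?_) (fun b => v {a, b})
    have e : ∑ e ∈ N, (∑ b ∈ N, M' e b * z b) ^ 2 =
        ∑ b ∈ N, ∑ c ∈ N, (∑ e ∈ N, M' b e * M' c e) * z b * z c := by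
      have h2 : ∀ e, (∑ b ∈ N, M' e b * z b) ^ 2 =
          ∑ b ∈ N, ∑ c ∈ N, M' b e * M' c e * z b * z c := fun e => by
        rw [sq, sum_mul_sum]
        refine sum_congr rfl fun b _ => sum_congr rfl fun c _ => ?_
        rw [hsym e b, hsym e c]
        ring
      simp only [h2, sum_mul]
      rw [sum_comm]
      exact sum_congr rfl fun b _ => sum_comm
    rw [e]
    refine link_sq (κ := κ) (fun b c => sum_congr rfl fun x _ => mul_comm _ _) (fun b hb => ?_) z hz
    have hba : a ≠ b := pair_card hG (mem_vnb.1 hb)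
    have hoff : ∀ c ∈ N.erase b, (∑ x ∈ N, M' b x * M' c x) ≤ κ := fun c hc' => by
      obtain ⟨hcb, hcN⟩ := mem_erase.1 hc'
      refine le_trans (le_of_eq ?_) (hc a b c hba (pair_card hG (mem_vnb.1 hcN)) (Ne.symm hcb))
      simp only [hM', linkA, c3, ite_mul, one_mul, zero_mul, ← ite_and, sum_boole]
      congr 2
      ext x
      simp [hN, vnb]
    have hdiag : (∑ x ∈ N, M' b x * M' b x) ≤ (1 + δ) * D := by
      refine le_trans (sum_le_sum fun x _ => mul_le_of_le_one_left (h01 b x).1 (h01 b x).2) ?_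
      linarith [abs_le.1 (hd b hb)]
    have hdiag0 : 0 ≤ ∑ x ∈ N, M' b x * M' b x :=
      sum_nonneg fun x _ => mul_nonneg (h01 b x).1 (h01 b x).1
    have hall : (1 - δ) ^ 2 * D ^ 2 ≤ ∑ c ∈ N, ∑ x ∈ N, M' b x * M' c x := by
      rw [sum_comm]
      simp only [← mul_sum]
      have h1 : ∀ x ∈ N, (1 - δ) * D ≤ ∑ c ∈ N, M' c x := fun x hx => by
        simp only [hsym _ x]; linarith [abs_le.1 (hd x hx)]
      refine le_trans ?_ (sum_le_sum fun x hx => mul_le_mul_of_nonneg_left (h1 x hx) (h01 b x).1)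
      rw [← sum_mul]
      have h2 : (1 - δ) * D ≤ ∑ x ∈ N, M' b x := by linarith [abs_le.1 (hd b hb)]
      calc (1 - δ) ^ 2 * D ^ 2 = (1 - δ) * D * ((1 - δ) * D) := by ring
        _ ≤ (∑ x ∈ N, M' b x) * ((1 - δ) * D) :=
            mul_le_mul_of_nonneg_right h2 (mul_nonneg (by linarith) hD.le)
    have hN2 : (N.card : ℝ) * κ ≤ M * κ :=
      mul_le_mul_of_nonneg_right (by rw [hN, card_vnb hG a]; exact hv a) hκ
    rw [← add_sum_erase _ _ hb]
    rw [← add_sum_erase _ _ hb] at hall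
    have habs : ∑ c ∈ N.erase b, |κ - ∑ x ∈ N, M' b x * M' c x| =
        ∑ c ∈ N.erase b, (κ - ∑ x ∈ N, M' b x * M' c x) :=
      sum_congr rfl fun c hc' => abs_of_nonneg (sub_nonneg.2 (hoff c hc'))
    rw [habs, sum_sub_distrib, sum_const, nsmul_eq_mul]
    have hce : ((N.erase b).card : ℝ) * κ ≤ (N.card : ℝ) * κ :=
      mul_le_mul_of_nonneg_right (by exact_mod_cast card_erase_le) hκ
    have hab : |κ - ∑ x ∈ N, M' b x * M' b x| ≤ κ + (1 + δ) * D :=
      abs_le.2 ⟨by linarith, by linarith⟩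
    have hδD : δ * D ≤ 1 / 2 * D := mul_le_mul_of_nonneg_right hδ hD.le
    linarith
  refine le_trans (le_of_eq ?_) (sum_le_sum fun a _ => key a)
  rw [sum_neg_distrib, ← mul_sum, sum_vnb_sq hG]
  ring

end Vale.Agent.P046.Full.One
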