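import Vale.Agent.P046.Full.One.MomentStep
import Vale.Agent.P046.Full.One.MomentScale
import Vale.Agent.P046.Full.One.Spectral
import Vale.Agent.P046.StartState

/-!
P046, the first phase: the expectations of the potentials along the killed chain (`MomentStmt`).
-/

namespace Vale.Agent.P046.Full.One

open Finset Filter
open Vale.Agent.P046

variable {n k : ℕ} {K : ℝ} {G : Gr n}

lemma potV_nonneg (D : ℝ) (G : Gr n) : 0 ≤ potV D G := sum_nonneg fun _ _ => sq_nonneg _

lemma potU4_nonneg (D : ℝ) (G : Gr n) : 0 ≤ potU4 D G :=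
  sum_nonneg fun _ _ => Even.pow_nonneg (by decide) _

lemma potW_nonneg (D : ℝ) (G : Gr n) : 0 ≤ potW D G := sum_nonneg fun _ _ => sq_nonneg _

open Classical in
/-- The expectation after one step under a bound valid on the good states. -/
lemma muK_step_le (h : Ok n) (hk' : k < Nst n) {Φ ψ : Gr n → ℝ} (hψ : ∀ G, 0 ≤ ψ G)
    (hgood : ∀ G, Good K n k G → step1 (hk n k) Φ G ≤ ψ G) :
    ∑ G, muK K n (k + 1) G * Φ G ≤ ∑ G, muK K n k G * ψ G := by
  rw [sum_muK_succ]
  refine sum_le_sum fun G _ => mul_le_mul_of_nonneg_left ?_ (muK_nonneg h k hk'.le G)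
  split_ifs with hG
  · exact hgood G hG
  · exact hψ G

lemma muK_affine_le (h : Ok n) (hk' : k ≤ Nst n) {F F1 F2 : Gr n → ℝ} {a a1 a2 d e e1 e2 : ℝ}
    (ha : 0 ≤ a) (ha1 : 0 ≤ a1) (ha2 : 0 ≤ a2) (hd : 0 ≤ d)
    (he : ∑ G, muK K n k G * F G ≤ e) (he1 : ∑ G, muK K n k G * F1 G ≤ e1)
    (he2 : ∑ G, muK K n k G * F2 G ≤ e2) :
    ∑ G, muK K n k G * (a * F G + a1 * F1 G + a2 * F2 G + d) ≤
      a * e + a1 * e1 + a2 * e2 + d := by
  have hm := mul_le_mul_of_nonneg_left (sum_muK_mass (K := K) h k hk') hd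
  rw [mul_one] at hm
  have e0 : ∑ G, muK K n k G * (a * F G + a1 * F1 G + a2 * F2 G + d) =
      a * ∑ G, muK K n k G * F G + a1 * ∑ G, muK K n k G * F1 G +
        a2 * ∑ G, muK K n k G * F2 G + d * ∑ G, muK K n k G := by
    simp only [mul_sum, ← sum_add_distrib]
    exact sum_congr rfl fun G _ => by ring
  rw [e0]
  linarith [mul_le_mul_of_nonneg_left he ha, mul_le_mul_of_nonneg_left he1 ha1,
    mul_le_mul_of_nonneg_left he2 ha2]

/-! ### The drifts on the good states -/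

namespace Big

variable (h : Big K n)
include h

lemma one_le_n : 1 ≤ n := le_trans (by norm_num) h.ok.1

lemma qs_le_one : qs n ≤ 1 := by
  refine le_trans (le_mul_of_one_le_right h.ok.qs_pos.le ?_) (qs_poly_le h.ok)
  exact one_le_pow₀ (by exact_mod_cast h.one_le_n)

lemma err_le {e : ℕ} (he : e ≤ 7) : 25000 * qs n ^ 2 * (n : ℝ) ^ e ≤ qs n := by
  have h3 : (3 : ℝ) ≤ n := by exact_mod_cast h.ok.1
  have h2 : 25000 * (n : ℝ) ^ e ≤ (n : ℝ) ^ 59 :=
    calc 25000 * (n : ℝ) ^ e ≤ (n : ℝ) ^ 52 * (n : ℝ) ^ 7 :=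
          mul_le_mul ((by norm_num : (25000 : ℝ) ≤ 3 ^ 52).trans (pow_le_pow_left₀ (by norm_num) h3 52))
            (pow_le_pow_right₀ (by linarith) he) (by positivity) (by positivity)
      _ = _ := by ring
  calc 25000 * qs n ^ 2 * (n : ℝ) ^ e = qs n * (qs n * (25000 * (n : ℝ) ^ e)) := by ring
    _ ≤ qs n * 1 := mul_le_mul_of_nonneg_left
        ((mul_le_mul_of_nonneg_left h2 h.ok.qs_pos.le).trans (qs_poly_le h.ok)) h.ok.qs_pos.le
    _ = _ := mul_one _

lemma flat (hk' : k ≤ Nst n) (hG : Good K n k G) :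
    Flat G (Dk n k) (kap K n / Real.sqrt (Dk n k)) ∧
      kap K n / Real.sqrt (Dk n k) ≤ 1 / 2048 := by
  have hK0 : 0 ≤ K := zero_le_one.trans h.hK
  have hd := (kap_div_le_dlt h.ok hK0 hk').trans h.small
  have hk0 : 0 ≤ kap K n := mul_nonneg hK0 (zero_le_one.trans h.ok.2.1)
  exact ⟨⟨h.sixteen_le_dk hk', hd.trans (by norm_num), fun g hg => good_abs_xg hk' hG hg,
    div_nonneg hk0 (Real.sqrt_nonneg _)⟩, hd⟩

lemma card_le (hG : Good K n k G) : (G.card : ℝ) ≤ 2 * m0 n (Dk n k) :=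
  (good_card hG).trans (mul_le_mul_of_nonneg_right (by linarith [h.eta1]) (m0_nonneg _ _))

lemma one_le_bs (k : ℕ) : 1 ≤ 2 * bs n (Dk n k) := by
  linarith [half_le_bs (h.ok.dk_pos k) (h.ok.dk_le_n k)]

lemma one_le_m3 (k : ℕ) : 1 ≤ m3 n k := (one_le_lam15 h.ok).trans (lam15_le_m3 n k)

theorem stepV (hk' : k < Nst n) (hG : Good K n k G) :
    step1 (hk n k) (potV (Dk n (k + 1))) G ≤
      (1 - qs n / 4) * potV (Dk n k) G + 2 * qs n * potW (Dk n k) G + 0 * potW (Dk n k) G +
        qs n * (10 / Dk n k * m0 n (Dk n k) + 1) := by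
  obtain ⟨hf, hd⟩ := h.flat hk'.le hG
  have hs := hf.potV_step hG.1 h.one_le_n h.ok.qs_pos.le h.qs_le_one
  rw [← Ok.dk_succ] at hs
  rw [hk]
  refine hs.trans ?_
  have hq := h.ok.qs_pos.le
  have h1 := mul_le_mul_of_nonneg_left (mul_le_mul_of_nonneg_left (h.card_le hG)
    (by have := hf.pos; positivity : 0 ≤ 5 / Dk n k)) hq
  have h2 := mul_le_mul_of_nonneg_left
    (mul_le_mul_of_nonneg_right (show -(1 / 2) + kap K n / Real.sqrt (Dk n k) ≤ -(1 / 4) by linarith)
      (potV_nonneg (Dk n k) G)) hq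
  linarith [h.err_le (e := 5) (by norm_num), show qs n * (5 / Dk n k * (2 * m0 n (Dk n k))) =
    qs n * (10 / Dk n k * m0 n (Dk n k)) by ring]

theorem stepU (hk' : k < Nst n) (hG : Good K n k G) :
    step1 (hk n k) (potU4 (Dk n (k + 1))) G ≤
      (1 - qs n / 4) * potU4 (Dk n k) G + 8 * qs n * (kap K n ^ 2 / Dk n k) * potW (Dk n k) G +
        40 * qs n / Dk n k * potV (Dk n k) G + qs n * (120 / Dk n k ^ 3 * m0 n (Dk n k) + 1) := by
  obtain ⟨hf, hd⟩ := h.flat hk'.le hG
  have hs := hf.potU_step hG.1 h.one_le_n h.ok.qs_pos.le h.qs_le_one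
  rw [← Ok.dk_succ, div_pow, Real.sq_sqrt hf.pos.le] at hs
  rw [hk]
  refine hs.trans ?_
  have hq := h.ok.qs_pos.le
  have h1 := mul_le_mul_of_nonneg_left (mul_le_mul_of_nonneg_left (h.card_le hG)
    (by have := hf.pos; positivity : 0 ≤ 60 / Dk n k ^ 3)) hq
  have h2 := mul_le_mul_of_nonneg_left
    (mul_le_mul_of_nonneg_right (show -(1 / 2) + kap K n / Real.sqrt (Dk n k) ≤ -(1 / 4) by linarith)
      (potU4_nonneg (Dk n k) G)) hq
  linarith [h.err_le (e := 5) (by norm_num),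
    show 40 * qs n / Dk n k * potV (Dk n k) G = qs n * (40 / Dk n k * potV (Dk n k) G) by ring,
    show qs n * (60 / Dk n k ^ 3 * (2 * m0 n (Dk n k))) =
    qs n * (120 / Dk n k ^ 3 * m0 n (Dk n k)) by ring]

open Classical in
/-- The rate of the squared neighbour sums: before the floor is reached they contract. -/
noncomputable def rate (_ : Big K n) (k : ℕ) : ℝ :=
  if Dk n k * Real.sqrt (Dk n k) / Real.sqrt n ≤ lam15 n then 3 / 2 else -(1 / 2)

omit h in
lemma rate_bounds (h : Big K n) (k : ℕ) : -(1 / 2) ≤ h.rate k ∧ h.rate k ≤ 3 / 2 := by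
  unfold rate
  split_ifs <;> norm_num

lemma spec_of_good (hk' : k ≤ Nst n) (hG : Good K n k G) :
    ∃ β : ℝ, 2 * β + kap K n / Real.sqrt (Dk n k) - 3 / 4 ≤ h.rate k ∧
      ∀ v : Vec n, -(β * Dk n k * ∑ g ∈ G, v g ^ 2) ≤ ip v (bop G v) := by
  obtain ⟨hf, hd⟩ := h.flat hk' hG
  unfold rate
  split_ifs with hl
  · refine ⟨17 / 16, by linarith, fun v => le_trans (neg_le_neg ?_) (ip_bop_self_ge v)⟩
    rw [mul_sum]
    exact sum_le_sum fun g hg => mul_le_mul_of_nonneg_right (hf.deg_le hg) (sq_nonneg _)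
  · set D := Dk n k with hD
    set δ := kap K n / Real.sqrt D with hδ
    have hδ0 := hf.hδ0
    refine ⟨2 * (1 / 32 + 2 * δ ^ 2), ?_, fun v => ?_⟩
    · nlinarith
    · have hv := hG.2.2.1
      have hc := hG.2.2.2
      have e : m3 n k = D * Real.sqrt D / Real.sqrt n := max_eq_left (le_of_not_ge hl)
      rw [← hD] at hv
      simp only [e] at hc
      have he0 : 0 ≤ eta n := Real.rpow_nonneg (zero_le_one.trans h.ok.2.1) _
      have hn : (0 : ℝ) < Real.sqrt n := Real.sqrt_pos.2 h.ok.n_pos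
      refine ip_bop_ge_of_c3 hG.1 hf.pos hδ0 (by linarith) ?_ (by norm_num) (fun g hg => ?_) hv hc
        ?_ v
      · have := hf.pos
        positivity
      · obtain ⟨h1, h2⟩ := abs_le.1 (hf.hx g hg)
        rw [deg_eq_xg hf.pos g]
        constructor
        · rw [mul_comm]; exact mul_le_mul_of_nonneg_left (by linarith) hf.pos.le
        · rw [mul_comm (1 + δ)]; exact mul_le_mul_of_nonneg_left (by linarith) hf.pos.le
      · have e1 : (1 + eta n) * Real.sqrt ((n : ℝ) * D) * ((1 + eta n) * (D * Real.sqrt D /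
            Real.sqrt n)) = (1 + eta n) ^ 2 * D ^ 2 := by
          rw [Real.sqrt_mul (Nat.cast_nonneg n)]
          have := Real.sq_sqrt hf.pos.le
          field_simp
          linear_combination D * this
        rw [e1]
        have hle : D * Real.sqrt D / Real.sqrt n ≤ D := by
          rw [div_le_iff₀ hn]
          exact mul_le_mul_of_nonneg_left (Real.sqrt_le_sqrt (h.ok.dk_le_n k)) hf.pos.le
        have hκ : (1 + eta n) * (D * Real.sqrt D / Real.sqrt n) ≤ 2 * D :=
          mul_le_mul (by linarith [h.eta1]) hle (div_nonneg (mul_nonneg hf.pos.le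
            (Real.sqrt_nonneg _)) hn.le) (by norm_num)
        have h5 : 5 * D ≤ 5 / Lv n * D ^ 2 := by
          calc 5 * D = 5 / Lv n * (Lv n * D) := by have := h.ok.lv_pos; field_simp
            _ ≤ 5 / Lv n * (D * D) := mul_le_mul_of_nonneg_left
                (mul_le_mul_of_nonneg_right (h.ok.lv_le_dk hk') hf.pos.le)
                (div_nonneg (by norm_num) h.ok.lv_pos.le)
            _ = _ := by ring
        have h6 : δ ≤ dlt K n := kap_div_le_dlt h.ok (zero_le_one.trans h.hK) hk'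
        have h7 : (1 + eta n) ^ 2 - (1 - δ) ^ 2 + 5 / Lv n ≤ (1 / 32) ^ 2 := by
          nlinarith [h.spec, h.eta1]
        linarith [mul_le_mul_of_nonneg_right h7 (sq_nonneg D)]

theorem stepW (hk' : k < Nst n) (hG : Good K n k G) :
    step1 (hk n k) (potW (Dk n (k + 1))) G ≤
      (1 + qs n * h.rate k) * potW (Dk n k) G + 160 * qs n * potU4 (Dk n k) G +
        40 * qs n / Dk n k * potV (Dk n k) G +
          qs n * (6762 * (m3 n k * bs n (Dk n k))) := by
  obtain ⟨hf, hd⟩ := h.flat hk'.le hG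
  obtain ⟨β, hβ, hspec⟩ := h.spec_of_good hk'.le hG
  have hm := h.one_le_m3 k
  have he0 : 0 ≤ eta n := Real.rpow_nonneg (zero_le_one.trans h.ok.2.1) _
  have hc0 : 0 ≤ (1 + eta n) * m3 n k := by positivity
  have hΓ : ∀ g e : Finset (Fin n), e ≠ g → (paths2 G g e : ℝ) ≤ 6 * m3 n k := fun g e hge => by
    refine (paths2_le hc0 hG.2.2.2 g e hge).trans ?_
    linarith [mul_le_mul_of_nonneg_right (show 1 + eta n ≤ 2 by linarith [h.eta1])
      (zero_le_one.trans hm)]
  have hs := hf.potW_step hG.1 h.one_le_n h.ok.qs_pos.le h.qs_le_one (by linarith) hΓ hspec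
  rw [← Ok.dk_succ] at hs
  rw [hk]
  refine hs.trans ?_
  have hq := h.ok.qs_pos.le
  have hD := hf.pos
  have h2 := mul_le_mul_of_nonneg_left (mul_le_mul_of_nonneg_right hβ (potW_nonneg (Dk n k) G)) hq
  have h3 : (3200 + 30 * (6 * m3 n k)) / Dk n k ^ 2 * G.card ≤
      6760 * (m3 n k * bs n (Dk n k)) := by
    refine (mul_le_mul_of_nonneg_left (h.card_le hG) (by positivity)).trans ?_
    rw [show (3200 + 30 * (6 * m3 n k)) / Dk n k ^ 2 * (2 * m0 n (Dk n k)) =
      (6400 + 360 * m3 n k) * bs n (Dk n k) by rw [bs]; ring, ← mul_assoc]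
    exact mul_le_mul_of_nonneg_right (by linarith) (bs_nonneg _ _)
  have h4 : 1 ≤ 2 * (m3 n k * bs n (Dk n k)) := by
    refine (h.one_le_bs k).trans ?_
    linarith [mul_le_mul_of_nonneg_right hm (bs_nonneg n (Dk n k))]
  linarith [mul_le_mul_of_nonneg_left h3 hq, mul_le_mul_of_nonneg_left h4 hq,
    h.err_le (e := 5) (by norm_num),
    show 40 * qs n / Dk n k * potV (Dk n k) G = qs n * (40 / Dk n k * potV (Dk n k) G) by ring]

theorem stepZ (hk' : k < Nst n) (hG : Good K n k G) :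
    step1 (hk n k) (fun H => ((H.card : ℝ) - m0 n (Dk n (k + 1))) ^ 2) G ≤
      (1 - qs n) * ((G.card : ℝ) - m0 n (Dk n k)) ^ 2 +
        2 * qs n * m0 n (Dk n k) * potV (Dk n k) G + 0 * potW (Dk n k) G +
          qs n * (8 * m0 n (Dk n k) + 1) := by
  obtain ⟨hf, -⟩ := h.flat hk'.le hG
  have hq := h.ok.qs_pos.le
  obtain ⟨e1, e2, e3⟩ := sqrt_div_base (D := Dk n k) hq
  have hM0 := m0_nonneg n (Dk n k)
  set s := Real.sqrt (1 + 2 * qs n)
  have hq1 := h.qs_le_one
  have eM : m0 n (Dk n (k + 1)) = m0 n (Dk n k) / s := by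
    rw [Ok.dk_succ, m0, m0, e1]; ring
  have hu : 0 ≤ 1 - qs n + 2 * qs n ^ 2 := by nlinarith
  have b1 : (1 - qs n) * s ≤ 1 := by
    refine abs_le_one_iff_mul_self_le_one.2 ?_ |> (le_abs_self _).trans
    nlinarith [pow_le_pow_of_le_one hq hq1 (show 2 ≤ 3 by norm_num)]
  have b2 : 1 ≤ (1 - qs n + 2 * qs n ^ 2) * s := by
    nlinarith [mul_nonneg hu e2.le, pow_nonneg hq 5, pow_nonneg hq 3,
      pow_le_pow_of_le_one hq hq1 (show 2 ≤ 4 by norm_num),
      pow_le_pow_of_le_one hq hq1 (show 3 ≤ 4 by norm_num)]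
  have hs := hf.card_step hG.1 h.one_le_n hq hq1 hM0
    ((m0_le (h.ok.dk_le_n k)).trans (by nlinarith [sq_nonneg (n : ℝ)]))
    (M' := m0 n (Dk n (k + 1)))
    (by rw [eM, le_div_iff₀ e2]; nlinarith [mul_le_mul_of_nonneg_right b1 hM0])
    (by rw [eM, div_le_iff₀ e2]; nlinarith [mul_le_mul_of_nonneg_right b2 hM0])
  rw [← hk] at hs
  refine hs.trans ?_
  have hc := h.card_le hG
  linarith [mul_le_mul_of_nonneg_left (mul_le_mul_of_nonneg_right hc (potV_nonneg (Dk n k) G)) hq,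
    mul_le_mul_of_nonneg_left hc hq, h.err_le (e := 7) le_rfl]

/-! ### The induction along the grid -/

omit h in
lemma start_state (h : Ok n) :
    potV (Dk n 0) (complete n) ≤ 2 ∧ potU4 (Dk n 0) (complete n) ≤ 8 ∧
      potW (Dk n 0) (complete n) ≤ 8 ∧
      (((complete n).card : ℝ) - m0 n (Dk n 0)) ^ 2 ≤ (n : ℝ) ^ 2 := by
  have hn := h.n_pos
  have h3 : (3 : ℝ) ≤ n := by exact_mod_cast h.1
  have h0 : Dk n 0 = (n : ℝ) := by simp [Dk]
  have hx : ∀ g ∈ complete n, xg (n : ℝ) (complete n) g = -(2 / n) := fun g hg => by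
    rw [xg, deg_complete hg, Nat.cast_sub (by have := h.1; omega)]
    field_simp
    push_cast
    ring
  have hw : ∀ g, |om (n : ℝ) (complete n) g| ≤ 4 / n := fun g => by
    have hd : ∀ f ∈ complete n, (deg (complete n) f : ℝ) ≤ (n : ℝ) := fun f hf => by
      rw [deg_complete hf]; exact_mod_cast Nat.sub_le n 2
    have hv : ∀ f ∈ complete n, |xv (n : ℝ) (complete n) f| ≤ 2 / n := fun f hf => by
      rw [xv, if_pos hf, hx f hf, abs_neg, abs_of_pos (by positivity)]
    rw [om_eq, abs_div, abs_of_pos hn, div_le_iff₀ hn]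
    refine (bop_sup_le (by positivity) hd hn.le hv g).trans (le_of_eq ?_)
    field_simp
    ring
  have hm : ((complete n).card : ℝ) = (n : ℝ) * ((n : ℝ) - 1) / 2 := by
    rw [complete, card_powersetCard, card_univ, Fintype.card_fin, Nat.cast_choose_two]
  have hm' : ((complete n).card : ℝ) ≤ (n : ℝ) ^ 2 / 2 := by rw [hm]; nlinarith
  rw [h0]
  refine ⟨?_, ?_, ?_, ?_⟩
  · refine (sum_le_card_nsmul _ _ (4 / (n : ℝ) ^ 2) fun g hg => ?_).trans ?_
    · rw [hx g hg]; ring_nf; exact le_rfl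
    · rw [nsmul_eq_mul]
      exact (mul_le_mul_of_nonneg_right hm' (by positivity)).trans (le_of_eq (by field_simp; ring))
  · refine (sum_le_card_nsmul _ _ (16 / (n : ℝ) ^ 4) fun g hg => ?_).trans ?_
    · rw [hx g hg]; ring_nf; exact le_rfl
    · rw [nsmul_eq_mul]
      refine (mul_le_mul_of_nonneg_right hm' (by positivity)).trans ?_
      calc (n : ℝ) ^ 2 / 2 * (16 / (n : ℝ) ^ 4) = 8 / (n : ℝ) ^ 2 := by field_simp; ring
        _ ≤ 8 := div_le_self (by norm_num) (one_le_pow₀ (by linarith))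
  · refine (sum_le_card_nsmul _ _ ((4 / (n : ℝ)) ^ 2) fun g _ => ?_).trans ?_
    · rw [← sq_abs]; exact pow_le_pow_left₀ (abs_nonneg _) (hw g) 2
    · rw [nsmul_eq_mul]
      exact (mul_le_mul_of_nonneg_right hm' (by positivity)).trans (le_of_eq (by field_simp; ring))
  · have e : m0 n (n : ℝ) = (n : ℝ) ^ 2 / 2 := by
      rw [m0, mul_assoc, Real.mul_self_sqrt hn.le]; ring
    rw [e, hm]
    nlinarith [sq_nonneg (n : ℝ)]

theorem moments : ∀ k, k ≤ Nst n →
    ∑ G, muK K n k G * potV (Dk n k) G ≤ cA * (Dk n k * bs n (Dk n k)) ∧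
    ∑ G, muK K n k G * potU4 (Dk n k) G ≤
      cU * (bs n (Dk n k) * (1 + kap K n ^ 2 * rs n (Dk n k))) ∧
    ∑ G, muK K n k G * potW (Dk n k) G ≤ cW * (m3 n k * bs n (Dk n k)) ∧
    ∑ G, muK K n k G * ((G.card : ℝ) - m0 n (Dk n k)) ^ 2 ≤ cZ * ((n : ℝ) ^ 3 / 4) := by
  have hcW : cW = 14000 := rfl
  have hcA : cA = 56024 := by norm_num [cA, cW]
  have hcU : cU = 8 * cW + 40 * cA + 70 := rfl
  have hcZ : cZ = 2 * cA + 9 := rfl
  have h3 : (3 : ℝ) ≤ n := by exact_mod_cast h.ok.1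
  have hn0 : 0 < n := h.one_le_n
  have hq := h.ok.qs_pos.le
  have hq1 := h.qs_le_one
  intro k
  induction k with
  | zero =>
    intro _
    rw [sum_muK_zero (potV (Dk n 0)), sum_muK_zero (potU4 (Dk n 0)),
      sum_muK_zero (potW (Dk n 0)),
      sum_muK_zero (fun G => ((G.card : ℝ) - m0 n (Dk n 0)) ^ 2)]
    obtain ⟨a1, a2, a3, a4⟩ := start_state h.ok
    have b1 := h.one_le_bs 0
    have b2 := h.sixteen_le_dk (Nat.zero_le (Nst n))
    have b3 := h.one_le_m3 0
    have b4 : 0 ≤ kap K n ^ 2 * rs n (Dk n 0) := mul_nonneg (sq_nonneg _) (by unfold rs; positivity)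
    have b5 : 8 ≤ Dk n 0 * bs n (Dk n 0) := by nlinarith
    have b6 : 1 / 2 ≤ bs n (Dk n 0) * (1 + kap K n ^ 2 * rs n (Dk n 0)) := by nlinarith
    have b7 : 1 / 2 ≤ m3 n 0 * bs n (Dk n 0) := by nlinarith
    refine ⟨by nlinarith, by nlinarith, by nlinarith, a4.trans ?_⟩
    rw [hcZ, hcA]
    nlinarith
  | succ k ih =>
    intro hk1
    have hk' : k < Nst n := hk1
    obtain ⟨iV, iU, iW, iZ⟩ := ih hk'.le
    have hD := h.ok.dk_pos k
    have hb := bs_nonneg n (Dk n k)
    have hb1 := h.one_le_bs k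
    have hm := h.one_le_m3 k
    have hM0 := m0_nonneg n (Dk n k)
    have hD16 := h.sixteen_le_dk hk'.le
    have hκr : 0 ≤ kap K n ^ 2 * rs n (Dk n k) :=
      mul_nonneg (sq_nonneg _) (by unfold rs; positivity)
    have eb : m0 n (Dk n k) = bs n (Dk n k) * Dk n k ^ 2 := m0_eq hD
    refine ⟨?_, ?_, ?_, ?_⟩
    · refine (muK_step_le h.ok hk' (fun G => ?_) fun G hG => h.stepV hk' hG).trans
        ((muK_affine_le h.ok hk'.le ?_ ?_ le_rfl ?_ iV iW iW).trans ?_)
      · have := potV_nonneg (Dk n k) G; have := potW_nonneg (Dk n k) G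
        have : 0 ≤ 1 - qs n / 4 := by linarith
        positivity
      · linarith
      · linarith
      · positivity
      have hu := mul_le_mul_of_nonneg_left (bs_mul_next (n := n) hD hq hq1) (by linarith : 0 ≤ cA)
      rw [← Ok.dk_succ] at hu
      refine le_trans ?_ hu
      have e1 : 10 / Dk n k * m0 n (Dk n k) = 10 * (Dk n k * bs n (Dk n k)) := by
        rw [eb]; field_simp
      have e2 : m3 n k * bs n (Dk n k) ≤ Dk n k * bs n (Dk n k) :=
        mul_le_mul_of_nonneg_right (h.m3_le_dk hk'.le) hb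
      have e3 : 1 ≤ Dk n k * bs n (Dk n k) := by nlinarith
      have key : 2 * (cW * (m3 n k * bs n (Dk n k))) +
          (10 / Dk n k * m0 n (Dk n k) + 1) ≤ 3 / 4 * (cA * (Dk n k * bs n (Dk n k))) := by
        rw [e1, hcA, hcW]; linarith
      linarith [mul_le_mul_of_nonneg_left key hq]
    · refine (muK_step_le h.ok hk' (fun G => ?_) fun G hG => h.stepU hk' hG).trans
        ((muK_affine_le h.ok hk'.le ?_ ?_ ?_ ?_ iU iW iV).trans ?_)
      · have := potV_nonneg (Dk n k) G; have := potW_nonneg (Dk n k) G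
        have := potU4_nonneg (Dk n k) G
        have : 0 ≤ 1 - qs n / 4 := by linarith
        positivity
      · linarith
      · positivity
      · positivity
      · positivity
      have hu := mul_le_mul_of_nonneg_left
        (uU_next (n := n) (q := qs n) hD hq hn0 (kap K n ^ 2)) (by linarith : 0 ≤ cU)
      rw [← Ok.dk_succ] at hu
      refine le_trans ?_ hu
      set F := bs n (Dk n k) * (1 + kap K n ^ 2 * rs n (Dk n k)) with hF
      have hFb : bs n (Dk n k) ≤ F := le_mul_of_one_le_right hb (by linarith)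
      have e1 : kap K n ^ 2 / Dk n k * (m3 n k * bs n (Dk n k)) ≤ F := by
        rw [hF, show kap K n ^ 2 / Dk n k * (m3 n k * bs n (Dk n k)) =
          bs n (Dk n k) * (kap K n ^ 2 * (m3 n k / Dk n k)) by ring]
        exact mul_le_mul_of_nonneg_left (h.kap_m3_div_le hk'.le) hb
      have e2 : 1 / Dk n k * (Dk n k * bs n (Dk n k)) = bs n (Dk n k) := by field_simp
      have e3 : 120 / Dk n k ^ 3 * m0 n (Dk n k) ≤ 8 * bs n (Dk n k) := by
        rw [eb, show 120 / Dk n k ^ 3 * (bs n (Dk n k) * Dk n k ^ 2) =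
          120 / Dk n k * bs n (Dk n k) by field_simp]
        exact mul_le_mul_of_nonneg_right ((div_le_iff₀ hD).2 (by linarith)) hb
      have key : 8 * (cW * (kap K n ^ 2 / Dk n k * (m3 n k * bs n (Dk n k)))) +
          40 * (cA * (1 / Dk n k * (Dk n k * bs n (Dk n k)))) +
          (120 / Dk n k ^ 3 * m0 n (Dk n k) + 1) ≤ 9 / 4 * (cU * F) := by
        rw [e2, hcU, hcA, hcW]; linarith
      have key' := mul_le_mul_of_nonneg_left key hq
      linear_combination key' 
    · obtain ⟨r0, r1⟩ := h.rate_bounds k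
      have hrq : 0 ≤ 1 + qs n * h.rate k := by nlinarith
      refine (muK_step_le h.ok hk' (fun G => ?_) fun G hG => h.stepW hk' hG).trans
        ((muK_affine_le h.ok hk'.le hrq ?_ ?_ ?_ iW iU iV).trans ?_)
      · have := potV_nonneg (Dk n k) G; have := potW_nonneg (Dk n k) G
        have := potU4_nonneg (Dk n k) G
        positivity
      · positivity
      · positivity
      · positivity
      obtain ⟨g0, g1⟩ := m3_bs_next h.ok k
      set u := m3 n k * bs n (Dk n k) with hu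
      have hu0 : 0 ≤ u := mul_nonneg (by linarith) hb
      have hgrow : (1 + qs n * (h.rate k + 1 / 2)) * u ≤ m3 n (k + 1) * bs n (Dk n (k + 1)) := by
        unfold rate
        split_ifs with hl
        · refine le_trans (le_of_eq ?_) (g1 hl); ring
        · refine le_trans (le_of_eq ?_) g0; ring
      refine le_trans ?_ (mul_le_mul_of_nonneg_left hgrow (by linarith : 0 ≤ cW))
      have e1 : 160 * cU * (bs n (Dk n k) * (1 + kap K n ^ 2 * rs n (Dk n k))) ≤ 2 * u := by
        have := mul_le_mul_of_nonneg_left (h.cU_scale_le (k := k)) hb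
        rw [hu]
        linarith
      have e2 : 1 / Dk n k * (Dk n k * bs n (Dk n k)) = bs n (Dk n k) := by field_simp
      have e3 : 40 * cA * bs n (Dk n k) ≤ u :=
        mul_le_mul_of_nonneg_right (h.lamA.trans (lam15_le_m3 n k)) hb
      have key : 160 * (cU * (bs n (Dk n k) * (1 + kap K n ^ 2 * rs n (Dk n k)))) +
          40 * (cA * (1 / Dk n k * (Dk n k * bs n (Dk n k)))) + 6762 * u ≤ 1 / 2 * (cW * u) := by
        rw [e2, hcW]; linarith
      have key' := mul_le_mul_of_nonneg_left key hq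
      linear_combination key' 
    · refine (muK_step_le h.ok hk' (fun G => ?_) fun G hG => h.stepZ hk' hG).trans
        ((muK_affine_le h.ok hk'.le ?_ ?_ le_rfl ?_ iZ iV iW).trans ?_)
      · have := potV_nonneg (Dk n k) G; have := potW_nonneg (Dk n k) G
        have : 0 ≤ 1 - qs n := by linarith
        positivity
      · linarith
      · positivity
      · positivity
      have e1 : m0 n (Dk n k) * (Dk n k * bs n (Dk n k)) = (n : ℝ) ^ 3 / 4 := by
        rw [← m0_sq_div hD, eb]; field_simp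
      have e2 : 8 * m0 n (Dk n k) + 1 ≤ 9 * ((n : ℝ) ^ 3 / 4) := by
        have := m0_le (h.ok.dk_le_n k)
        nlinarith
      have key : 2 * (cA * (m0 n (Dk n k) * (Dk n k * bs n (Dk n k)))) +
          (8 * m0 n (Dk n k) + 1) ≤ cZ * ((n : ℝ) ^ 3 / 4) := by
        rw [e1, hcZ]; linarith
      linarith [mul_le_mul_of_nonneg_left key hq]

end Big

/-- The moments at the end of the first phase. -/
theorem momentStmt : MomentStmt := by
  intro K hK
  refine ⟨cA + 2 * cU + cW, fun ε hε => ?_⟩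
  filter_upwards [eventually_momBig hK, (tendsto_rpow_atTop (show (0 : ℝ) < 21 / 5 by norm_num)).comp
    tendsto_lg |>.eventually_ge_atTop (cZ / ε ^ 2)] with n h hε2
  have hcA : 0 ≤ cA := by norm_num [cA, cW]
  have hcU : 0 ≤ cU := by norm_num [cU, cA, cW]
  have hcW : 0 ≤ cW := by norm_num [cW]
  obtain ⟨hV, hU, hW, hZ⟩ := h.moments (Nst n) le_rfl
  rw [h.ok.dk_nst] at hV hU hW hZ
  have hL := h.ok.lv_pos
  have hn := h.ok.n_pos
  set b := bs n (Lv n) with hb'
  have hb : 0 ≤ b := bs_nonneg _ _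
  have hmu : ∀ {F : Gr n → ℝ}, (∀ G, 0 ≤ F G) →
      ∑ G, mu1 K n G * F G ≤ ∑ G, muK K n (Nst n) G * F G := fun hF =>
    sum_le_sum fun G _ => mul_le_mul_of_nonneg_right (mu1_le_muK h.ok G) (hF G)
  have eb : m0 n (Lv n) / Lv n ^ 2 = b := rfl
  refine ⟨?_, ?_, ?_, ?_⟩
  · refine (hmu (potV_nonneg (Lv n))).trans (hV.trans ?_)
    rw [show (cA + 2 * cU + cW) * m0 n (Lv n) / Lv n = (cA + 2 * cU + cW) * (Lv n * b) by
      rw [← eb]; field_simp]
    exact mul_le_mul_of_nonneg_right (by linarith) (mul_nonneg hL.le hb)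
  · refine (hmu (potU4_nonneg (Lv n))).trans (hU.trans ?_)
    rw [mul_div_assoc, eb]
    have hr : kap K n ^ 2 * rs n (Lv n) ≤ 1 := by
      refine (le_abs_self _).trans (abs_le_one_iff_mul_self_le_one.2 ?_)
      rw [show kap K n ^ 2 * rs n (Lv n) * (kap K n ^ 2 * rs n (Lv n)) =
        kap K n ^ 4 * (Real.sqrt (Lv n) ^ 2 / Real.sqrt n ^ 2) by rw [rs]; ring,
        Real.sq_sqrt hL.le, Real.sq_sqrt hn.le, ← mul_div_assoc, div_le_one hn]
      exact h.kap4
    calc cU * (b * (1 + kap K n ^ 2 * rs n (Lv n))) ≤ cU * (b * 2) :=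
          mul_le_mul_of_nonneg_left (mul_le_mul_of_nonneg_left (by linarith) hb) hcU
      _ = 2 * cU * b := by ring
      _ ≤ _ := mul_le_mul_of_nonneg_right (by linarith) hb
  · refine (hmu (potW_nonneg (Lv n))).trans (hW.trans ?_)
    rw [show (cA + 2 * cU + cW) * lg n ^ 3 * m0 n (Lv n) / Lv n ^ 2 =
      (cA + 2 * cU + cW) * (lg n ^ 3 * b) by rw [← eb]; ring]
    have hl := h.ok.2.1
    have hm3 : m3 n (Nst n) ≤ lg n ^ 3 := by
      rw [m3, h.ok.dk_nst]
      refine max_le ?_ ?_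
      · refine le_trans ?_ (one_le_pow₀ hl)
        rw [div_le_one (Real.sqrt_pos.2 hn)]
        refine Real.le_sqrt_of_sq_le ?_
        rw [mul_pow, Real.sq_sqrt hL.le]
        linarith [h.L3]
      · calc lg n * Real.sqrt (lg n) ≤ lg n * lg n :=
              mul_le_mul_of_nonneg_left (Real.sqrt_le_left (by linarith) |>.2 (by nlinarith)) (by linarith)
          _ ≤ lg n ^ 3 := by nlinarith
    refine mul_le_mul (by linarith) (mul_le_mul_of_nonneg_right hm3 hb) ?_ (by positivity)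
    exact mul_nonneg ((zero_le_one.trans (h.one_le_m3 _))) hb
  · set M := m0 n (Lv n) with hM
    have hM0 : 0 < M := by rw [hM, m0]; positivity
    have hpt : ∀ G : Gr n, |(G.card : ℝ) - M| ≤
        1 / (2 * (ε * M)) * ((G.card : ℝ) - M) ^ 2 + ε * M / 2 := fun G => by
      set z := |(G.card : ℝ) - M|
      have e : ((G.card : ℝ) - M) ^ 2 = z ^ 2 := (sq_abs _).symm
      rw [e, ← sub_nonneg, show 1 / (2 * (ε * M)) * z ^ 2 + ε * M / 2 - z =
        1 / (2 * (ε * M)) * (z - ε * M) ^ 2 by field_simp; ring]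
      positivity
    refine (hmu fun G => abs_nonneg _).trans ((sum_le_sum fun G _ =>
      mul_le_mul_of_nonneg_left (hpt G) (muK_nonneg h.ok _ le_rfl G)).trans ?_)
    simp only [mul_add, sum_add_distrib, mul_left_comm _ (1 / (2 * (ε * M))), ← mul_sum, ← sum_mul]
    have hmass := mul_le_mul_of_nonneg_right (sum_muK_mass (K := K) h.ok _ le_rfl)
      (by positivity : 0 ≤ ε * M / 2)
    have hz := mul_le_mul_of_nonneg_left hZ (by positivity : 0 ≤ 1 / (2 * (ε * M)))
    have hcz : 1 / (2 * (ε * M)) * (cZ * ((n : ℝ) ^ 3 / 4)) ≤ ε * M / 2 := by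
      have hcZε : cZ ≤ ε ^ 2 * Lv n := by
        rw [mul_comm]; exact (div_le_iff₀ (by positivity)).1 hε2
      rw [← m0_sq_div hL, ← hM]
      calc 1 / (2 * (ε * M)) * (cZ * (M ^ 2 / Lv n)) = cZ * (M / (2 * ε * Lv n)) := by field_simp
        _ ≤ ε ^ 2 * Lv n * (M / (2 * ε * Lv n)) :=
            mul_le_mul_of_nonneg_right hcZε (by positivity)
        _ = _ := by field_simp
    linarith

end Vale.Agent.P046.Full.One
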