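import Vale.Agent.P046.Full.One.Model

/-!
P046, the first phase: the killed lazy chain (expectations, the exit bound, the comparison of
potentials) and its distance to the continuous time process.
-/

namespace Vale.Agent.P046.Full.One

open Finset
open Vale.Agent.P046

variable {n : ℕ} {K : ℝ}

/-- One step with a small removal probability as an average over the successors. -/
lemma step1_eq (h : ℝ) (f : Gr n → ℝ) (G : Gr n) :
    step1 h f G = (1 - h * (tri G).card) * f G + h * ∑ E ∈ tri G, f (rem G E) := by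
  rw [step1, sum_sub_distrib, sum_const, nsmul_eq_mul]
  ring

lemma card_tri_le (G : Gr n) : ((tri G).card : ℝ) ≤ (n : ℝ) ^ 3 := by
  have h1 : (tri G).card ≤ n.choose 3 :=
    (card_le_card (filter_subset _ _)).trans_eq (by simp)
  exact_mod_cast h1.trans (Nat.choose_le_pow n 3)

lemma hk_le {k : ℕ} (h : Ok n) (hk' : k ≤ Nst n) : hk n k ≤ qs n :=
  div_le_self h.qs_pos.le (h.2.2.2.1.trans (h.lv_le_dk hk'))

lemma qs_poly_le (h : Ok n) : qs n * (n : ℝ) ^ 59 ≤ 1 := by
  have hn := h.n_pos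
  have h1 := h.qs_le
  rw [Nst, Nat.cast_pow] at h1
  calc qs n * (n : ℝ) ^ 59 ≤ lg n / (n : ℝ) ^ 60 * (n : ℝ) ^ 59 :=
        mul_le_mul_of_nonneg_right h1 (by positivity)
    _ = lg n / n := by field_simp
    _ ≤ 1 := (div_le_one hn).2 h.2.2.1

lemma hk_tri_le {k : ℕ} (h : Ok n) (hk' : k ≤ Nst n) (G : Gr n) :
    hk n k * (tri G).card ≤ 1 := by
  refine (mul_le_mul (hk_le h hk') (card_tri_le G) (Nat.cast_nonneg _) h.qs_pos.le).trans ?_
  refine le_trans ?_ (qs_poly_le h)
  exact mul_le_mul_of_nonneg_left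
    (pow_le_pow_right₀ (by exact_mod_cast (by have := h.1; omega : 1 ≤ n)) (by norm_num))
    h.qs_pos.le

lemma step1_mono {h : ℝ} (h0 : 0 ≤ h) {f g : Gr n → ℝ} (hfg : ∀ G, f G ≤ g G) {G : Gr n}
    (hT : h * (tri G).card ≤ 1) : step1 h f G ≤ step1 h g G := by
  rw [step1_eq, step1_eq]
  exact add_le_add (mul_le_mul_of_nonneg_left (hfg G) (sub_nonneg.2 hT))
    (mul_le_mul_of_nonneg_left (sum_le_sum fun E _ => hfg _) h0)

lemma step1_const (h c : ℝ) (G : Gr n) : step1 h (fun _ => c) G = c := by simp [step1]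

lemma step1_nonneg {h : ℝ} (h0 : 0 ≤ h) {f : Gr n → ℝ} (hf : ∀ G, 0 ≤ f G) {G : Gr n}
    (hT : h * (tri G).card ≤ 1) : 0 ≤ step1 h f G := by
  have := step1_mono h0 (f := fun _ => (0 : ℝ)) hf hT
  rwa [step1_const] at this

lemma step1_sum (h : ℝ) (f : Gr n → ℝ) (G : Gr n) :
    ∑ H, step1 h (fun J => if J = H then 1 else 0) G * f H = step1 h f G := by
  simp only [step1_eq, add_mul, sum_mul, mul_sum, ite_mul, zero_mul, mul_ite,
    mul_one, mul_zero]
  rw [sum_add_distrib, sum_comm]
  simp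

open Classical in
/-- The expectation after one more step. -/
lemma sum_muK_succ (k : ℕ) (f : Gr n → ℝ) :
    ∑ H, muK K n (k + 1) H * f H =
      ∑ G, muK K n k G * (if Good K n k G then step1 (hk n k) f G else 0) := by
  simp only [muK, sum_mul]
  rw [sum_comm]
  refine sum_congr rfl fun G _ => ?_
  split_ifs with hG
  · simp only [mul_assoc, ← mul_sum, step1_sum]
  · simp

open Classical in
lemma sum_muK_zero (f : Gr n → ℝ) : ∑ G, muK K n 0 G * f G = f (complete n) := by
  simp [muK]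

open Classical in
lemma muK_nonneg (h : Ok n) : ∀ k, k ≤ Nst n → ∀ G, 0 ≤ muK K n k G
  | 0, _, G => by simp only [muK]; split_ifs <;> norm_num
  | k + 1, hk', H => by
    simp only [muK]
    refine sum_nonneg fun G _ => mul_nonneg (muK_nonneg h k (by omega) G) ?_
    split_ifs
    · exact step1_nonneg (h.hk_pos k).le (fun J => by split_ifs <;> norm_num)
        (hk_tri_le h (by omega) G)
    · exact le_rfl

lemma mu1_nonneg (h : Ok n) (G : Gr n) : 0 ≤ mu1 K n G := by
  unfold mu1
  split_ifs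
  · exact muK_nonneg h _ le_rfl G
  · exact le_rfl

lemma good_of_mu1_ne_zero {G : Gr n} (h : mu1 K n G ≠ 0) : Good K n (Nst n) G := by
  unfold mu1 at h
  split_ifs at h with hG
  · exact hG
  · exact absurd rfl h

lemma mu1_le_muK (h : Ok n) (G : Gr n) : mu1 K n G ≤ muK K n (Nst n) G := by
  unfold mu1
  split_ifs
  · exact le_rfl
  · exact muK_nonneg h _ le_rfl G

lemma sum_muK_mass (h : Ok n) : ∀ k, k ≤ Nst n → ∑ G, muK K n k G ≤ 1
  | 0, _ => by
    have := sum_muK_zero (K := K) (n := n) (fun _ => 1)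
    simp only [mul_one] at this
    exact this.le
  | k + 1, hk' => by
    classical
    have := sum_muK_succ (K := K) k (fun _ : Gr n => (1 : ℝ))
    simp only [mul_one, step1_const] at this
    rw [this]
    refine le_trans (sum_le_sum fun G _ => ?_) (sum_muK_mass h k (by omega))
    exact mul_le_of_le_one_right (muK_nonneg h k (by omega) G) (by split_ifs <;> norm_num)

open Classical in
/-- The exit bound: a nonnegative potential that is at least `1` outside the good states and does
not grow in expectation on them bounds the killed mass. -/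
lemma mass_lb (h : Ok n) (Φ : ℕ → Gr n → ℝ) (h0 : ∀ k G, 0 ≤ Φ k G)
    (hbad : ∀ k, k ≤ Nst n → ∀ G, ¬Good K n k G → 1 ≤ Φ k G)
    (hstep : ∀ k, k < Nst n → ∀ G, Good K n k G → step1 (hk n k) (Φ (k + 1)) G ≤ Φ k G) :
    1 - Φ 0 (complete n) ≤ ∑ G, mu1 K n G := by
  have key : ∀ k, k ≤ Nst n → 1 - Φ 0 (complete n) ≤
      ∑ G, muK K n k G * (1 - Φ k G) := by
    intro k
    induction k with
    | zero => intro _; rw [sum_muK_zero (fun G => 1 - Φ 0 G)]
    | succ k ih =>
      intro hk'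
      refine (ih (by omega)).trans ?_
      rw [sum_muK_succ]
      refine sum_le_sum fun G _ => mul_le_mul_of_nonneg_left ?_ (muK_nonneg h k (by omega) G)
      split_ifs with hG
      · have h1 := hstep k (by omega) G hG
        have h2 : step1 (hk n k) (fun J => 1 - Φ (k + 1) J) G =
            1 - step1 (hk n k) (Φ (k + 1)) G := by
          simp only [step1_eq, sum_sub_distrib, sum_const, nsmul_eq_mul]
          ring
        rw [h2]
        linarith
      · linarith [hbad k (by omega) G hG]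
  refine (key _ le_rfl).trans (sum_le_sum fun G _ => ?_)
  have hm := muK_nonneg (K := K) h _ le_rfl G
  unfold mu1
  split_ifs with hG
  · nlinarith [h0 (Nst n) G]
  · nlinarith [hbad _ le_rfl G hG]

open Classical in
/-- A potential that grows at most affinely on the good states stays below the comparison
sequence. -/
lemma muK_le_of_drift (h : Ok n) (Φ : ℕ → Gr n → ℝ) (u : ℕ → ℝ) (a b : ℕ → ℝ)
    (h0 : Φ 0 (complete n) ≤ u 0) (hΦ : ∀ k G, 0 ≤ Φ k G) (ha : ∀ k, 0 ≤ a k)
    (hb : ∀ k, 0 ≤ b k) (hu : ∀ k, k < Nst n → a k * u k + b k ≤ u (k + 1))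
    (hstep : ∀ k, k < Nst n → ∀ G, Good K n k G →
      step1 (hk n k) (Φ (k + 1)) G ≤ a k * Φ k G + b k) :
    ∀ k, k ≤ Nst n → ∑ G, muK K n k G * Φ k G ≤ u k := by
  intro k
  induction k with
  | zero => intro _; rw [sum_muK_zero (Φ 0)]; exact h0
  | succ k ih =>
    intro hk'
    rw [sum_muK_succ]
    calc ∑ G, muK K n k G * (if Good K n k G then step1 (hk n k) (Φ (k + 1)) G else 0)
        ≤ ∑ G, muK K n k G * (a k * Φ k G + b k) := by
          refine sum_le_sum fun G _ =>
            mul_le_mul_of_nonneg_left ?_ (muK_nonneg h k (by omega) G)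
          split_ifs with hG
          · exact hstep k (by omega) G hG
          · exact add_nonneg (mul_nonneg (ha k) (hΦ k G)) (hb k)
      _ = a k * ∑ G, muK K n k G * Φ k G + b k * ∑ G, muK K n k G := by
          rw [mul_sum, mul_sum, ← sum_add_distrib]
          exact sum_congr rfl fun G _ => by ring
      _ ≤ a k * u k + b k * 1 := add_le_add (mul_le_mul_of_nonneg_left (ih (by omega)) (ha k))
          (mul_le_mul_of_nonneg_left (sum_muK_mass h k (by omega)) (hb k))
      _ ≤ u (k + 1) := by rw [mul_one]; exact hu k (by omega)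

/-! ### Distance to the continuous time process -/

/-- The expectation after `k` lazy steps without killing. -/
noncomputable def lazyE (n : ℕ) : ℕ → (Gr n → ℝ) → Gr n → ℝ
  | 0, f => f
  | k + 1, f => lazyE n k (step1 (hk n k) f)

lemma gen_rstep_apply (f : Gr n → ℝ) (G : Gr n) :
    gen (rstep (n := n)) f G = ∑ E ∈ tri G, (f (rem G E) - f G) := by
  rw [gen_apply, ← Finset.sum_subset (subset_univ (tri G))]
  · exact sum_congr rfl fun E hE => by simp [rstep, hE]
  · intro E _ hE; simp [rstep, hE]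

lemma gen_rstep_abs_le {f : Gr n → ℝ} {B : ℝ} (hf : ∀ G, |f G| ≤ B) (G : Gr n) :
    |gen (rstep (n := n)) f G| ≤ 2 * (n : ℝ) ^ 3 * B := by
  have hB : 0 ≤ B := (abs_nonneg _).trans (hf G)
  rw [gen_rstep_apply]
  refine (abs_sum_le_sum_abs _ _).trans ?_
  refine (sum_le_sum (g := fun _ => 2 * B) fun E _ =>
    (abs_sub _ _).trans (by linarith [hf (rem G E), hf G])).trans ?_
  rw [sum_const, nsmul_eq_mul]
  nlinarith [card_tri_le G]

/-- One lazy step against the semigroup, with the number of triangles as the jump rate. -/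
lemma semi_sub_step1 {h : ℝ} (hh : 0 ≤ h) {f : Gr n → ℝ} {B : ℝ} (hB : ∀ G, |f G| ≤ B)
    (G : Gr n) :
    |semi (rstep (n := n)) h f G - step1 h f G| ≤ 4 * (n : ℝ) ^ 6 * B * h ^ 2 := by
  set c : ℝ := 4 * (n : ℝ) ^ 6 * B with hc
  set st := rstep (n := n)
  have hgg : ∀ y, |gen st (gen st f) y| ≤ c := fun y =>
    (gen_rstep_abs_le (gen_rstep_abs_le hB) y).trans (le_of_eq (by rw [hc]; ring))
  have h1 : ∀ u ∈ Set.Icc 0 h, |semi st u (gen st f) G - gen st f G| ≤ c * u := by
    intro u hu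
    have hd : ∀ v ∈ Set.Icc 0 u, HasDerivWithinAt (fun v => semi st v (gen st f) G)
        (semi st v (gen st (gen st f)) G) (Set.Icc 0 u) v := fun v _ =>
      (semi_apply_hasDerivAt st (gen st f) G v).hasDerivWithinAt
    have := (convex_Icc (0 : ℝ) u).norm_image_sub_le_of_norm_hasDerivWithin_le hd
      (fun v hv => by simpa using semi_abs_le st hv.1 hgg G)
      (Set.left_mem_Icc.2 hu.1) (Set.right_mem_Icc.2 hu.1)
    simpa [semi_zero, abs_of_nonneg hu.1] using this
  have hd2 : ∀ u ∈ Set.Icc 0 h, HasDerivWithinAt (fun u => semi st u f G - u * gen st f G)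
      (semi st u (gen st f) G - gen st f G) (Set.Icc 0 h) u := fun u _ => by
    have h3 := (semi_apply_hasDerivAt st f G u).fun_sub
      ((hasDerivAt_id u).mul_const (gen st f G))
    simpa using h3.hasDerivWithinAt
  have hmain := (convex_Icc (0 : ℝ) h).norm_image_sub_le_of_norm_hasDerivWithin_le (C := c * h) hd2
    (fun u hu => by
      have hc0 : 0 ≤ c := (abs_nonneg _).trans (hgg G)
      simpa using (h1 u hu).trans (by nlinarith [hu.2]))
    (Set.left_mem_Icc.2 hh) (Set.right_mem_Icc.2 hh)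
  simp only [semi_zero, Real.norm_eq_abs, sub_zero, zero_mul, abs_of_nonneg hh] at hmain
  calc |semi st h f G - step1 h f G| = |semi st h f G - h * gen st f G - f G| := by
        rw [step1, ← gen_rstep_apply]; congr 1; ring
    _ ≤ c * h * h := by simpa using hmain
    _ = 4 * (n : ℝ) ^ 6 * B * h ^ 2 := by rw [hc]; ring

lemma semi_sub_lazyE (h : Ok n) : ∀ k, k ≤ Nst n → ∀ (f : Gr n → ℝ) (B : ℝ),
    (∀ G, |f G| ≤ B) → ∀ G, |semi (rstep (n := n)) (∑ i ∈ range k, hk n i) f G - lazyE n k f G| ≤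
      4 * (n : ℝ) ^ 6 * B * ∑ i ∈ range k, hk n i ^ 2
  | 0, _, f, B, _, G => by simp [lazyE, semi_zero]
  | k + 1, hk', f, B, hf, G => by
    have hh := (h.hk_pos k).le
    have hS : 0 ≤ ∑ i ∈ range k, hk n i := sum_nonneg fun i _ => (h.hk_pos i).le
    have hf' : ∀ J, |step1 (hk n k) f J| ≤ B := fun J => by
      have hT := hk_tri_le h (by omega : k ≤ Nst n) J
      rw [abs_le]
      constructor
      · have := step1_mono hh (f := fun _ => -B) (g := f) (fun H => (abs_le.1 (hf H)).1) hT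
        rwa [step1_const] at this
      · have := step1_mono hh (f := f) (g := fun _ => B) (fun H => (abs_le.1 (hf H)).2) hT
        rwa [step1_const] at this
    have e1 := semi_sub_lazyE h k (by omega) _ B hf' G
    have e2 := semi_abs_le (rstep (n := n)) hS
      (f := semi (rstep (n := n)) (hk n k) f - step1 (hk n k) f)
      (fun J => semi_sub_step1 hh hf J) G
    rw [map_sub, ← semi_add_apply] at e2
    simp only [Pi.sub_apply] at e2
    rw [sum_range_succ, sum_range_succ, mul_add]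
    simp only [lazyE]
    exact (abs_sub_le _ _ _).trans (by linarith)

open Classical in
lemma muK_le_lazyE (h : Ok n) : ∀ k, k ≤ Nst n → ∀ f : Gr n → ℝ, (∀ G, 0 ≤ f G) →
    ∑ G, muK K n k G * f G ≤ lazyE n k f (complete n)
  | 0, _, f, _ => by simp [lazyE, sum_muK_zero]
  | k + 1, hk', f, hf => by
    have hst : ∀ G, 0 ≤ step1 (hk n k) f G := fun G =>
      step1_nonneg (h.hk_pos k).le hf (hk_tri_le h (by omega) G)
    refine le_trans ?_ (muK_le_lazyE h k (by omega) _ hst)
    rw [sum_muK_succ]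
    refine sum_le_sum fun G _ => mul_le_mul_of_nonneg_left ?_ (muK_nonneg h k (by omega) G)
    split_ifs
    · exact le_rfl
    · exact hst G

lemma lazyE_sub (k : ℕ) : ∀ f : Gr n → ℝ,
    lazyE n k (fun G => 1 - f G) = fun G => 1 - lazyE n k f G := by
  induction k with
  | zero => intro f; rfl
  | succ k ih =>
    intro f
    simp only [lazyE]
    rw [show step1 (hk n k) (fun G => 1 - f G) = fun G => 1 - step1 (hk n k) f G from ?_, ih]
    funext G
    simp only [step1_eq, sum_sub_distrib, sum_const, nsmul_eq_mul]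
    ring

/-- The killed law is close to the law of the process. -/
theorem mu1_closeTo (h : Ok n) (hm : 1 - 1 / (n : ℝ) ^ 9 ≤ ∑ G, mu1 K n G) :
    CloseTo (mu1 K n) (rL n) (1 / (n : ℝ) ^ 8) := by
  have hmass : ∑ G, mu1 K n G ≤ 1 :=
    (sum_le_sum fun G _ => mu1_le_muK h G).trans (sum_muK_mass h _ le_rfl)
  refine ⟨mu1_nonneg h, hmass, fun f hf => ?_⟩
  have up : ∀ φ : Gr n → ℝ, (∀ G, 0 ≤ φ G) →
      ∑ G, mu1 K n G * φ G ≤ lazyE n (Nst n) φ (complete n) := fun φ hφ =>
    (sum_le_sum fun G _ => mul_le_mul_of_nonneg_right (mu1_le_muK h G) (hφ G)).trans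
      (muK_le_lazyE h _ le_rfl φ hφ)
  have h1 := up f fun G => (hf G).1
  have h2 := up (fun G => 1 - f G) fun G => sub_nonneg.2 (hf G).2
  rw [lazyE_sub] at h2
  simp only [mul_sub, mul_one, sum_sub_distrib] at h2
  have h3 := semi_sub_lazyE h _ le_rfl f 1
    (fun G => abs_le.2 ⟨by linarith [(hf G).1], (hf G).2⟩) (complete n)
  rw [h.sum_hk] at h3
  have hn := h.n_pos
  have h4 : ∑ i ∈ range (Nst n), hk n i ^ 2 ≤ qs n * lg n := by
    refine (sum_le_sum (g := fun _ => qs n * qs n) fun i hi => ?_).trans ?_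
    · rw [sq]
      have := hk_le h (mem_range.1 hi).le
      exact mul_le_mul this this (h.hk_pos i).le h.qs_pos.le
    · rw [sum_const, card_range, nsmul_eq_mul]
      nlinarith [h.qs_mul_nst_le, h.qs_pos]
  have h5 : qs n * lg n ≤ qs n * n := mul_le_mul_of_nonneg_left h.2.2.1 h.qs_pos.le
  have h6 : 4 * (n : ℝ) ^ 6 * (qs n * n) ≤ 1 / (2 * (n : ℝ) ^ 8) := by
    rw [le_div_iff₀ (by positivity)]
    have h7 := qs_poly_le h
    have h8 : 8 * (n : ℝ) ^ 15 ≤ (n : ℝ) ^ 59 := by
      have h3n : (3 : ℝ) ≤ n := by exact_mod_cast h.1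
      calc 8 * (n : ℝ) ^ 15 ≤ (n : ℝ) ^ 2 * (n : ℝ) ^ 15 := by
            gcongr; nlinarith
        _ ≤ (n : ℝ) ^ 59 := by
            rw [← pow_add]; exact pow_le_pow_right₀ (by linarith) (by norm_num)
    calc 4 * (n : ℝ) ^ 6 * (qs n * n) * (2 * (n : ℝ) ^ 8) = qs n * (8 * (n : ℝ) ^ 15) := by ring
      _ ≤ qs n * (n : ℝ) ^ 59 := mul_le_mul_of_nonneg_left h8 h.qs_pos.le
      _ ≤ 1 := h7
  have h9 : 1 / (n : ℝ) ^ 9 ≤ 1 / (2 * (n : ℝ) ^ 8) := by
    have h3n : (3 : ℝ) ≤ n := by exact_mod_cast h.1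
    apply one_div_le_one_div_of_le (by positivity)
    rw [pow_succ' (n : ℝ) 8]
    gcongr
    linarith
  have h10 : 4 * (n : ℝ) ^ 6 * 1 * ∑ i ∈ range (Nst n), hk n i ^ 2 ≤ 1 / (2 * (n : ℝ) ^ 8) := by
    rw [mul_one]
    exact (mul_le_mul_of_nonneg_left (h4.trans h5) (by positivity)).trans h6
  have h11 : 1 / (2 * (n : ℝ) ^ 8) + 1 / (2 * (n : ℝ) ^ 8) = 1 / (n : ℝ) ^ 8 := by
    field_simp; ring
  obtain ⟨h3a, h3b⟩ := abs_le.1 h3
  rw [abs_le]
  constructor <;> simp only [expAt] at * <;> linarith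

end Vale.Agent.P046.Full.One
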