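import Vale.Agent.P046.Full.One.PredVar
import Vale.Agent.P046.Full.One.Chain
import Vale.Agent.P046.Full.One.Facts

/-!
P046, the first phase: the exponential potential of one prediction does not grow.
-/

namespace Vale.Agent.P046.Full.One

open Finset
open Vale.Agent.P046

variable {n : ℕ}

/-- The conditions on `n` for the predictor. -/
def BigPred (K : ℝ) (n : ℕ) : Prop :=
  Ok n ∧ 1 ≤ K ∧ dlt K n * lg n ≤ 1 / 8 ∧ (114 : ℝ) ^ 2 ≤ Lv n ∧
    4 * kap K n ^ 2 ≤ Lv n

/-- The compensator of the predictor potential per step. -/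
noncomputable def compP (K : ℝ) (n : ℕ) : ℝ :=
  qs n * (801 * kap K n ^ 2 / Real.sqrt (Lv n) + 2500000)

/-- The potential of the prediction of `g` at step `j`, with sign `σ`. -/
noncomputable def termP (K : ℝ) (n : ℕ) (σ : ℝ) (k j : ℕ) (g : Finset (Fin n)) (G : Gr n) : ℝ :=
  if g ∈ G then Real.exp (σ * Real.sqrt (Dk n j) * psiP n k j G g - kap K n +
    ((Nst n - k : ℕ) : ℝ) * compP K n) else 0

lemma termP_nonneg (K σ : ℝ) (k j : ℕ) (g : Finset (Fin n)) (G : Gr n) :
    0 ≤ termP K n σ k j g G := by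
  unfold termP
  split_ifs
  · exact (Real.exp_pos _).le
  · exact le_rfl

lemma exp_le_quad {y : ℝ} (h : |y| ≤ 1) : Real.exp y ≤ 1 + y + y ^ 2 := by
  linarith [(abs_le.1 (Real.abs_exp_sub_one_sub_id_le h)).2]

/-- A good state satisfies the hypotheses of the one step analysis. -/
lemma ctx_of_good {K : ℝ} (hB : BigPred K n) {k r : ℕ} (hr : k + r + 1 ≤ Nst n) {G : Gr n}
    (hG : Good K n k G) {g : Finset (Fin n)} (hg : g ∈ G) :
    Ctx G (Dk n k) (qs n) (kap K n) r g := by
  obtain ⟨h, hK, hd, hL, hkap⟩ := hB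
  have hq := h.qs_pos
  have hkN : k ≤ Nst n := by omega
  have hD := h.dk_pos k
  have hDL := h.lv_le_dk hkN
  have hl : 1 ≤ lg n := h.2.1
  have hkap1 : 1 ≤ kap K n := one_le_mul_of_one_le_of_one_le hK hl
  have hrN : (r : ℝ) * qs n ≤ lg n := by
    refine le_trans ?_ h.qs_mul_nst_le
    rw [mul_comm]
    exact mul_le_mul_of_nonneg_left (by exact_mod_cast (by omega : r ≤ Nst n)) hq.le
  have hdl : kap K n / Real.sqrt (Dk n k) ≤ dlt K n :=
    kap_div_le_dlt h (zero_le_one.trans hK) hkN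
  have hrq0 : 0 ≤ (r : ℝ) * qs n := by positivity
  have hn1 : (1 : ℝ) ≤ n := by exact_mod_cast (show 1 ≤ n by have := h.1; omega)
  have h59 := qs_poly_le h
  have hpoly : ∀ e : ℕ, e ≤ 59 → qs n * (n : ℝ) ^ e ≤ 1 := fun e he =>
    (mul_le_mul_of_nonneg_left (pow_le_pow_right₀ hn1 he) hq.le).trans h59
  refine
    { mem := hg
      one_le_D := h.2.2.2.1.trans hDL
      q_pos := hq
      q_le := ?_
      one_le_kap := hkap1
      kap_le := ?_
      small := ?_
      far := ?_
      pred := ?_ }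
  · -- polynomial size
    have hT : ((tri G).card : ℝ) + 1 ≤ 2 * (n : ℝ) ^ 3 := by
      linarith [card_tri_le G, one_le_pow₀ hn1 (n := 3)]
    have hrn : 1 + (r : ℝ) * qs n ≤ 2 * n := by linarith [h.2.2.1]
    calc 100 * qs n * ((tri G).card + 1) * (1 + r * qs n) ^ 2 * Dk n k ^ 2
        ≤ 100 * qs n * (2 * (n : ℝ) ^ 3) * (2 * (n : ℝ)) ^ 2 * (n : ℝ) ^ 2 := by
          gcongr
          exact h.dk_le_n k
      _ = 8 * (100 * (n : ℝ) ^ 7 * qs n) := by ring
      _ ≤ (n : ℝ) * n * (100 * (n : ℝ) ^ 7 * qs n) := by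
          refine mul_le_mul_of_nonneg_right ?_ (by positivity)
          have : (3 : ℝ) ≤ n := by exact_mod_cast h.1
          nlinarith
      _ = qs n * (n * (100 * (n : ℝ) ^ 8)) := by ring
      _ ≤ 1 := by
          rcases le_or_gt 10 n with h10 | h10
          · have h10' : (10 : ℝ) ≤ n := by exact_mod_cast h10
            refine le_trans ?_ (hpoly 11 (by norm_num))
            refine mul_le_mul_of_nonneg_left ?_ hq.le
            calc (n : ℝ) * (100 * (n : ℝ) ^ 8) ≤ (n : ℝ) * ((n : ℝ) ^ 2 * (n : ℝ) ^ 8) := by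
                  gcongr; nlinarith
              _ = (n : ℝ) ^ 11 := by ring
          · refine le_trans ?_ (hpoly 59 le_rfl)
            refine mul_le_mul_of_nonneg_left ?_ hq.le
            have h3' : (3 : ℝ) ≤ n := by exact_mod_cast h.1
            calc (n : ℝ) * (100 * (n : ℝ) ^ 8) ≤ (n : ℝ) * ((n : ℝ) ^ 5 * (n : ℝ) ^ 8) := by
                  gcongr
                  exact le_trans (by norm_num) (pow_le_pow_left₀ (by norm_num) h3' 5)
              _ = (n : ℝ) ^ 14 := by ring
              _ ≤ _ := pow_le_pow_right₀ hn1 (by norm_num)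
  · calc 2 * kap K n = Real.sqrt (4 * kap K n ^ 2) := by
          rw [show 4 * kap K n ^ 2 = (2 * kap K n) ^ 2 by ring, Real.sqrt_sq (by linarith)]
      _ ≤ Real.sqrt (Dk n k) := Real.sqrt_le_sqrt (hkap.trans hDL)
  · have h1 : (r : ℝ) * qs n * (kap K n / Real.sqrt (Dk n k)) ≤ lg n * dlt K n :=
      mul_le_mul hrN hdl (by positivity) (zero_le_one.trans hl)
    have h2 : (r : ℝ) * qs n * (8 * qs n) ≤ 1 / 8 := by
      have h2a : (r : ℝ) * qs n * (8 * qs n) ≤ (n : ℝ) * (8 * qs n) :=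
        mul_le_mul_of_nonneg_right (hrN.trans h.2.2.1) (by positivity)
      have h3' : (3 : ℝ) ≤ n := by exact_mod_cast h.1
      have h2b : 64 * ((n : ℝ) * qs n) ≤ 1 := by
        refine le_trans ?_ (hpoly 5 (by norm_num))
        have : (64 : ℝ) ≤ (n : ℝ) ^ 4 := le_trans (by norm_num) (pow_le_pow_left₀ (by norm_num) h3' 4)
        nlinarith [mul_pos h.n_pos hq]
      linarith
    linarith [mul_comm (lg n) (dlt K n)]
  · have hPeq := h.dk_eq_mul (Nat.le_add_right k r)
    rw [Nat.add_sub_cancel_left] at hPeq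
    rw [hPeq]
    refine mul_le_mul_of_nonneg_right ?_ (pow_nonneg h.base_pos.le r)
    refine le_trans ?_ (h.lv_le_dk (by omega : k + r ≤ Nst n))
    refine le_trans ?_ hkap
    have : (r : ℝ) * qs n ≤ kap K n := hrN.trans (le_mul_of_one_le_left (zero_le_one.trans hl) hK)
    calc (kap K n + r * qs n) ^ 2 ≤ (2 * kap K n) ^ 2 := by gcongr; linarith
      _ = _ := by ring
  · intro i hi f hf
    have h1 := hG.2.1 f hf (k + i) (by omega) (by omega)
    simp only [psiP, Nat.add_sub_cancel_left] at h1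
    refine h1.trans (le_of_eq ?_)
    have hPeq := h.dk_eq_mul (Nat.le_add_right k i)
    rw [Nat.add_sub_cancel_left] at hPeq
    have hb := h.base_pos
    rw [hPeq, Real.sqrt_mul (h.dk_pos _).le]
    have e : Real.sqrt ((1 + 2 * qs n) ^ i) = Real.sqrt (1 + 2 * qs n) ^ i := by
      rw [Real.sqrt_eq_iff_eq_sq (by positivity) (by positivity), ← pow_mul, mul_comm i 2, pow_mul,
        Real.sq_sqrt hb.le]
    rw [e]
    field_simp

/-- The step of the predictor potential. -/
lemma termP_step {K : ℝ} (hB : BigPred K n) {k j : ℕ} (hkj : k < j) (hj : j ≤ Nst n) {G : Gr n}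
    (hG : Good K n k G) {σ : ℝ} (hσ : σ = 1 ∨ σ = -1) (g : Finset (Fin n)) :
    step1 (hk n k) (termP K n σ (k + 1) j g) G ≤ termP K n σ k j g G := by
  by_cases hg : g ∈ G
  swap
  · simp [step1, termP, rem, hg]
  obtain ⟨r, rfl⟩ : ∃ r, j = k + r + 1 := ⟨j - k - 1, by omega⟩
  have hctx := ctx_of_good hB hj hG hg
  obtain ⟨h, hK, -, hL, -⟩ := hB
  have hD := h.dk_pos k
  have hq := h.qs_pos
  have hDj := h.dk_pos (k + r + 1)
  have hT1 := hk_tri_le h (by omega : k ≤ Nst n) G
  have hσ2 : σ ^ 2 = 1 := by rcases hσ with rfl | rfl <;> norm_num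
  have hσa : |σ| = 1 := by rcases hσ with rfl | rfl <;> simp
  set D := Dk n k
  set q := qs n
  set κ := kap K n
  set θ := Real.sqrt (Dk n (k + r + 1)) with hθ
  set P := (1 + 2 * q) ^ r with hP
  have hP0 : 0 < P := pow_pos h.base_pos r
  have hθ0 : 0 ≤ θ := Real.sqrt_nonneg _
  have hDeq : D = Dk n (k + r + 1) * (1 + 2 * q) ^ (r + 1) := by
    have := h.dk_eq_mul (show k ≤ k + r + 1 by omega)
    rwa [show k + r + 1 - k = r + 1 by omega] at this
  have hPD : P / D ≤ 1 / Dk n (k + r + 1) := by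
    rw [hDeq, div_le_div_iff₀ (by rw [← hDeq]; exact hD) hDj, hP, pow_succ]
    have : 0 ≤ Dk n (k + r + 1) * ((1 + 2 * q) ^ r) * (2 * q) := by positivity
    linarith
  have hLj : Lv n ≤ Dk n (k + r + 1) := h.lv_le_dk hj
  have hθ114 : 114 ≤ θ := by
    rw [hθ, Real.le_sqrt (by norm_num) hDj.le]
    exact hL.trans hLj
  have hθsq : θ * θ = Dk n (k + r + 1) := Real.mul_self_sqrt hDj.le
  have hθP : θ * (P / D) ≤ 1 / θ := by
    refine (mul_le_mul_of_nonneg_left hPD hθ0).trans_eq ?_
    rw [← hθsq]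
    field_simp
  have hθP2 : θ ^ 2 * (P / D) ≤ 1 := by
    refine (mul_le_mul_of_nonneg_left hPD (sq_nonneg θ)).trans_eq ?_
    rw [sq, hθsq, mul_one_div, div_self hDj.ne']
  -- the exponent
  set Ψ := psiP n k (k + r + 1) G g
  set R := ((Nst n - (k + 1) : ℕ) : ℝ) * compP K n
  set A := Real.exp (σ * θ * Ψ - κ + R) with hA
  set y0 := σ * θ * stayD G D q r g with hy0
  set yE : Finset (Fin n) → ℝ := fun E => σ * θ * jumpD G D q r g E with hyE
  have hdiv : qs n / Dk n (k + 1) = q * (1 + 2 * q) / D := by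
    rw [Ok.dk_succ]; exact div_div_eq_mul_div _ _ _
  have hkr : k + r + 1 - (k + 1) = r := by omega
  have hpsi : ∀ J : Gr n, psiP n (k + 1) (k + r + 1) J g =
      (mop (q * (1 + 2 * q) / D) J)^[r] (xv (D / (1 + 2 * q)) J) g := fun J => by
    rw [psiP, hkr, hdiv, Ok.dk_succ]
  have hkr' : k + r + 1 - k = r + 1 := by omega
  have e0 : termP K n σ (k + 1) (k + r + 1) g G = A * Real.exp y0 := by
    rw [termP, if_pos hg, hA, ← Real.exp_add]
    congr 1
    rw [hy0, hpsi]
    simp only [Ψ, R, stayD, psiP, hkr', θ, κ, q, D]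
    ring
  have eE : ∀ E ∈ (tri G).filter (fun E => g ∉ sides E),
      termP K n σ (k + 1) (k + r + 1) g (rem G E) = A * Real.exp (yE E) := by
    intro E hE
    rw [termP, if_pos (show g ∈ rem G E from mem_sdiff.2 ⟨hg, (mem_filter.1 hE).2⟩), hA,
      ← Real.exp_add]
    congr 1
    rw [hyE, hpsi]
    simp only [Ψ, R, jumpD, psiP, hkr', θ, κ, q, D]
    ring
  have ez : ∀ E ∈ tri G, g ∈ sides E → termP K n σ (k + 1) (k + r + 1) g (rem G E) = 0 :=
    fun E _ hE => by simp [termP, rem, hE]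
  rw [step1_eq, ← sum_filter_add_sum_filter_not (tri G) (fun E => g ∈ sides E),
    sum_eq_zero (s := (tri G).filter (fun E => g ∈ sides E))
      (fun E hE => ez E (mem_filter.1 hE).1 (mem_filter.1 hE).2), zero_add, sum_congr rfl eE, e0]
  set T := (tri G).filter (fun E => g ∉ sides E) with hT
  have hb0 : |stayD G D q r g| ≤ q * (10 + 6 * (r * q)) * P := hctx.stayD_abs_le
  have hsmall : q * (16 * (1 + r * q)) * ((tri G).card + 1) * D ≤ 1 := by
    refine le_trans ?_ hctx.q_le
    have h1 : 1 + (r : ℝ) * q ≤ (1 + r * q) ^ 2 :=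
      le_self_pow₀ (by simp; positivity) two_ne_zero
    calc q * (16 * (1 + r * q)) * ((tri G).card + 1) * D
        ≤ q * (100 * (1 + r * q) ^ 2) * ((tri G).card + 1) * D ^ 2 := by
          gcongr
          · norm_num
          · exact le_self_pow₀ hctx.one_le_D two_ne_zero
      _ = _ := by ring
  have hrq0 : 0 ≤ (r : ℝ) * q := by positivity
  have hb0' : |stayD G D q r g| * ((tri G).card + 1) ≤ P / D := by
    rw [le_div_iff₀ hD]
    calc |stayD G D q r g| * ((tri G).card + 1) * D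
        ≤ (q * (16 * (1 + r * q)) * P) * ((tri G).card + 1) * D := by
          gcongr
          refine hb0.trans ?_
          gcongr
          linarith
      _ = (q * (16 * (1 + r * q)) * ((tri G).card + 1) * D) * P := by ring
      _ ≤ 1 * P := mul_le_mul_of_nonneg_right hsmall hP0.le
      _ = P := one_mul P
  have hcard0 : (0 : ℝ) ≤ (tri G).card := Nat.cast_nonneg _
  have hy0abs : |y0| ≤ 1 := by
    rw [hy0, abs_mul, abs_mul, hσa, one_mul, abs_of_nonneg hθ0]
    refine (mul_le_mul_of_nonneg_left ((le_mul_of_one_le_right (abs_nonneg _)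
      (le_add_of_nonneg_left hcard0)).trans hb0') hθ0).trans (hθP.trans ?_)
    rw [div_le_one (by linarith)]
    linarith
  have hyEabs : ∀ E ∈ T, |yE E| ≤ 1 := by
    intro E hE
    rw [hyE, abs_mul, abs_mul, hσa, one_mul, abs_of_nonneg hθ0]
    refine (mul_le_mul_of_nonneg_left (hctx.jump_le (mem_filter.1 hE).1 (mem_filter.1 hE).2)
      hθ0).trans ?_
    rw [show θ * (114 * P / D) = 114 * (θ * (P / D)) by ring]
    refine (mul_le_mul_of_nonneg_left hθP (by norm_num)).trans ?_
    rw [mul_one_div, div_le_one (by linarith)]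
    exact hθ114
  have hTc : (T.card : ℝ) ≤ (tri G).card := by exact_mod_cast card_le_card (filter_subset _ _)
  have hh : hk n k = q / D := rfl
  rw [hh] at hT1 ⊢
  set hq0 := q / D
  have hh0 : 0 ≤ hq0 := div_nonneg hq.le hD.le
  set drift := stayD G D q r g + hq0 * ∑ E ∈ T, jumpD G D q r g E
  set var := stayD G D q r g ^ 2 + hq0 * ∑ E ∈ T, jumpD G D q r g E ^ 2
  -- the average of the exponentials
  have hsum : (1 - hq0 * (tri G).card) * Real.exp y0 + hq0 * ∑ E ∈ T, Real.exp (yE E) ≤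
      1 + (θ * |drift| + θ ^ 2 * var + θ * (hq0 * (P / D))) := by
    refine (add_le_add (mul_le_mul_of_nonneg_left (exp_le_quad hy0abs) (sub_nonneg.2 hT1))
      (mul_le_mul_of_nonneg_left (sum_le_sum fun E hE => exp_le_quad (hyEabs E hE)) hh0)).trans ?_
    simp only [sum_add_distrib, sum_const, nsmul_eq_mul, mul_one, hy0, hyE, mul_pow, hσ2, one_mul,
      ← mul_sum]
    have h1 : hq0 * (T.card : ℝ) ≤ hq0 * (tri G).card := mul_le_mul_of_nonneg_left hTc hh0
    have h2 : σ * θ * drift ≤ θ * |drift| := by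
      refine (le_abs_self _).trans_eq ?_
      rw [abs_mul, abs_mul, hσa, one_mul, abs_of_nonneg hθ0]
    have h3 : -(hq0 * (tri G).card * (σ * θ * stayD G D q r g)) ≤ θ * (hq0 * (P / D)) := by
      refine (neg_le_abs _).trans ?_
      rw [abs_mul, abs_mul (σ * θ), abs_mul σ, hσa, one_mul, abs_of_nonneg hθ0,
        abs_of_nonneg (mul_nonneg hh0 hcard0)]
      calc hq0 * (tri G).card * (θ * |stayD G D q r g|)
          = θ * (hq0 * (|stayD G D q r g| * (tri G).card)) := by ring
        _ ≤ θ * (hq0 * (P / D)) := by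
            refine mul_le_mul_of_nonneg_left (mul_le_mul_of_nonneg_left (le_trans ?_ hb0') hh0) hθ0
            exact mul_le_mul_of_nonneg_left (by linarith) (abs_nonneg _)
    have h4 : 0 ≤ hq0 * (tri G).card * (θ ^ 2 * stayD G D q r g ^ 2) := by positivity
    simp only [drift, var] at h2 ⊢
    linarith
  have hdr : |drift| ≤ q * P / D * (400 * (κ ^ 2 + r * q)) := hctx.drift_le
  have hvr : var ≤ 2500000 * (q * P / D) := hctx.var_le
  have hκ1 : 1 ≤ κ := hctx.one_le_kap
  have hrN : (r : ℝ) * q ≤ κ := by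
    refine le_trans ?_ (le_mul_of_one_le_left (zero_le_one.trans h.2.1) hK)
    refine le_trans ?_ h.qs_mul_nst_le
    rw [mul_comm]
    exact mul_le_mul_of_nonneg_left (by exact_mod_cast (by omega : r ≤ Nst n)) hq.le
  have hκsq : κ ≤ κ ^ 2 := le_self_pow₀ hκ1 two_ne_zero
  have hcomp : θ * |drift| + θ ^ 2 * var + θ * (hq0 * (P / D)) ≤ compP K n := by
    have hq0q : hq0 ≤ q := div_le_self hq.le hctx.one_le_D
    have hPD0 : 0 ≤ P / D := (div_pos hP0 hD).le
    have a1 : θ * |drift| + θ * (hq0 * (P / D)) ≤ θ * (P / D) * (q * (801 * κ ^ 2)) := by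
      have e1 := mul_le_mul_of_nonneg_left hdr hθ0
      have e2 : θ * (hq0 * (P / D)) ≤ θ * (P / D) * q := by
        calc θ * (hq0 * (P / D)) ≤ θ * (q * (P / D)) := by gcongr
          _ = _ := by ring
      have e3 : θ * (P / D) * (q * (400 * (κ ^ 2 + r * q) + 1)) ≤
          θ * (P / D) * (q * (801 * κ ^ 2)) := by
        refine mul_le_mul_of_nonneg_left (mul_le_mul_of_nonneg_left ?_ hq.le)
          (mul_nonneg hθ0 hPD0)
        linarith
      rw [show θ * (q * P / D * (400 * (κ ^ 2 + r * q))) =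
        θ * (P / D) * (q * (400 * (κ ^ 2 + r * q))) by ring] at e1
      linarith
    have a2 : θ * (P / D) ≤ 1 / Real.sqrt (Lv n) :=
      hθP.trans (one_div_le_one_div_of_le (Real.sqrt_pos.2 h.lv_pos) (Real.sqrt_le_sqrt hLj))
    have a3 : θ ^ 2 * var ≤ 2500000 * q := by
      refine (mul_le_mul_of_nonneg_left hvr (sq_nonneg θ)).trans ?_
      calc θ ^ 2 * (2500000 * (q * P / D)) = 2500000 * q * (θ ^ 2 * (P / D)) := by ring
        _ ≤ 2500000 * q * 1 := mul_le_mul_of_nonneg_left hθP2 (by positivity)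
        _ = _ := mul_one _
    have a4 := mul_le_mul_of_nonneg_right a2 (by positivity : (0 : ℝ) ≤ q * (801 * κ ^ 2))
    rw [compP, show qs n * (801 * kap K n ^ 2 / Real.sqrt (Lv n) + 2500000) =
      1 / Real.sqrt (Lv n) * (q * (801 * κ ^ 2)) + 2500000 * q by simp only [q, κ]; ring]
    linarith
  calc (1 - hq0 * (tri G).card) * (A * Real.exp y0) + hq0 * ∑ E ∈ T, A * Real.exp (yE E)
      = A * ((1 - hq0 * (tri G).card) * Real.exp y0 + hq0 * ∑ E ∈ T, Real.exp (yE E)) := by
        rw [← mul_sum]; ring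
    _ ≤ A * Real.exp (compP K n) := by
        refine mul_le_mul_of_nonneg_left (hsum.trans ?_) (Real.exp_pos _).le
        linarith [Real.add_one_le_exp (compP K n)]
    _ = termP K n σ k (k + r + 1) g G := by
        rw [termP, if_pos hg, hA, ← Real.exp_add]
        congr 1
        have h7 : ((Nst n - k : ℕ) : ℝ) = ((Nst n - (k + 1) : ℕ) : ℝ) + 1 := by
          have : Nst n - k = Nst n - (k + 1) + 1 := by omega
          exact_mod_cast this
        simp only [R, Ψ, θ, κ]
        rw [h7]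
        ring

end Vale.Agent.P046.Full.One
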