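import Vale.Agent.P046.Full.One.Chain
import Vale.Agent.P046.Full.One.Facts

/-!
P046, phase one: the probability that a given set of edges survives.
-/

namespace Vale.Agent.P046.Full.One

open Finset
open Vale.Agent.P046

variable {n : ℕ} {K : ℝ}

/-- Two pairs lie in at most one triangle. -/
lemma card_tri_of_two_sides (G : Gr n) {g g' : Finset (Fin n)} (hne : g ≠ g') :
    ((tri G).filter (fun E => g ∈ sides E ∧ g' ∈ sides E)).card ≤ 1 := by
  refine card_le_one.2 fun E hE E' hE' => ?_
  obtain ⟨hEt, hg, hg'⟩ := mem_filter.1 hE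
  obtain ⟨hEt', hg2, hg2'⟩ := mem_filter.1 hE'
  by_contra h
  exact hne (shared_unique (mem_tri.1 hEt).1 (mem_tri.1 hEt').1 h hg hg2 hg' hg2')

/-- The codegrees of `A` count every triangle meeting it once, up to `|A|^2`. -/
lemma sum_deg_le_touch (G A : Gr n) :
    ∑ g ∈ A, deg G g ≤
      ((tri G).filter (fun E => ¬Disjoint (sides E) A)).card + A.card * A.card := by
  have h1 : ∑ g ∈ A, deg G g = ∑ E ∈ tri G, (sides E ∩ A).card := by
    simp only [deg, card_filter]
    rw [sum_comm]
    refine sum_congr rfl fun E _ => ?_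
    rw [← card_filter]
    congr 1
    ext g
    simp only [mem_filter, mem_inter]
    tauto
  have h2 : ∀ E : Finset (Fin n), (sides E ∩ A).card ≤
      (if ¬Disjoint (sides E) A then 1 else 0) + (sides E ∩ A).offDiag.card := by
    intro E
    rw [offDiag_card]
    by_cases hd : Disjoint (sides E) A
    · simp [disjoint_iff_inter_eq_empty.1 hd]
    · rw [if_pos hd]
      set k := (sides E ∩ A).card
      rcases Nat.lt_or_ge k 2 with hk | hk
      · omega
      · have : k + k ≤ k * k := by nlinarith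
        omega
  have h3 : ∑ E ∈ tri G, (sides E ∩ A).offDiag.card ≤ A.offDiag.card := by
    rw [← card_biUnion]
    · refine card_le_card fun q hq => ?_
      obtain ⟨E, -, hq⟩ := mem_biUnion.1 hq
      obtain ⟨hq1, hq2, hq3⟩ := mem_offDiag.1 hq
      exact mem_offDiag.2 ⟨(mem_inter.1 hq1).2, (mem_inter.1 hq2).2, hq3⟩
    · intro E hE E' hE' hne
      simp only [Function.onFun, disjoint_left]
      intro q hq hq'
      obtain ⟨a1, a2, a3⟩ := mem_offDiag.1 hq
      obtain ⟨b1, b2, -⟩ := mem_offDiag.1 hq'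
      exact a3 (shared_unique (mem_tri.1 hE).1 (mem_tri.1 hE').1 hne (mem_inter.1 a1).1
        (mem_inter.1 b1).1 (mem_inter.1 a2).1 (mem_inter.1 b2).1)
  rw [h1, card_filter]
  refine (sum_le_sum fun E _ => h2 E).trans ?_
  rw [sum_add_distrib]
  refine add_le_add le_rfl (h3.trans ?_)
  rw [offDiag_card]
  exact Nat.sub_le _ _

/-- One step of the survival of `A`. -/
lemma step1_subset_le (h : Ok n) (hK : 0 ≤ K) {k : ℕ} (hk' : k ≤ Nst n) {G : Gr n}
    (hG : Good K n k G) (A : Gr n) :
    step1 (hk n k) (fun H => if A ⊆ H then (1 : ℝ) else 0) G ≤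
      (1 - qs n * A.card * (1 - (dlt K n + (A.card : ℝ) / Lv n))) *
        (if A ⊆ G then 1 else 0) := by
  by_cases hA : A ⊆ G
  swap
  · rw [if_neg hA, mul_zero, step1, if_neg hA]
    refine le_of_eq ?_
    rw [sum_eq_zero fun E hE => ?_]
    · simp
    · rw [if_neg fun h' => hA (h'.trans (rem_subset G E))]
      simp
  rw [if_pos hA, mul_one, step1, if_pos hA]
  have e : ∑ E ∈ tri G, ((if A ⊆ rem G E then (1 : ℝ) else 0) - 1) =
      -(((tri G).filter (fun E => ¬Disjoint (sides E) A)).card : ℝ) := by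
    rw [card_filter, Nat.cast_sum, ← sum_neg_distrib]
    refine sum_congr rfl fun E _ => ?_
    have : A ⊆ rem G E ↔ Disjoint (sides E) A := by
      rw [rem, subset_sdiff, disjoint_comm]
      exact and_iff_right hA
    by_cases hd : Disjoint (sides E) A
    · rw [if_pos (this.2 hd), if_neg (not_not.2 hd)]; simp
    · rw [if_neg fun h' => hd (this.1 h'), if_pos hd]; simp
  rw [e, mul_neg, ← sub_eq_add_neg, sub_le_sub_iff_left]
  have hD := h.dk_pos k
  have hL := h.lv_pos
  have hq := h.qs_pos
  have hlow : (A.card : ℝ) * ((1 - dlt K n) * Dk n k) ≤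
      (((tri G).filter (fun E => ¬Disjoint (sides E) A)).card : ℝ) + (A.card : ℝ) * A.card := by
    have h1 : ∑ g ∈ A, ((1 - dlt K n) * Dk n k) ≤ ∑ g ∈ A, (deg G g : ℝ) :=
      sum_le_sum fun g hg => (good_deg h hK hk' hG (hA hg)).1
    rw [sum_const, nsmul_eq_mul] at h1
    exact h1.trans (by exact_mod_cast sum_deg_le_touch G A)
  have hsq : (A.card : ℝ) * A.card ≤ (A.card : ℝ) * A.card / Lv n * Dk n k := by
    rw [div_mul_eq_mul_div, le_div_iff₀ hL]
    exact mul_le_mul_of_nonneg_left (h.lv_le_dk hk') (by positivity)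
  rw [hk, div_mul_eq_mul_div, le_div_iff₀ hD]
  have key : (A.card : ℝ) * (1 - (dlt K n + (A.card : ℝ) / Lv n)) * Dk n k ≤
      (((tri G).filter (fun E => ¬Disjoint (sides E) A)).card : ℝ) := by
    have e2 : (A.card : ℝ) * (1 - (dlt K n + (A.card : ℝ) / Lv n)) * Dk n k =
        (A.card : ℝ) * ((1 - dlt K n) * Dk n k) - (A.card : ℝ) * A.card / Lv n * Dk n k := by ring
    linarith
  nlinarith [mul_le_mul_of_nonneg_left key hq.le]

/-- The killed law rarely contains a given small set of edges. -/
theorem sum_muK_subset_le (h : Ok n) (hK : 0 ≤ K) (A : Gr n) :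
    ∀ k, k ≤ Nst n → (∑ G, muK K n k G * if A ⊆ G then 1 else 0) ≤
      Real.sqrt (Dk n k / n) ^ A.card *
        Real.exp (qs n * A.card * (dlt K n + (A.card : ℝ) / Lv n)) ^ k := by
  classical
  intro k
  induction k with
  | zero =>
    intro _
    rw [sum_muK_zero, pow_zero, mul_one, Dk, pow_zero, div_one, div_self h.n_pos.ne', Real.sqrt_one,
      one_pow]
    split_ifs <;> norm_num
  | succ k ih =>
    intro hk'
    set a := (A.card : ℝ) with ha
    set γ := dlt K n + a / Lv n with hγ
    have hq := h.qs_pos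
    have hfac : 1 - qs n * a * (1 - γ) ≤
        (Real.sqrt (1 + 2 * qs n))⁻¹ ^ A.card * Real.exp (qs n * a * γ) := by
      have h1 : 1 - qs n * a * (1 - γ) ≤ Real.exp (-(qs n * a)) * Real.exp (qs n * a * γ) := by
        rw [← Real.exp_add]
        refine le_trans (le_of_eq ?_) (Real.add_one_le_exp _)
        ring
      refine h1.trans (mul_le_mul_of_nonneg_right ?_ (Real.exp_pos _).le)
      have h2 : Real.sqrt (1 + 2 * qs n) ≤ Real.exp (qs n) := by
        rw [Real.sqrt_le_left (Real.exp_pos _).le, ← Real.exp_nat_mul]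
        push_cast
        linarith [Real.add_one_le_exp (2 * qs n)]
      have h0 : 0 < Real.sqrt (1 + 2 * qs n) := Real.sqrt_pos.2 h.base_pos
      rw [show -(qs n * a) = (A.card : ℝ) * -qs n by rw [ha]; ring, Real.exp_nat_mul, Real.exp_neg]
      exact pow_le_pow_left₀ (inv_nonneg.2 (Real.exp_pos _).le)
        (inv_anti₀ h0 h2) _
    have hnext : Real.sqrt (Dk n (k + 1) / n) ^ A.card =
        Real.sqrt (Dk n k / n) ^ A.card * (Real.sqrt (1 + 2 * qs n))⁻¹ ^ A.card := by
      rw [← mul_pow, Ok.dk_succ, div_right_comm,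
        Real.sqrt_div (div_nonneg (h.dk_pos k).le h.n_pos.le), div_eq_mul_inv]
    rw [sum_muK_succ (K := K) k]
    set B := Real.sqrt (Dk n k / n) ^ A.card * Real.exp (qs n * a * γ) ^ k
    calc ∑ G, muK K n k G * (if Good K n k G then
          step1 (hk n k) (fun H => if A ⊆ H then (1 : ℝ) else 0) G else 0)
        ≤ ∑ G, muK K n k G * ((Real.sqrt (1 + 2 * qs n))⁻¹ ^ A.card * Real.exp (qs n * a * γ) *
            (if A ⊆ G then 1 else 0)) := by
          refine sum_le_sum fun G _ =>
            mul_le_mul_of_nonneg_left ?_ (muK_nonneg h k (by omega) G)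
          split_ifs with hG hA
          · have := step1_subset_le h hK (by omega : k ≤ Nst n) hG A
            rw [if_pos hA, mul_one] at this
            rw [mul_one]
            exact this.trans hfac
          · have := step1_subset_le h hK (by omega : k ≤ Nst n) hG A
            rw [if_neg hA, mul_zero] at this
            rw [mul_zero]
            exact this
          · positivity
          · positivity
      _ = ((Real.sqrt (1 + 2 * qs n))⁻¹ ^ A.card * Real.exp (qs n * a * γ)) *
            ∑ G, muK K n k G * (if A ⊆ G then 1 else 0) := by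
          rw [mul_sum]; exact sum_congr rfl fun G _ => by ring
      _ ≤ ((Real.sqrt (1 + 2 * qs n))⁻¹ ^ A.card * Real.exp (qs n * a * γ)) * B :=
          mul_le_mul_of_nonneg_left (ih (by omega)) (by positivity)
      _ = _ := by rw [hnext, pow_succ]; ring

/-- The bound at the end of the phase, for sets of at most `M` edges. -/
theorem sum_mu1_subset_le (h : Ok n) (hK : 0 ≤ K) {M : ℝ} {A : Gr n} (hA : (A.card : ℝ) ≤ M)
    {e : ℝ} (he : M * (dlt K n + M / Lv n) ≤ e) :
    (∑ G, mu1 K n G * if A ⊆ G then 1 else 0) ≤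
      (n : ℝ) ^ e * Real.sqrt (Lv n / n) ^ A.card := by
  refine (sum_le_sum fun G _ => mul_le_mul_of_nonneg_right (mu1_le_muK h G)
    (by split_ifs <;> norm_num)).trans ((sum_muK_subset_le h hK A _ le_rfl).trans ?_)
  rw [h.dk_nst, mul_comm]
  refine mul_le_mul_of_nonneg_right ?_ (by positivity)
  rw [← Real.exp_nat_mul, Real.rpow_def_of_pos h.n_pos, Real.exp_le_exp]
  have hd : 0 ≤ dlt K n :=
    div_nonneg (mul_nonneg hK (zero_le_one.trans h.2.1)) (Real.sqrt_nonneg _)
  have hL := h.lv_pos
  have h1 : (A.card : ℝ) * (dlt K n + (A.card : ℝ) / Lv n) ≤ e := by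
    refine le_trans ?_ he
    have h2 : (A.card : ℝ) / Lv n ≤ M / Lv n := div_le_div_of_nonneg_right hA hL.le
    exact mul_le_mul hA (add_le_add le_rfl h2) (by positivity) ((Nat.cast_nonneg _).trans hA)
  have h0 : 0 ≤ (A.card : ℝ) * (dlt K n + (A.card : ℝ) / Lv n) := by positivity
  have h3 := h.qs_mul_nst_le
  calc (Nst n : ℝ) * (qs n * A.card * (dlt K n + (A.card : ℝ) / Lv n))
      = qs n * Nst n * ((A.card : ℝ) * (dlt K n + (A.card : ℝ) / Lv n)) := by ring
    _ ≤ lg n * e := mul_le_mul h3 h1 h0 (zero_le_one.trans h.2.1)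
    _ = Real.log n * e := rfl

end Vale.Agent.P046.Full.One
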