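import Vale.Agent.P046.Full.Semi

/-!
P046, the first phase: the lazy chain on a geometric grid, the predictor and the good states.

In step `k` every present triangle is removed with probability `hk n k`, so that the predicted
codegree `Dk n k` decays by exactly the factor `1 + 2 * qs n` per step and reaches `Lv n` after
`Nst n` steps.
-/

namespace Vale.Agent.P046.Full.One

open Finset
open Vale.Agent.P046

/-! ### The grid -/

/-- The number of steps of the grid. -/
def Nst (n : ℕ) : ℕ := n ^ 60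

/-- The step in `log D`, halved. -/
noncomputable def qs (n : ℕ) : ℝ := (((n : ℝ) / Lv n) ^ ((Nst n : ℝ))⁻¹ - 1) / 2

/-- The predicted codegree after `k` steps. -/
noncomputable def Dk (n k : ℕ) : ℝ := (n : ℝ) / (1 + 2 * qs n) ^ k

/-- The removal probability of each triangle in step `k`. -/
noncomputable def hk (n k : ℕ) : ℝ := qs n / Dk n k

/-- One lazy step with removal probability `h`. -/
noncomputable def step1 {n : ℕ} (h : ℝ) (f : Gr n → ℝ) (G : Gr n) : ℝ :=
  f G + h * ∑ E ∈ tri G, (f (rem G E) - f G)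

/-- `n` is large enough for the grid. -/
def Ok (n : ℕ) : Prop := 3 ≤ n ∧ 1 ≤ lg n ∧ lg n ≤ (n : ℝ) ∧ 1 ≤ Lv n ∧ Lv n < (n : ℝ)

lemma eventually_ok : ∀ᶠ n : ℕ in Filter.atTop, Ok n := by
  have hl : Filter.Tendsto (fun n : ℕ => lg n) Filter.atTop Filter.atTop :=
    Real.tendsto_log_atTop.comp tendsto_natCast_atTop_atTop
  have h5 : ∀ᶠ x : ℝ in Filter.atTop, Real.log x ^ (21 / 5 : ℝ) < x := by
    have := (isLittleO_log_rpow_rpow_atTop (21 / 5 : ℝ) one_pos).bound
      (show (0 : ℝ) < 1 / 2 by norm_num)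
    filter_upwards [this, Filter.eventually_gt_atTop (1 : ℝ)] with x hx hx1
    rw [Real.norm_eq_abs, Real.norm_eq_abs, Real.rpow_one, abs_of_pos (by linarith : 0 < x)] at hx
    have := (le_abs_self _).trans hx
    linarith
  filter_upwards [Filter.eventually_ge_atTop 3, hl.eventually_ge_atTop 1,
    tendsto_natCast_atTop_atTop.eventually h5] with n h3 h1 h2
  have hn : (0 : ℝ) < n := by exact_mod_cast (by omega : 0 < n)
  refine ⟨h3, h1, ?_, ?_, h2⟩
  · exact (Real.log_le_sub_one_of_pos hn).trans (by linarith)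
  · exact Real.one_le_rpow h1 (by norm_num)

namespace Ok

variable {n : ℕ} (h : Ok n)

include h

lemma n_pos : (0 : ℝ) < n := by
  have := h.1
  exact_mod_cast (by omega : 0 < n)

lemma lv_pos : 0 < Lv n := zero_lt_one.trans_le h.2.2.2.1

lemma nst_pos : 0 < Nst n := by
  have := h.1
  exact pow_pos (by omega) 60

lemma qs_pos : 0 < qs n := by
  have h1 : 1 < ((n : ℝ) / Lv n) ^ ((Nst n : ℝ))⁻¹ :=
    Real.one_lt_rpow ((one_lt_div h.lv_pos).2 h.2.2.2.2)
      (inv_pos.2 (by exact_mod_cast h.nst_pos))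
  unfold qs
  linarith

lemma base_pos : 0 < 1 + 2 * qs n := by linarith [h.qs_pos]

lemma base_pow : (1 + 2 * qs n) ^ Nst n = (n : ℝ) / Lv n := by
  have hd : 0 ≤ (n : ℝ) / Lv n := (div_pos h.n_pos h.lv_pos).le
  have e : 1 + 2 * qs n = ((n : ℝ) / Lv n) ^ ((Nst n : ℝ))⁻¹ := by unfold qs; ring
  rw [e, Real.rpow_inv_natCast_pow hd h.nst_pos.ne']

lemma qs_mul_nst_le : qs n * Nst n ≤ lg n := by
  have hN : (0 : ℝ) < Nst n := by exact_mod_cast h.nst_pos
  have hn := h.n_pos
  have hlogle : Real.log ((n : ℝ) / Lv n) ≤ lg n :=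
    Real.log_le_log (div_pos hn h.lv_pos) (div_le_self hn.le h.2.2.2.1)
  have hlog : 0 ≤ Real.log ((n : ℝ) / Lv n) :=
    Real.log_nonneg ((one_le_div h.lv_pos).2 h.2.2.2.2.le)
  set y := Real.log ((n : ℝ) / Lv n) / Nst n with hy
  have hy0 : 0 ≤ y := div_nonneg hlog hN.le
  have hy1 : y ≤ 1 / 2 := by
    rw [hy, div_le_iff₀ hN]
    have h2 : (n : ℝ) * n ≤ (Nst n : ℝ) := by
      rw [Nst, Nat.cast_pow, ← sq]
      exact pow_le_pow_right₀ (by exact_mod_cast (by have := h.1; omega : 1 ≤ n)) (by norm_num)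
    have h3 : (3 : ℝ) ≤ n := by exact_mod_cast h.1
    have := h.2.2.1
    nlinarith
  have e : 1 + 2 * qs n = Real.exp y := by
    unfold qs
    rw [Real.rpow_def_of_pos (div_pos hn h.lv_pos), hy, div_eq_mul_inv _ (Nst n : ℝ)]
    ring
  have h4 : Real.exp y ≤ 1 + 2 * y := by
    have h5 := Real.exp_bound_div_one_sub_of_interval hy0 (by linarith : y < 1)
    refine h5.trans ?_
    rw [div_le_iff₀ (by linarith)]
    nlinarith
  have h6 : qs n ≤ y := by linarith
  calc qs n * Nst n ≤ y * Nst n := mul_le_mul_of_nonneg_right h6 hN.le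
    _ = Real.log ((n : ℝ) / Lv n) := by rw [hy, div_mul_cancel₀ _ hN.ne']
    _ ≤ lg n := hlogle

lemma qs_le : qs n ≤ lg n / Nst n := by
  rw [le_div_iff₀ (by exact_mod_cast h.nst_pos)]
  exact h.qs_mul_nst_le

lemma dk_pos (k : ℕ) : 0 < Dk n k := div_pos h.n_pos (pow_pos h.base_pos k)

omit h in
lemma dk_succ (k : ℕ) : Dk n (k + 1) = Dk n k / (1 + 2 * qs n) := by
  unfold Dk
  rw [pow_succ, div_div]

lemma dk_nst : Dk n (Nst n) = Lv n := by
  unfold Dk
  rw [h.base_pow, div_div_cancel₀ h.n_pos.ne']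

lemma dk_anti {k j : ℕ} (hkj : k ≤ j) : Dk n j ≤ Dk n k := by
  unfold Dk
  exact div_le_div_of_nonneg_left h.n_pos.le (pow_pos h.base_pos k)
    (pow_le_pow_right₀ (by linarith [h.qs_pos]) hkj)

lemma lv_le_dk {k : ℕ} (hk : k ≤ Nst n) : Lv n ≤ Dk n k := h.dk_nst ▸ h.dk_anti hk

lemma dk_le_n (k : ℕ) : Dk n k ≤ (n : ℝ) := by
  have := h.dk_anti (Nat.zero_le k)
  simpa [Dk] using this

lemma dk_eq_mul {k j : ℕ} (hkj : k ≤ j) : Dk n k = Dk n j * (1 + 2 * qs n) ^ (j - k) := by
  have h2 : (1 + 2 * qs n) ^ j = (1 + 2 * qs n) ^ k * (1 + 2 * qs n) ^ (j - k) := by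
    rw [← pow_add, Nat.add_sub_cancel' hkj]
  have := pow_pos h.base_pos k
  have := pow_pos h.base_pos (j - k)
  unfold Dk
  rw [h2]
  field_simp

lemma hk_pos (k : ℕ) : 0 < hk n k := div_pos h.qs_pos (h.dk_pos k)

lemma hk_eq (k : ℕ) : hk n k = (1 / Dk n (k + 1) - 1 / Dk n k) / 2 := by
  have := h.dk_pos k
  have := h.base_pos
  rw [dk_succ, hk]
  field_simp
  ring

lemma sum_hk : ∑ k ∈ range (Nst n), hk n k = rL n := by
  have h1 : ∀ k ∈ range (Nst n), hk n k = (1 / Dk n (k + 1) - 1 / Dk n k) / 2 :=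
    fun k _ => h.hk_eq k
  rw [sum_congr rfl h1, ← Finset.sum_div, sum_range_sub (fun k => 1 / Dk n k), h.dk_nst, rL,
    timeOf]
  simp [Dk]

end Ok

/-! ### Vectors on pairs and the predictor -/

/-- A real function on vertex sets, used on edges. -/
abbrev Vec (n : ℕ) := Finset (Fin n) → ℝ

/-- The adjacency operator of the graph on present edges: two edges are adjacent when a present
triangle contains both. -/
noncomputable def bop {n : ℕ} (G : Gr n) (v : Vec n) : Vec n := fun g =>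
  ∑ E ∈ (tri G).filter (fun E => g ∈ sides E), ∑ f ∈ (sides E).erase g, v f

/-- The one step predictor `1 - c B`. -/
noncomputable def mop {n : ℕ} (c : ℝ) (G : Gr n) (v : Vec n) : Vec n := fun g =>
  v g - c * bop G v g

/-- The relative codegree errors, extended by zero. -/
noncomputable def xv {n : ℕ} (D : ℝ) (G : Gr n) : Vec n := fun g =>
  if g ∈ G then xg D G g else 0

/-- The prediction at step `k` of the relative error of `g` at step `j`. -/
noncomputable def psiP (n k j : ℕ) (G : Gr n) (g : Finset (Fin n)) : ℝ :=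
  ((mop (qs n / Dk n k) G)^[j - k] (xv (Dk n k) G)) g

/-- The degree of a vertex. -/
def vdeg {n : ℕ} (G : Gr n) (a : Fin n) : ℕ := (G.filter (fun e => a ∈ e)).card

/-- The common neighbours of three vertices. -/
def c3 {n : ℕ} (G : Gr n) (a b c : Fin n) : ℕ :=
  (univ.filter (fun w : Fin n => {a, w} ∈ G ∧ {b, w} ∈ G ∧ {c, w} ∈ G)).card

/-! ### Good states and the killed chain -/

/-- The tolerance factor of the predictor. -/
noncomputable def kap (K : ℝ) (n : ℕ) : ℝ := K * lg n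

/-- The relative slack of the subgraph counts. -/
noncomputable def eta (n : ℕ) : ℝ := lg n ^ (-(1 / 20) : ℝ)

/-- The predicted number of common neighbours of three vertices, floored. -/
noncomputable def m3 (n k : ℕ) : ℝ :=
  max (Dk n k * Real.sqrt (Dk n k) / Real.sqrt n) (lg n * Real.sqrt (lg n))

/-- The states controlled in step `k`. -/
def Good (K : ℝ) (n k : ℕ) (G : Gr n) : Prop :=
  G ⊆ complete n ∧
  (∀ g ∈ G, ∀ j, k ≤ j → j ≤ Nst n → |psiP n k j G g| ≤ kap K n / Real.sqrt (Dk n j)) ∧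
  (∀ a, (vdeg G a : ℝ) ≤ (1 + eta n) * Real.sqrt ((n : ℝ) * Dk n k)) ∧
  (∀ a b c : Fin n, a ≠ b → a ≠ c → b ≠ c → (c3 G a b c : ℝ) ≤ (1 + eta n) * m3 n k)

open Classical in
/-- The law after `k` steps of the chain killed outside the good states. -/
noncomputable def muK (K : ℝ) (n : ℕ) : ℕ → Gr n → ℝ
  | 0 => fun G => if G = complete n then 1 else 0
  | k + 1 => fun H => ∑ G, muK K n k G *
      (if Good K n k G then step1 (hk n k) (fun J => if J = H then 1 else 0) G else 0)

open Classical in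
/-- The law at the end of the first phase. -/
noncomputable def mu1 (K : ℝ) (n : ℕ) (G : Gr n) : ℝ :=
  if Good K n (Nst n) G then muK K n (Nst n) G else 0

/-- The killing costs little. -/
def ExitStmt : Prop := ∃ K : ℝ, 1 ≤ K ∧ ∀ᶠ n : ℕ in Filter.atTop,
  1 - 1 / (n : ℝ) ^ 9 ≤ ∑ G, mu1 K n G

end Vale.Agent.P046.Full.One
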