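import Vale.Agent.P046.Full.One.PotStep
import Vale.Agent.P046.Full.One.Chain

/-!
P046, the first phase: the potentials after one step of the lazy chain, at the next predicted
codegree.
-/

namespace Vale.Agent.P046.Full.One

open Finset
open Vale.Agent.P046

variable {n : ℕ} {G : Gr n} {D q δ : ℝ}

lemma deg_mono {H : Gr n} (h : H ⊆ G) (g : Finset (Fin n)) : deg H g ≤ deg G g := by
  refine card_le_card (filter_subset_filter _ fun E hE => ?_)
  obtain ⟨h3, hs⟩ := mem_tri.1 hE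
  exact mem_tri.2 ⟨h3, hs.trans h⟩

lemma card_le_sq_n (hG : G ⊆ complete n) : (G.card : ℝ) ≤ (n : ℝ) ^ 2 := by
  have h := card_le_card hG
  rw [complete, card_powersetCard, card_univ, Fintype.card_fin] at h
  exact_mod_cast h.trans (Nat.choose_le_pow n 2)

lemma xg_div (g : Finset (Fin n)) :
    xg (D / (1 + 2 * q)) G g = xg D G g + 2 * q * (1 + xg D G g) := by
  simp only [xg, div_div_eq_mul_div]
  ring

lemma om_div (hD : 0 < D) (g : Finset (Fin n)) :
    om (D / (1 + 2 * q)) G g =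
      (1 + 2 * q) ^ 2 * om D G g + 4 * q * (1 + 2 * q) * (1 + xg D G g) := by
  have h1 : ((nbrs G g).card : ℝ) = 2 * deg G g := by
    have := bop_eq_nbrs (G := G) (fun _ => (1 : ℝ)) g
    rw [bop_const, sum_const, nsmul_eq_mul, mul_one] at this
    linarith
  have h2 : ∀ f, xg (D / (1 + 2 * q)) G f = (1 + 2 * q) * xg D G f + 2 * q := fun f => by
    rw [xg_div]; ring
  simp only [om, h2, sum_add_distrib, ← mul_sum, sum_const, nsmul_eq_mul, h1, deg_eq_xg hD g,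
    div_div_eq_mul_div]
  field_simp
  ring

/-- A potential at the next predicted codegree, to first order. -/
lemma step_next_le (hD : 1 ≤ D) (hq : 0 ≤ q) (hq1 : q ≤ 1) (hn : 1 ≤ n) {f f' L : Gr n → ℝ}
    {A : ℝ} (hpt : ∀ H, H ⊆ G → |f' H - f H - q * L H| ≤ A * q ^ 2 ∧ |L H| ≤ A) :
    step1 (q / D) f' G ≤ f G + q * (L G + lgen f G / D) + 5 * A * q ^ 2 * (n : ℝ) ^ 3 := by
  have hA : 0 ≤ A := (abs_nonneg _).trans (hpt G subset_rfl).2
  have hqq : q ^ 2 ≤ q := by nlinarith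
  have hb : ∀ H, H ⊆ G → |f' H - f H| ≤ 2 * A * q := fun H hH => by
    obtain ⟨h1, h2⟩ := hpt H hH
    have e1 := abs_le.1 h1
    have e2 := abs_le.1 h2
    exact abs_le.2 ⟨by nlinarith, by nlinarith⟩
  have hl : lgen f' G - lgen f G ≤ 4 * A * q * (n : ℝ) ^ 3 := by
    rw [lgen, lgen, ← sum_sub_distrib]
    refine (sum_le_card_nsmul _ _ (4 * A * q) fun E _ => ?_).trans ?_
    · linarith [(abs_le.1 (hb _ (rem_subset G E))).2, (abs_le.1 (hb G subset_rfl)).1]
    · rw [nsmul_eq_mul, mul_comm]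
      exact mul_le_mul_of_nonneg_left (card_tri_le G) (by positivity)
  have hqD : q / D ≤ q := div_le_self hq hD
  have h0 : 0 ≤ 4 * A * q * (n : ℝ) ^ 3 := by positivity
  have h3 : q / D * (lgen f' G - lgen f G) ≤ q * (4 * A * q * (n : ℝ) ^ 3) :=
    (mul_le_mul_of_nonneg_left hl (div_nonneg hq (by linarith))).trans
      (mul_le_mul_of_nonneg_right hqD h0)
  have h4 : A * q ^ 2 ≤ A * q ^ 2 * (n : ℝ) ^ 3 :=
    le_mul_of_one_le_right (by positivity) (one_le_pow₀ (by exact_mod_cast hn))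
  have h5 := (abs_le.1 (hpt G subset_rfl).1).2
  have e : step1 (q / D) f' G = f' G + q / D * lgen f' G := rfl
  have e2 : q * (L G + lgen f G / D) = q * L G + q / D * lgen f G := by ring
  rw [e, e2]
  linarith

/-- A potential that is a sum over the edges. -/
lemma step_sum_le (hD : 1 ≤ D) (hq : 0 ≤ q) (hq1 : q ≤ 1) (hn : 1 ≤ n) (hG : G ⊆ complete n)
    {φ φ' l : Gr n → Finset (Fin n) → ℝ} {c : ℝ} (hc : 0 ≤ c)
    (hpt : ∀ H, H ⊆ G → ∀ g ∈ H, |φ' H g - φ H g - q * l H g| ≤ c * q ^ 2 ∧ |l H g| ≤ c) :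
    step1 (q / D) (fun H => ∑ g ∈ H, φ' H g) G ≤
      ∑ g ∈ G, φ G g + q * (∑ g ∈ G, l G g + lgen (fun H => ∑ g ∈ H, φ H g) G / D) +
        5 * c * q ^ 2 * (n : ℝ) ^ 5 := by
  refine (step_next_le (f := fun H => ∑ g ∈ H, φ H g) (L := fun H => ∑ g ∈ H, l H g)
    (A := c * (n : ℝ) ^ 2) hD hq hq1 hn fun H hH => ?_).trans (le_of_eq (by ring))
  have hcard := card_le_sq_n (hH.trans hG)
  constructor
  · simp only [mul_sum, ← sum_sub_distrib]
    refine (abs_sum_le_sum_abs _ _).trans ((sum_le_card_nsmul _ _ (c * q ^ 2)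
      fun g hg => (hpt H hH g hg).1).trans ?_)
    rw [nsmul_eq_mul]
    calc (H.card : ℝ) * (c * q ^ 2) ≤ (n : ℝ) ^ 2 * (c * q ^ 2) :=
          mul_le_mul_of_nonneg_right hcard (by positivity)
      _ = _ := by ring
  · refine (abs_sum_le_sum_abs _ _).trans ((sum_le_card_nsmul _ _ c
      fun g hg => (hpt H hH g hg).2).trans ?_)
    rw [nsmul_eq_mul, mul_comm]
    exact mul_le_mul_of_nonneg_left hcard hc

namespace Flat

variable (h : Flat G D δ)
include h

lemma sub_bounds {H : Gr n} (hH : H ⊆ G) {g : Finset (Fin n)} (hg : g ∈ H) :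
    |xg D H g| ≤ 1 ∧ 0 ≤ 1 + xg D H g ∧ 1 + xg D H g ≤ 2 ∧ |om D H g| ≤ 4 := by
  have hD := h.pos
  have hd : ∀ f ∈ H, (deg H f : ℝ) ≤ 2 * D := fun f hf => by
    have h1 : (deg H f : ℝ) ≤ deg G f := by exact_mod_cast deg_mono hH f
    linarith [h.deg_le (hH hf)]
  have hx : ∀ f ∈ H, |xg D H f| ≤ 1 := fun f hf => by
    have h1 : (deg H f : ℝ) / D ≤ 2 := (div_le_iff₀ hD).2 (hd f hf)
    have h2 : 0 ≤ (deg H f : ℝ) / D := div_nonneg (Nat.cast_nonneg _) hD.le
    rw [xg]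
    exact abs_le.2 ⟨by linarith, by linarith⟩
  refine ⟨hx g hg, by linarith [(abs_le.1 (hx g hg)).1], by linarith [(abs_le.1 (hx g hg)).2], ?_⟩
  have hv : ∀ f ∈ H, |xv D H f| ≤ 1 := fun f hf => by rw [xv, if_pos hf]; exact hx f hf
  rw [om_eq, abs_div, abs_of_pos hD, div_le_iff₀ hD]
  exact (bop_sup_le zero_le_one hd (by linarith) hv g).trans (by linarith)

/-- One step of the squared error. -/
theorem potV_step (hG : G ⊆ complete n) (hn : 1 ≤ n) (hq : 0 ≤ q) (hq1 : q ≤ 1) :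
    step1 (q / D) (potV (D / (1 + 2 * q))) G ≤ potV D G +
      q * ((-(1 / 2) + δ) * potV D G + 2 * potW D G + 5 / D * G.card) +
        25000 * q ^ 2 * (n : ℝ) ^ 5 := by
  refine (step_sum_le (by linarith [h.hD]) hq hq1 hn hG (φ := fun H g => xg D H g ^ 2)
    (φ' := fun H g => xg (D / (1 + 2 * q)) H g ^ 2)
    (l := fun H g => 4 * (xg D H g * (1 + xg D H g))) (c := 5000) (by norm_num)
    fun H hH g hg => ?_).trans ?_
  · obtain ⟨h1, h2, h3, -⟩ := h.sub_bounds hH hg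
    rw [xg_div]
    generalize xg D H g = x at *
    constructor
    · rw [show (x + 2 * q * (1 + x)) ^ 2 - x ^ 2 - q * (4 * (x * (1 + x))) =
        4 * (1 + x) ^ 2 * q ^ 2 by ring, abs_of_nonneg (by positivity)]
      exact mul_le_mul_of_nonneg_right (by nlinarith) (sq_nonneg q)
    · rw [abs_mul, abs_mul, abs_of_nonneg h2]
      norm_num
      nlinarith [abs_nonneg x]
  · have := h.potV_drift
    rw [mul_sum] at this
    have e := mul_le_mul_of_nonneg_left this hq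
    have e0 : potV (n := n) D = fun H => ∑ g ∈ H, xg D H g ^ 2 := rfl
    simp only [e0] at e ⊢
    linarith

/-- One step of the fourth power of the error. -/
theorem potU_step (hG : G ⊆ complete n) (hn : 1 ≤ n) (hq : 0 ≤ q) (hq1 : q ≤ 1) :
    step1 (q / D) (potU4 (D / (1 + 2 * q))) G ≤ potU4 D G +
      q * ((-(1 / 2) + δ) * potU4 D G + 8 * δ ^ 2 * potW D G + 40 / D * potV D G +
        60 / D ^ 3 * G.card) + 25000 * q ^ 2 * (n : ℝ) ^ 5 := by
  refine (step_sum_le (by linarith [h.hD]) hq hq1 hn hG (φ := fun H g => xg D H g ^ 4)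
    (φ' := fun H g => xg (D / (1 + 2 * q)) H g ^ 4)
    (l := fun H g => 8 * (xg D H g ^ 3 * (1 + xg D H g))) (c := 5000) (by norm_num)
    fun H hH g hg => ?_).trans ?_
  · obtain ⟨h1, h2, h3, -⟩ := h.sub_bounds hH hg
    rw [xg_div]
    generalize xg D H g = x at *
    constructor
    · rw [show (x + 2 * q * (1 + x)) ^ 4 - x ^ 4 - q * (8 * (x ^ 3 * (1 + x))) =
        (24 * x ^ 2 * (1 + x) ^ 2 + 32 * q * (x * (1 + x) ^ 3) + 16 * q ^ 2 * (1 + x) ^ 4) * q ^ 2
        by ring, abs_mul, abs_of_nonneg (sq_nonneg q)]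
      refine mul_le_mul_of_nonneg_right ?_ (sq_nonneg q)
      refine (abs_add_three _ _ _).trans ?_
      simp only [abs_mul, abs_pow, abs_of_nonneg hq, abs_of_nonneg h2, Nat.abs_ofNat]
      have a1 : |x| ^ 2 * (1 + x) ^ 2 ≤ 1 * 2 ^ 2 :=
        mul_le_mul (pow_le_one₀ (abs_nonneg _) h1) (pow_le_pow_left₀ h2 h3 2) (by positivity) zero_le_one
      have a2 : q * (|x| * (1 + x) ^ 3) ≤ 1 * (1 * 2 ^ 3) :=
        mul_le_mul hq1 (mul_le_mul h1 (pow_le_pow_left₀ h2 h3 3) (by positivity) zero_le_one)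
          (by positivity) zero_le_one
      have a3 : q ^ 2 * (1 + x) ^ 4 ≤ 1 * 2 ^ 4 :=
        mul_le_mul (pow_le_one₀ hq hq1) (pow_le_pow_left₀ h2 h3 4) (by positivity) zero_le_one
      linarith
    · rw [abs_mul, abs_mul, abs_pow, abs_of_nonneg h2, Nat.abs_ofNat]
      have : |x| ^ 3 * (1 + x) ≤ 1 * 2 :=
        mul_le_mul (pow_le_one₀ (abs_nonneg _) h1) h3 h2 zero_le_one
      linarith
  · have := h.potU_drift
    rw [mul_sum] at this
    have e := mul_le_mul_of_nonneg_left this hq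
    have e0 : potU4 (n := n) D = fun H => ∑ g ∈ H, xg D H g ^ 4 := rfl
    simp only [e0] at e ⊢
    linarith

/-- One step of the squared neighbour sums. -/
theorem potW_step (hG : G ⊆ complete n) (hn : 1 ≤ n) (hq : 0 ≤ q) (hq1 : q ≤ 1) {β Γ : ℝ}
    (hΓ0 : 0 ≤ Γ) (hΓ : ∀ g e : Finset (Fin n), e ≠ g → (paths2 G g e : ℝ) ≤ Γ)
    (hspec : ∀ v : Vec n, -(β * D * ∑ g ∈ G, v g ^ 2) ≤ ip v (bop G v)) :
    step1 (q / D) (potW (D / (1 + 2 * q))) G ≤ potW D G +
      q * ((2 * β + δ - 3 / 4) * potW D G + 160 * potU4 D G + 40 / D * potV D G +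
        (3200 + 30 * Γ) / D ^ 2 * G.card) + 25000 * q ^ 2 * (n : ℝ) ^ 5 := by
  refine (step_sum_le (by linarith [h.hD]) hq hq1 hn hG (φ := fun H g => om D H g ^ 2)
    (φ' := fun H g => om (D / (1 + 2 * q)) H g ^ 2)
    (l := fun H g => 8 * (om D H g ^ 2 + om D H g * (1 + xg D H g))) (c := 5000) (by norm_num)
    fun H hH g hg => ?_).trans ?_
  · obtain ⟨-, h2, h3, h4⟩ := h.sub_bounds hH hg
    rw [om_div h.pos]
    generalize 1 + xg D H g = y at *
    generalize om D H g = w at *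
    obtain ⟨w0, w1⟩ := abs_le.1 h4
    constructor
    · rw [show ((1 + 2 * q) ^ 2 * w + 4 * q * (1 + 2 * q) * y) ^ 2 - w ^ 2 -
          q * (8 * (w ^ 2 + w * y)) =
        (2 * (w * (4 * w + 8 * y)) + (4 * w + 4 * y + q * (4 * w + 8 * y)) ^ 2) * q ^ 2 by ring,
        abs_mul, abs_of_nonneg (sq_nonneg q)]
      refine mul_le_mul_of_nonneg_right ((abs_add_le _ _).trans ?_) (sq_nonneg q)
      have a0 : |4 * w + 8 * y| ≤ 32 := abs_le.2 ⟨by linarith, by linarith⟩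
      have a1 : |w| * |4 * w + 8 * y| ≤ 4 * 32 := mul_le_mul h4 a0 (abs_nonneg _) (by norm_num)
      have a2 : q * |4 * w + 8 * y| ≤ 1 * 32 := mul_le_mul hq1 a0 (abs_nonneg _) zero_le_one
      have a3 : |4 * w + 4 * y + q * (4 * w + 8 * y)| ≤ 56 := by
        refine (abs_add_le _ _).trans ?_
        rw [abs_mul q, abs_of_nonneg hq]
        linarith [abs_le.2 (⟨by linarith, by linarith⟩ :
          -24 ≤ 4 * w + 4 * y ∧ 4 * w + 4 * y ≤ 24)]
      have a4 := pow_le_pow_left₀ (abs_nonneg _) a3 2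
      rw [abs_mul, abs_mul, abs_pow, Nat.abs_ofNat]
      linarith
    · rw [abs_mul, Nat.abs_ofNat]
      have a1 : |w * y| ≤ 4 * 2 := by
        rw [abs_mul, abs_of_nonneg h2]; exact mul_le_mul h4 h3 h2 (by norm_num)
      have a2 : |w ^ 2| ≤ 4 ^ 2 := by rw [abs_pow]; exact pow_le_pow_left₀ (abs_nonneg _) h4 2
      linarith [abs_add_le (w ^ 2) (w * y)]
  · have := h.potW_drift hΓ0 hΓ hspec
    rw [mul_sum] at this
    have e := mul_le_mul_of_nonneg_left this hq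
    have e0 : potW (n := n) D = fun H => ∑ g ∈ H, om D H g ^ 2 := rfl
    simp only [e0] at e ⊢
    linarith

/-- One step of the squared deviation of the number of edges. -/
theorem card_step (hG : G ⊆ complete n) (hn : 1 ≤ n) (hq : 0 ≤ q) (hq1 : q ≤ 1) {M M' : ℝ}
    (hM : 0 ≤ M) (hMn : M ≤ (n : ℝ) ^ 2) (hM1 : (1 - q) * M ≤ M')
    (hM2 : M' ≤ (1 - q + 2 * q ^ 2) * M) :
    step1 (q / D) (fun H => ((H.card : ℝ) - M') ^ 2) G ≤ ((G.card : ℝ) - M) ^ 2 +
      q * (-(((G.card : ℝ) - M) ^ 2) + G.card * potV D G + 4 * G.card) +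
        25000 * q ^ 2 * (n : ℝ) ^ 7 := by
  refine (step_next_le (by linarith [h.hD]) hq hq1 hn (f := fun H => ((H.card : ℝ) - M) ^ 2)
    (L := fun H => 2 * ((H.card : ℝ) - M) * M) (A := 5000 * (n : ℝ) ^ 4)
    fun H hH => ?_).trans ?_
  · have hc := card_le_sq_n (hH.trans hG)
    have hc0 : (0 : ℝ) ≤ H.card := Nat.cast_nonneg _
    have hZ : |(H.card : ℝ) - M| ≤ (n : ℝ) ^ 2 := abs_le.2 ⟨by linarith, by linarith⟩
    have hn4 : (n : ℝ) ^ 2 * (n : ℝ) ^ 2 = (n : ℝ) ^ 4 := by ring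
    set θ := M' - (1 - q) * M with hθ
    have t0 : 0 ≤ θ := by rw [hθ]; linarith
    have t1 : θ ≤ 2 * q ^ 2 * M := by rw [hθ]; linarith
    have t2 : |q * M - θ| ≤ 2 * q * (n : ℝ) ^ 2 := by
      have : q ^ 2 * M ≤ q * (n : ℝ) ^ 2 := mul_le_mul (by nlinarith) hMn hM hq
      have : q * M ≤ q * (n : ℝ) ^ 2 := mul_le_mul_of_nonneg_left hMn hq
      have : 0 ≤ q * M := mul_nonneg hq hM
      exact abs_le.2 ⟨by linarith, by linarith⟩
    constructor
    · rw [show ((H.card : ℝ) - M') ^ 2 - ((H.card : ℝ) - M) ^ 2 -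
          q * (2 * ((H.card : ℝ) - M) * M) =
          (q * M - θ) ^ 2 + -(2 * θ) * ((H.card : ℝ) - M) by rw [hθ]; ring]
      refine (abs_add_le _ _).trans ?_
      rw [abs_pow, abs_mul, abs_neg, abs_of_nonneg (by linarith : 0 ≤ 2 * θ)]
      have b1 := pow_le_pow_left₀ (abs_nonneg _) t2 2
      have b2 : 2 * θ * |(H.card : ℝ) - M| ≤ 4 * q ^ 2 * (n : ℝ) ^ 2 * (n : ℝ) ^ 2 :=
        mul_le_mul (by nlinarith) hZ (abs_nonneg _) (by positivity)
      have b3 : 0 ≤ q ^ 2 * (n : ℝ) ^ 4 := by positivity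
      rw [mul_pow, mul_pow] at b1
      linarith
    · rw [abs_mul, abs_mul, abs_of_nonneg hM, Nat.abs_ofNat]
      have : |(H.card : ℝ) - M| * M ≤ (n : ℝ) ^ 2 * (n : ℝ) ^ 2 :=
        mul_le_mul hZ hMn hM (by positivity)
      nlinarith [pow_nonneg (Nat.cast_nonneg n : (0 : ℝ) ≤ n) 4]
  · have e := mul_le_mul_of_nonneg_left (h.card_drift M) hq
    linarith

end Flat

end Vale.Agent.P046.Full.One
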