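import Vale.Agent.P046.Full.One.PredBase

/-!
P046, phase one: exact sums over the ringing triangle used by the potentials.
-/

namespace Vale.Agent.P046.Full.One

open Finset
open Vale.Agent.P046

variable {n : ℕ} {G : Gr n} {D : ℝ} {g : Finset (Fin n)}

/-- The triangles avoiding `g`. -/
def away (G : Gr n) (g : Finset (Fin n)) : Finset (Finset (Fin n)) :=
  (tri G).filter (fun E => g ∉ sides E)

/-- The second part of the change of the neighbour sum. -/
noncomputable def secd (G : Gr n) (E g : Finset (Fin n)) : ℝ := bop (rem G E) (lvec G E) g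

lemma bop_eq_nbrs (v : Vec n) (g : Finset (Fin n)) : bop G v g = ∑ f ∈ nbrs G g, v f := by
  rw [bop, ← sum_biUnion]
  · congr 1
    ext f
    simp only [mem_biUnion, mem_filter, mem_erase, nbrs]
    constructor
    · rintro ⟨E, ⟨hE, hgE⟩, hfg, hfE⟩
      exact ⟨(mem_tri.1 hE).2 hfE, hfg, E, hE, hgE, hfE⟩
    · rintro ⟨-, hfg, E, hE, hgE, hfE⟩
      exact ⟨E, ⟨hE, hgE⟩, hfg, hfE⟩
  · intro E hE E' hE' hne
    simp only [Function.onFun, disjoint_left]
    intro f hf hf'
    obtain ⟨hEt, hgE⟩ := mem_filter.1 hE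
    obtain ⟨hEt', hgE'⟩ := mem_filter.1 hE'
    exact (mem_erase.1 hf).1 (shared_unique (mem_tri.1 hEt).1 (mem_tri.1 hEt').1 hne
      (mem_erase.1 hf).2 (mem_erase.1 hf').2 hgE hgE')

lemma om_eq : om D G g = bop G (xv D G) g / D := by
  rw [om, bop_eq_nbrs]
  congr 1
  exact sum_congr rfl fun f hf => by simp [xv, (mem_filter.1 hf).1]

lemma bop_evec (g f : Finset (Fin n)) : bop G (evec g) f = if g ∈ nbrs G f then 1 else 0 := by
  rw [bop_eq_nbrs]; simp [evec]

lemma bop_sum {ι : Type*} (s : Finset ι) (u : ι → Vec n) (g : Finset (Fin n)) :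
    bop G (fun f => ∑ i ∈ s, u i f) g = ∑ i ∈ s, bop G (u i) g := by
  simp only [bop_eq_nbrs]
  exact sum_comm

lemma deg_eq_xg (hD : 0 < D) (f : Finset (Fin n)) : (deg G f : ℝ) = D * (1 + xg D G f) := by
  rw [xg]; field_simp; ring

lemma bop_deg (hD : 0 < D) :
    bop G (fun f => (deg G f : ℝ)) g = D * (2 * deg G g) + D ^ 2 * om D G g := by
  have e : bop G (fun f => (deg G f : ℝ)) g = bop G (fun f => D * (1 : ℝ) + D * xv D G f) g := by
    refine congrFun (bop_congr fun f hf => ?_) g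
    rw [xv, if_pos hf, deg_eq_xg hD]; ring
  rw [e, show (fun f => D * (1 : ℝ) + D * xv D G f) = (fun _ : Finset (Fin n) => D * (1 : ℝ)) +
    D • xv D G from rfl, bop_add, bop_smul, Pi.add_apply, bop_const, Pi.smul_apply, om_eq,
    smul_eq_mul]
  field_simp

/-- The total loss of an edge. -/
lemma sum_lost_away (g : Finset (Fin n)) :
    ∑ E ∈ away G g, (lost G g E : ℝ) = bop G (fun f => (deg G f : ℝ)) g - 2 * deg G g := by
  have h := congrArg (Nat.cast : ℕ → ℝ) (sum_lost (G := G) (g := g))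
  push_cast at h
  have e : ∀ E ∈ (tri G).filter (fun E => g ∈ sides E),
      (sdeg G E : ℝ) = (deg G g : ℝ) + ∑ f ∈ (sides E).erase g, (deg G f : ℝ) := by
    intro E hE
    rw [sdeg, Nat.cast_sum, ← add_sum_erase _ _ (mem_filter.1 hE).2]
  rw [sum_congr rfl e, sum_add_distrib, sum_add_distrib, sum_const, sum_const, nsmul_eq_mul,
    nsmul_eq_mul] at h
  rw [show ((tri G).filter (fun E => g ∈ sides E)).card = deg G g from rfl] at h
  rw [away, bop]
  linarith

lemma sum_lost_away_xg (hD : 0 < D) :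
    ∑ E ∈ away G g, (lost G g E : ℝ) =
      D ^ 2 * (2 * (1 + xg D G g) + om D G g) - 2 * D * (1 + xg D G g) := by
  rw [sum_lost_away, bop_deg hD, deg_eq_xg hD g]
  ring

/-- The triangles killing `F` and avoiding its side `g`. -/
lemma card_meet {F : Finset (Fin n)} (hF : F ∈ tri G) (hgF : g ∈ sides F) :
    (((away G g).filter (fun E => ¬Disjoint (sides F) (sides E))).card : ℝ) =
      ∑ f ∈ (sides F).erase g, (deg G f : ℝ) - 2 := by
  set M := (tri G).filter (fun E => ¬Disjoint (sides F) (sides E)) with hM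
  have h1 : M.card + 2 = sdeg G F := by
    have h2 := card_tri_rem hF
    have h3 := card_filter_add_card_filter_not (s := tri G)
      (fun E => Disjoint (sides E) (sides F))
    rw [tri_rem] at h2
    simp only [hM, disjoint_comm (a := sides F)]
    omega
  have h4 : (M.filter (fun E => g ∉ sides E)).card + deg G g = M.card := by
    have h5 := card_filter_add_card_filter_not (s := M) (fun E => g ∈ sides E)
    have h6 : M.filter (fun E => g ∈ sides E) = (tri G).filter (fun E => g ∈ sides E) := by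
      ext E
      simp only [hM, mem_filter]
      exact ⟨fun h => ⟨h.1.1, h.2⟩, fun h => ⟨⟨h.1, not_disjoint_iff.2 ⟨g, hgF, h.2⟩⟩, h.2⟩⟩
    rw [h6] at h5
    simp only [deg]
    omega
  have h7 : (away G g).filter (fun E => ¬Disjoint (sides F) (sides E)) =
      M.filter (fun E => g ∉ sides E) := by
    ext E; simp only [away, hM, mem_filter]; tauto
  have h8 : (sdeg G F : ℝ) = (deg G g : ℝ) + ∑ f ∈ (sides F).erase g, (deg G f : ℝ) := by
    rw [sdeg, Nat.cast_sum, ← add_sum_erase _ _ hgF]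
  have h9 : (((M.filter (fun E => g ∉ sides E)).card : ℝ) + deg G g) + 2 = (sdeg G F : ℝ) := by
    exact_mod_cast (show (M.filter (fun E => g ∉ sides E)).card + deg G g + 2 = sdeg G F by omega)
  rw [h7]
  linarith

/-- The summed first part of the change. -/
lemma sum_qop_away (v : Vec n) :
    ∑ E ∈ away G g, qop G E v g = ∑ F ∈ (tri G).filter (fun F => g ∈ sides F),
      (∑ f ∈ (sides F).erase g, v f) * (∑ f ∈ (sides F).erase g, (deg G f : ℝ) - 2) := by
  have e : ∀ E ∈ away G g, qop G E v g = ∑ F ∈ (tri G).filter (fun F => g ∈ sides F),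
      if ¬Disjoint (sides F) (sides E) then ∑ f ∈ (sides F).erase g, v f else 0 := by
    intro E hE
    rw [qop, if_neg (mem_filter.1 hE).2, ← sum_filter, filter_filter]
  rw [sum_congr rfl e, sum_comm]
  refine sum_congr rfl fun F hF => ?_
  obtain ⟨hFt, hgF⟩ := mem_filter.1 hF
  rw [← sum_filter, sum_const, nsmul_eq_mul, card_meet hFt hgF]
  ring

/-- The square of the first part. -/
lemma qop_sq_le {E : Finset (Fin n)} (hE : E ∈ tri G) (hg : g ∉ sides E) (v : Vec n) :
    qop G E v g ^ 2 ≤ 4 * qop G E (fun f => v f ^ 2) g := by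
  have hl := lost_le_two hE hg
  rw [qop, qop, if_neg hg, if_neg hg]
  set S := (tri G).filter (fun F => g ∈ sides F ∧ ¬Disjoint (sides F) (sides E)) with hS
  rw [sum_sigma', sum_sigma']
  refine sq_sum_le_card_mul_sum_sq.trans ?_
  refine mul_le_mul_of_nonneg_right ?_ (sum_nonneg fun _ _ => sq_nonneg _)
  have hc : (S.sigma fun F => (sides F).erase g).card ≤ 4 := by
    rw [card_sigma, sum_congr rfl (g := fun _ => 2) fun F hF => by
      obtain ⟨hFt, hgF, -⟩ := mem_filter.1 hF
      rw [card_erase_of_mem hgF, card_sides (mem_tri.1 hFt).1], sum_const, smul_eq_mul]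
    have : S.card = lost G g E := rfl
    omega
  exact_mod_cast hc

lemma lost_eq_sum {E f : Finset (Fin n)} (hf : f ∉ sides E) :
    (lost G f E : ℝ) ≤ ∑ e ∈ sides E, bop G (evec e) f := by
  have h : ∀ e ∈ sides E, bop G (evec e) f =
      ∑ F ∈ (tri G).filter (fun F => f ∈ sides F), (if e ∈ sides F then (1 : ℝ) else 0) := by
    intro e he
    simp only [bop, evec]
    refine sum_congr rfl fun F _ => ?_
    have hne : e ≠ f := fun h => hf (h ▸ he)
    rw [sum_ite_eq']
    simp [hne]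
  rw [sum_congr rfl h, sum_comm, lost, card_filter, sum_filter, Nat.cast_sum]
  refine sum_le_sum fun F _ => ?_
  by_cases hfF : f ∈ sides F
  · rw [if_pos hfF]
    by_cases hd : Disjoint (sides F) (sides E)
    · rw [if_neg (fun h => h.2 hd), Nat.cast_zero]
      exact sum_nonneg fun e _ => by split_ifs <;> norm_num
    · rw [if_pos ⟨hfF, hd⟩]
      obtain ⟨e, he, he'⟩ := not_disjoint_iff.1 hd
      refine le_trans (le_of_eq ?_) (single_le_sum (fun e _ => by split_ifs <;> norm_num) he')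
      rw [if_pos he, Nat.cast_one]
  · rw [if_neg (fun h => hfF h.1), if_neg hfF, Nat.cast_zero]

lemma secd_eq {E : Finset (Fin n)} (hg : g ∉ sides E) :
    secd G E g = bop G (lvec G E) g - qop G E (lvec G E) g := by
  rw [secd, qop_eq E (lvec G E) hg]; ring

lemma secd_bounds {E : Finset (Fin n)} (hE : E ∈ tri G) (hg : g ∉ sides E) :
    0 ≤ secd G E g ∧ secd G E g ≤ bop G (lvec G E) g ∧
      bop G (lvec G E) g - 4 * lost G g E ≤ secd G E g := by
  refine ⟨bop_nonneg (lvec_nonneg E) g, ?_, ?_⟩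
  · exact bop_subgraph_le (rem_subset G E) (lvec_nonneg E) g
  · have h := qop_abs_le (G := G) E (v := lvec G E) (W := 2)
      (fun f _ => by rw [abs_of_nonneg (lvec_nonneg E f)]; exact lvec_le_two hE f) hg
    rw [secd_eq hg]
    linarith [le_abs_self (qop G E (lvec G E) g)]

/-- The neighbour sum of the losses is bounded by the two step paths. -/
lemma bop_lvec_le {Γ : ℝ} (hΓ : ∀ g e : Finset (Fin n), e ≠ g → (paths2 G g e : ℝ) ≤ Γ)
    {E : Finset (Fin n)} (hE : E ∈ tri G) (hg : g ∉ sides E) : bop G (lvec G E) g ≤ 3 * Γ := by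
  refine (bop_mono (v := fun f => ∑ e ∈ sides E, bop G (evec e) f) (fun f => ?_) g).trans ?_
  · unfold lvec
    split_ifs with h
    · exact sum_nonneg fun e _ => bop_evec_nonneg e f
    · exact lost_eq_sum h
  · rw [bop_sum]
    refine (sum_le_card_nsmul _ _ Γ fun e he => ?_).trans ?_
    · refine le_trans (le_of_eq ?_) (hΓ g e (fun h => hg (h ▸ he)))
      rw [bop_eq_nbrs, paths2]
      simp only [bop_evec, sum_boole]
    · rw [card_sides (mem_tri.1 hE).1, nsmul_eq_mul]
      norm_num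

/-- The summed second part of the change. -/
lemma sum_secd_away {d : ℝ} (hd : ∀ f ∈ G, (deg G f : ℝ) ≤ d) :
    (∑ E ∈ away G g, secd G E g ≤ bop G (fun f => ∑ E ∈ away G f, (lost G f E : ℝ)) g) ∧
    bop G (fun f => ∑ E ∈ away G f, (lost G f E : ℝ)) g - 4 * d * deg G g -
        4 * (∑ E ∈ away G g, (lost G g E : ℝ)) ≤ ∑ E ∈ away G g, secd G E g := by
  have hnn : ∀ E : Finset (Fin n), ∀ f, 0 ≤ lvec G E f := lvec_nonneg
  have hS : ∀ f, ∑ E ∈ away G f, (lost G f E : ℝ) = ∑ E ∈ tri G, lvec G E f := fun f => by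
    simp only [away, lvec, sum_filter, ite_not]
  have hsplit : ∀ f, ∑ E ∈ tri G, lvec G E f = ∑ E ∈ away G g, lvec G E f +
      ∑ E ∈ (tri G).filter (fun E => g ∈ sides E), lvec G E f := fun f => by
    rw [away, add_comm, sum_filter_add_sum_filter_not]
  constructor
  · refine (sum_le_sum fun E hE => (secd_bounds (mem_filter.1 hE).1 (mem_filter.1 hE).2).2.1).trans ?_
    rw [← bop_sum]
    refine bop_mono (fun f => ?_) g
    rw [hS, hsplit f]
    exact le_add_of_nonneg_right (sum_nonneg fun E _ => hnn E f)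
  · have h1 : bop G (fun f => ∑ E ∈ away G f, (lost G f E : ℝ)) g ≤
        ∑ E ∈ away G g, bop G (lvec G E) g + 4 * d * deg G g := by
      have e : (fun f => ∑ E ∈ away G f, (lost G f E : ℝ)) = (fun f => ∑ E ∈ away G g, lvec G E f) +
          fun f => ∑ E ∈ (tri G).filter (fun E => g ∈ sides E), lvec G E f :=
        funext fun f => by rw [hS, hsplit f]; rfl
      rw [e, bop_add, Pi.add_apply, bop_sum]
      refine add_le_add le_rfl ((bop_mono (v := fun _ => 2 * (deg G g : ℝ)) (fun f => ?_) g).trans ?_)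
      · refine (sum_le_card_nsmul _ _ 2 fun E hE => lvec_le_two (mem_filter.1 hE).1 f).trans
          (le_of_eq ?_)
        rw [nsmul_eq_mul, mul_comm]; rfl
      · rw [bop_const]
        by_cases hgG : g ∈ G
        · nlinarith [hd g hgG, (Nat.cast_nonneg _ : (0 : ℝ) ≤ deg G g)]
        · have h0 := bop_eq_zero_of_not_mem hgG (fun _ => (1 : ℝ))
          rw [bop_const] at h0
          have : (deg G g : ℝ) = 0 := by linarith
          simp [this]
    have h2 : ∑ E ∈ away G g, bop G (lvec G E) g - 4 * (∑ E ∈ away G g, (lost G g E : ℝ)) ≤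
        ∑ E ∈ away G g, secd G E g := by
      rw [mul_sum, ← sum_sub_distrib]
      exact sum_le_sum fun E hE => (secd_bounds (mem_filter.1 hE).1 (mem_filter.1 hE).2).2.2
    linarith

/-- The error after a removal. -/
lemma xv_rem {E f : Finset (Fin n)} (hf : f ∈ rem G E) :
    xv D (rem G E) f = xv D G f - lvec G E f / D := by
  have hfE : f ∉ sides E := (mem_sdiff.1 hf).2
  have hfG : f ∈ G := rem_subset G E hf
  have h := congrArg (Nat.cast : ℕ → ℝ) (deg_rem_add_lost G f E)
  push_cast at h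
  rw [xv, if_pos hf, xv, if_pos hfG, lvec, if_neg hfE, xg, xg, ← h]
  ring

/-- The neighbour sum after a removal. -/
lemma om_rem {E : Finset (Fin n)} (hgE : g ∉ sides E) :
    om D (rem G E) g = om D G g - qop G E (xv D G) g / D - secd G E g / D ^ 2 := by
  rw [om_eq, om_eq, qop_eq E _ hgE, secd,
    bop_congr (fun f hf => xv_rem hf) (v := fun f => xv D G f - lvec G E f / D)]
  have e : (fun f => xv D G f - lvec G E f / D) = xv D G - (1 / D) • lvec G E := by
    funext f; simp only [Pi.sub_apply, Pi.smul_apply, smul_eq_mul]; ring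
  rw [e, bop_sub, bop_smul, Pi.sub_apply, Pi.smul_apply, smul_eq_mul]
  ring

/-- Few two step paths. -/
lemma paths2_le {c : ℝ} (hc0 : 0 ≤ c)
    (hc : ∀ a b d : Fin n, a ≠ b → a ≠ d → b ≠ d → (c3 G a b d : ℝ) ≤ c)
    (g h : Finset (Fin n)) (hhg : h ≠ g) : (paths2 G g h : ℝ) ≤ c + 4 := by
  set M := (nbrs G g).filter (fun f => h ∈ nbrs G f) with hM
  show (M.card : ℝ) ≤ c + 4
  rcases M.eq_empty_or_nonempty with h0 | ⟨f₀, hf₀⟩
  · rw [h0, card_empty, Nat.cast_zero]; linarith
  have info : ∀ f ∈ M, f.card = 2 ∧ (∃ E ∈ tri G, g ⊆ E ∧ f ⊆ E) ∧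
      (∃ E ∈ tri G, f ⊆ E ∧ h ⊆ E) ∧ g.card = 2 ∧ h.card = 2 ∧ f ≠ g ∧ f ≠ h := by
    intro f hf
    obtain ⟨h1, h2⟩ := mem_filter.1 hf
    obtain ⟨-, hfg, E, hE, hgE, hfE⟩ := mem_filter.1 h1
    obtain ⟨-, hhf, E', hE', hfE', hhE'⟩ := mem_filter.1 h2
    exact ⟨(mem_sides.1 hfE).2, ⟨E, hE, (mem_sides.1 hgE).1, (mem_sides.1 hfE).1⟩,
      ⟨E', hE', (mem_sides.1 hfE').1, (mem_sides.1 hhE').1⟩, (mem_sides.1 hgE).2,
      (mem_sides.1 hhE').2, hfg, Ne.symm hhf⟩
  obtain ⟨-, -, -, hg2, hh2, -, -⟩ := info f₀ hf₀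
  have meet : ∀ f ∈ M, (∃ x ∈ g, x ∈ f) ∧ ∃ y ∈ f, y ∈ h := by
    intro f hf
    obtain ⟨hf2, ⟨E, hE, e1, e2⟩, ⟨E', hE', e3, e4⟩, -⟩ := info f hf
    have aux : ∀ {p q T : Finset (Fin n)}, p.card = 2 → q.card = 2 → T.card = 3 → p ⊆ T → q ⊆ T →
        ∃ x ∈ p, x ∈ q := fun {p q T} hp hq hT hpT hqT => by
      by_contra hno
      have hd : Disjoint p q := disjoint_left.2 fun x hx hx' => hno ⟨x, hx, hx'⟩
      have := card_le_card (union_subset hpT hqT)
      rw [card_union_of_disjoint hd] at this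
      omega
    exact ⟨aux hg2 hf2 (mem_tri.1 hE).1 e1 e2, aux hf2 hh2 (mem_tri.1 hE').1 e3 e4⟩
  have pair : ∀ {f : Finset (Fin n)}, f.card = 2 → ∀ {x y}, x ∈ f → y ∈ f → x ≠ y → f = {x, y} :=
    fun {f} hf {x y} hx hy hxy => (eq_of_subset_of_card_le
      (insert_subset hx (singleton_subset_iff.2 hy)) (by rw [hf, card_pair hxy])).symm
  by_cases hd : Disjoint g h
  · have hsub : M ⊆ (g ×ˢ h).image (fun p => ({p.1, p.2} : Finset (Fin n))) := fun f hf => by
      obtain ⟨⟨x, hxg, hxf⟩, y, hyf, hyh⟩ := meet f hf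
      have hxy : x ≠ y := fun e => disjoint_left.1 hd hxg (e ▸ hyh)
      exact mem_image.2 ⟨(x, y), mem_product.2 ⟨hxg, hyh⟩, (pair (info f hf).1 hxf hyf hxy).symm⟩
    have := (card_le_card hsub).trans card_image_le
    rw [card_product, hg2, hh2] at this
    have : (M.card : ℝ) ≤ ((4 : ℕ) : ℝ) := by exact_mod_cast this
    push_cast at this
    linarith
  · obtain ⟨a, hag, hah⟩ := not_disjoint_iff.1 hd
    obtain ⟨b, hb, hba⟩ := exists_mem_ne (by omega : 1 < g.card) a
    obtain ⟨d, hdh, hda⟩ := exists_mem_ne (by omega : 1 < h.card) a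
    have eg := pair hg2 hag hb (Ne.symm hba)
    have eh := pair hh2 hah hdh (Ne.symm hda)
    have hbd : b ≠ d := fun e => hhg (by rw [eg, eh, e])
    have hsub : M ⊆ insert ({b, d} : Finset (Fin n))
        ((univ.filter (fun w : Fin n => ({a, w} : Finset _) ∈ G ∧ ({b, w} : Finset _) ∈ G ∧
          ({d, w} : Finset _) ∈ G)).image (fun w => ({a, w} : Finset (Fin n)))) := by
      intro f hf
      obtain ⟨hf2, ⟨E, hE, e1, e2⟩, ⟨E', hE', e3, e4⟩, -, -, hfg, hfh⟩ := info f hf
      obtain ⟨⟨x, hxg, hxf⟩, y, hyf, hyh⟩ := meet f hf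
      by_cases haf : a ∈ f
      · obtain ⟨w, hw, hwa⟩ := exists_mem_ne (by omega : 1 < f.card) a
        have ef := pair hf2 haf hw (Ne.symm hwa)
        have hwb : w ≠ b := fun e => hfg (by rw [ef, eg, e])
        have hwd : w ≠ d := fun e => hfh (by rw [ef, eh, e])
        refine mem_insert_of_mem (mem_image.2 ⟨w, mem_filter.2 ⟨mem_univ _, ?_, ?_, ?_⟩, ef.symm⟩)
        · exact (mem_tri.1 hE).2 (mem_sides.2 ⟨ef ▸ e2, card_pair (Ne.symm hwa)⟩)
        · exact (mem_tri.1 hE).2 (mem_sides.2 ⟨insert_subset (e1 hb)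
            (singleton_subset_iff.2 (e2 hw)), card_pair (Ne.symm hwb)⟩)
        · exact (mem_tri.1 hE').2 (mem_sides.2 ⟨insert_subset (e4 hdh)
            (singleton_subset_iff.2 (e3 hw)), card_pair (Ne.symm hwd)⟩)
      · rw [eg, mem_insert, mem_singleton] at hxg
        rw [eh, mem_insert, mem_singleton] at hyh
        have hxb : x = b := hxg.resolve_left fun e => haf (e ▸ hxf)
        have hyd : y = d := hyh.resolve_left fun e => haf (e ▸ hyf)
        exact mem_insert.2 (Or.inl (pair hf2 (hxb ▸ hxf) (hyd ▸ hyf) hbd))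
    have h1 := (card_le_card hsub).trans ((card_insert_le _ _).trans
      (Nat.add_le_add_right card_image_le 1))
    have h2 : (M.card : ℝ) ≤ (c3 G a b d : ℝ) + 1 := by exact_mod_cast h1
    have := hc a b d (Ne.symm hba) (Ne.symm hda) hbd
    linarith

end Vale.Agent.P046.Full.One
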