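import Vale.Agent.P046.Full.One.PotFacts

/-!
P046, phase one: the drifts of the potentials at a graph with nearly constant codegrees.
-/

namespace Vale.Agent.P046.Full.One

open Finset
open Vale.Agent.P046

variable {n : ℕ} {G : Gr n} {D δ : ℝ}

/-- The sum of the changes of `f` over all ringing triangles. -/
noncomputable def lgen (f : Gr n → ℝ) (G : Gr n) : ℝ := ∑ E ∈ tri G, (f (rem G E) - f G)

/-- The hypotheses on the state. -/
structure Flat (G : Gr n) (D δ : ℝ) : Prop where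
  hD : 16 ≤ D
  hδ : δ ≤ 1 / 16
  hx : ∀ g ∈ G, |xg D G g| ≤ δ
  hδ0 : 0 ≤ δ

/-- The neighbour sums, as a vector. -/
noncomputable def omv (D : ℝ) (G : Gr n) : Vec n := fun f => if f ∈ G then om D G f else 0

/-- The squared errors, propagated once. -/
noncomputable def bq (D : ℝ) (G : Gr n) : Vec n := bop G (fun f => xv D G f ^ 2)

/-- The squared sums of the errors over the two other sides. -/
noncomputable def nq (D : ℝ) (G : Gr n) : Vec n := fun g =>
  ∑ F ∈ (tri G).filter (fun F => g ∈ sides F), (∑ f ∈ (sides F).erase g, xv D G f) ^ 2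

/-- A sum over the surviving edges. -/
lemma lgen_sum (φ : Gr n → Finset (Fin n) → ℝ) :
    lgen (fun H => ∑ g ∈ H, φ H g) G =
      ∑ g ∈ G, (-(deg G g : ℝ) * φ G g + ∑ E ∈ away G g, (φ (rem G E) g - φ G g)) := by
  have e : ∀ E ∈ tri G, ∑ g ∈ rem G E, φ (rem G E) g - ∑ g ∈ G, φ G g =
      ∑ g ∈ G, ((if g ∉ sides E then φ (rem G E) g - φ G g else 0) -
        (if g ∈ sides E then φ G g else 0)) := by
    intro E hE
    rw [rem, sdiff_eq_filter, sum_filter, ← sum_sub_distrib]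
    refine sum_congr rfl fun g _ => ?_
    by_cases h : g ∈ sides E <;> simp [h]
  rw [lgen, sum_congr rfl e, sum_comm]
  refine sum_congr rfl fun g _ => ?_
  rw [sum_sub_distrib, ← sum_filter, ← sum_filter, sum_const, nsmul_eq_mul, sub_eq_neg_add]
  simp only [away, deg]
  ring

lemma xg_rem {D : ℝ} {g E : Finset (Fin n)} (_hE : E ∈ away G g) :
    xg D (rem G E) g = xg D G g - (lost G g E : ℝ) / D := by
  have h1 := congrArg (Nat.cast : ℕ → ℝ) (deg_rem_add_lost G g E)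
  push_cast at h1
  rw [xg, xg, ← h1]
  ring

lemma lost_le {g E : Finset (Fin n)} (hE : E ∈ away G g) : (lost G g E : ℝ) ≤ 2 := by
  exact_mod_cast lost_le_two (mem_filter.1 hE).1 (mem_filter.1 hE).2

namespace Flat

variable (h : Flat G D δ)
include h

lemma pos : 0 < D := lt_of_lt_of_le (by norm_num) h.hD

lemma y_bounds {g : Finset (Fin n)} (hg : g ∈ G) :
    15 / 16 ≤ 1 + xg D G g ∧ 1 + xg D G g ≤ 17 / 16 ∧ |xg D G g| ≤ 1 / 16 := by
  have h1 := abs_le.1 ((h.hx g hg).trans h.hδ)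
  exact ⟨by linarith, by linarith, (h.hx g hg).trans h.hδ⟩

lemma deg_le {g : Finset (Fin n)} (hg : g ∈ G) : (deg G g : ℝ) ≤ 17 / 16 * D := by
  rw [deg_eq_xg h.pos, mul_comm]
  exact mul_le_mul_of_nonneg_right (h.y_bounds hg).2.1 h.pos.le

lemma abs_om_le {g : Finset (Fin n)} : |om D G g| ≤ 3 * δ ∧ |om D G g| ≤ 3 / 16 := by
  have hv : ∀ f ∈ G, |xv D G f| ≤ δ := fun f hf => by rw [xv, if_pos hf]; exact h.hx f hf
  have h1 := bop_sup_le h.hδ0 (fun f hf => h.deg_le hf) (by linarith [h.pos]) hv g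
  have h2 : |om D G g| ≤ 3 * δ := by
    rw [om_eq, abs_div, abs_of_pos h.pos, div_le_iff₀ h.pos]
    refine h1.trans ?_
    nlinarith [mul_nonneg h.hδ0 h.pos.le]
  exact ⟨h2, h2.trans (by linarith [h.hδ])⟩

/-- The squared error. -/
theorem potV_drift :
    4 * ∑ g ∈ G, xg D G g * (1 + xg D G g) + lgen (potV D) G / D ≤
      (-(1 / 2) + δ) * potV D G + 2 * potW D G + 5 / D * G.card := by
  have hD := h.pos
  unfold potV potW
  rw [lgen_sum (fun H g => xg D H g ^ 2), mul_sum, sum_div, ← sum_add_distrib, mul_sum, mul_sum,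
    card_eq_sum_ones G, Nat.cast_sum, mul_sum, ← sum_add_distrib, ← sum_add_distrib]
  refine sum_le_sum fun g hg => ?_
  obtain ⟨hy0, hy1, hx⟩ := h.y_bounds hg
  obtain ⟨-, hw⟩ := h.abs_om_le (g := g)
  set x := xg D G g with hxdef
  set w := om D G g
  have hS := sum_lost_away_xg (g := g) (G := G) hD
  have hsum : ∑ E ∈ away G g, (xg D (rem G E) g ^ 2 - x ^ 2) ≤
      (-(2 * x) / D + 2 / D ^ 2) * ∑ E ∈ away G g, (lost G g E : ℝ) := by
    rw [mul_sum]
    refine sum_le_sum fun E hE => ?_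
    rw [xg_rem hE]
    set l := (lost G g E : ℝ)
    have hl : l * l ≤ 2 * l := mul_le_mul_of_nonneg_right (lost_le hE) (Nat.cast_nonneg _)
    have e : (x - l / D) ^ 2 - x ^ 2 = -(2 * x) / D * l + l * l / D ^ 2 := by ring
    have := div_le_div_of_nonneg_right hl (sq_nonneg D)
    rw [e, show (-(2 * x) / D + 2 / D ^ 2) * l = -(2 * x) / D * l + 2 * l / D ^ 2 by ring]
    linarith
  rw [hS] at hsum
  have hd := div_le_div_of_nonneg_right
    (add_le_add (le_refl (-(deg G g : ℝ) * x ^ 2)) hsum) hD.le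
  have e : (-(deg G g : ℝ) * x ^ 2 + (-(2 * x) / D + 2 / D ^ 2) *
      (D ^ 2 * (2 * (1 + x) + w) - 2 * D * (1 + x))) / D =
      -((1 + x) * x ^ 2) - 4 * x * (1 + x) - 2 * x * w +
        (4 * x * (1 + x) + 2 * (2 * (1 + x) + w)) / D - 4 * (1 + x) / D ^ 2 := by
    rw [deg_eq_xg hD g]
    field_simp
    ring
  rw [e] at hd
  obtain ⟨hxa, hxb⟩ := abs_le.1 hx
  have h5 : (4 * x * (1 + x) + 2 * (2 * (1 + x) + w)) / D ≤ 5 / D := by
    refine div_le_div_of_nonneg_right ?_ hD.le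
    nlinarith [(abs_le.1 hw).2]
  have h6 : 0 ≤ 4 * (1 + x) / D ^ 2 := by
    have : 0 ≤ 1 + x := by linarith
    positivity
  have h7 : -((1 + x) * x ^ 2) ≤ (-1 + δ) * x ^ 2 := by
    nlinarith [mul_nonneg (sub_nonneg.2 (abs_le.1 (h.hx g hg)).1) (sq_nonneg x)]
  have h8 : -(2 * x * w) ≤ 1 / 2 * x ^ 2 + 2 * w ^ 2 := by nlinarith [sq_nonneg (x + 2 * w)]
  simp only [Nat.cast_one, mul_one]
  linarith

omit h in
lemma quartic_step (x a : ℝ) :
    (x - a) ^ 4 - x ^ 4 ≤ -(4 * x ^ 3) * a + 8 * x ^ 2 * a ^ 2 + 3 * a ^ 4 := by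
  nlinarith [mul_nonneg (sq_nonneg a) (sq_nonneg (x + a))]

/-- The fourth power of the error. -/
theorem potU_drift :
    8 * ∑ g ∈ G, xg D G g ^ 3 * (1 + xg D G g) + lgen (potU4 D) G / D ≤
      (-(1 / 2) + δ) * potU4 D G + 8 * δ ^ 2 * potW D G + 40 / D * potV D G +
        60 / D ^ 3 * G.card := by
  have hD := h.pos
  unfold potU4 potW potV
  rw [lgen_sum (fun H g => xg D H g ^ 4), mul_sum, sum_div, ← sum_add_distrib, mul_sum, mul_sum,
    mul_sum, card_eq_sum_ones G, Nat.cast_sum, mul_sum, ← sum_add_distrib, ← sum_add_distrib,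
    ← sum_add_distrib]
  refine sum_le_sum fun g hg => ?_
  obtain ⟨hy0, hy1, hx⟩ := h.y_bounds hg
  obtain ⟨-, hw⟩ := h.abs_om_le (g := g)
  set x := xg D G g with hxdef
  set w := om D G g
  have hS := sum_lost_away_xg (g := g) (G := G) hD
  set S := ∑ E ∈ away G g, (lost G g E : ℝ) with hSdef
  have hS0 : 0 ≤ S := sum_nonneg fun _ _ => Nat.cast_nonneg _
  have hS1 : S ≤ 37 / 16 * D ^ 2 := by
    rw [hS]
    have h1 : D ^ 2 * (2 * (1 + x) + w) ≤ D ^ 2 * (37 / 16) :=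
      mul_le_mul_of_nonneg_left (by linarith [(abs_le.1 hw).2]) (sq_nonneg D)
    have h2 : 0 ≤ 2 * D * (1 + x) := mul_nonneg (by linarith) (by linarith)
    linarith
  have hsum : ∑ E ∈ away G g, (xg D (rem G E) g ^ 4 - x ^ 4) ≤
      -(4 * x ^ 3) / D * S + (16 * x ^ 2 / D ^ 2 + 24 / D ^ 4) * S := by
    rw [hSdef, mul_sum, mul_sum, ← sum_add_distrib]
    refine sum_le_sum fun E hE => ?_
    rw [xg_rem hE]
    set l := (lost G g E : ℝ)
    have hl0 : 0 ≤ l := Nat.cast_nonneg _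
    have hl2 := lost_le hE
    have hl : l ^ 2 ≤ 2 * l := by nlinarith
    have hl4 : l ^ 4 ≤ 8 * l := by
      have h3 : l * l * l ≤ 2 * 2 * 2 := mul_le_mul (mul_le_mul hl2 hl2 hl0 (by norm_num)) hl2 hl0 (by norm_num)
      nlinarith
    have a2 : 8 * x ^ 2 * (l / D) ^ 2 ≤ 16 * x ^ 2 / D ^ 2 * l := by
      have := mul_le_mul_of_nonneg_left hl (by positivity : 0 ≤ 8 * x ^ 2 / D ^ 2)
      calc 8 * x ^ 2 * (l / D) ^ 2 = 8 * x ^ 2 / D ^ 2 * l ^ 2 := by ring
        _ ≤ 8 * x ^ 2 / D ^ 2 * (2 * l) := this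
        _ = _ := by ring
    have a4 : 3 * (l / D) ^ 4 ≤ 24 / D ^ 4 * l := by
      calc 3 * (l / D) ^ 4 = 3 / D ^ 4 * l ^ 4 := by ring
        _ ≤ 3 / D ^ 4 * (8 * l) := mul_le_mul_of_nonneg_left hl4 (by positivity)
        _ = _ := by ring
    have a1 : -(4 * x ^ 3) * (l / D) = -(4 * x ^ 3) / D * l := by ring
    linarith [quartic_step x (l / D)]
  have hd := div_le_div_of_nonneg_right
    (add_le_add (le_refl (-(deg G g : ℝ) * x ^ 4)) hsum) hD.le
  have e : (-(deg G g : ℝ) * x ^ 4 + (-(4 * x ^ 3) / D * S + (16 * x ^ 2 / D ^ 2 + 24 / D ^ 4) * S)) / D =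
      -((1 + x) * x ^ 4) - 8 * x ^ 3 * (1 + x) - 4 * x ^ 3 * w + 8 * x ^ 3 * (1 + x) / D +
        (16 * x ^ 2 / D + 24 / D ^ 3) * (S / D ^ 2) := by
    rw [deg_eq_xg hD g, hS]
    field_simp
    ring
  rw [e] at hd
  obtain ⟨hxa, hxb⟩ := abs_le.1 hx
  have hS2 : S / D ^ 2 ≤ 37 / 16 := by rw [div_le_iff₀ (by positivity)]; exact hS1
  have h5 : (16 * x ^ 2 / D + 24 / D ^ 3) * (S / D ^ 2) ≤ 37 / D * x ^ 2 + 56 / D ^ 3 := by
    refine (mul_le_mul_of_nonneg_left hS2 (by positivity)).trans ?_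
    have : 24 * (37 / 16) / D ^ 3 ≤ 56 / D ^ 3 :=
      div_le_div_of_nonneg_right (by norm_num) (by positivity)
    linarith [show (16 * x ^ 2 / D + 24 / D ^ 3) * (37 / 16) =
      37 / D * x ^ 2 + 24 * (37 / 16) / D ^ 3 by ring]
  have h6 : 8 * x ^ 3 * (1 + x) / D ≤ 3 / D * x ^ 2 := by
    have : 8 * x * (1 + x) ≤ 3 := by nlinarith
    calc 8 * x ^ 3 * (1 + x) / D = 8 * x * (1 + x) * (x ^ 2 / D) := by ring
      _ ≤ 3 * (x ^ 2 / D) := mul_le_mul_of_nonneg_right this (by positivity)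
      _ = _ := by ring
  have h7 : -((1 + x) * x ^ 4) ≤ (-1 + δ) * x ^ 4 := by
    nlinarith [mul_nonneg (sub_nonneg.2 (abs_le.1 (h.hx g hg)).1) (by positivity : 0 ≤ x ^ 4)]
  have h8 : -(4 * x ^ 3 * w) ≤ 1 / 2 * x ^ 4 + 8 * δ ^ 2 * w ^ 2 := by
    have h9 : x ^ 2 ≤ δ ^ 2 := by rw [← sq_abs]; exact pow_le_pow_left₀ (abs_nonneg _) (h.hx g hg) 2
    nlinarith [mul_nonneg (sq_nonneg x) (sq_nonneg (x + 4 * w)),
      mul_le_mul_of_nonneg_right h9 (sq_nonneg w)]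
  have h10 : 56 / D ^ 3 ≤ 60 / D ^ 3 := div_le_div_of_nonneg_right (by norm_num) (by positivity)
  simp only [Nat.cast_one, mul_one]
  linarith [show 40 / D * x ^ 2 = 37 / D * x ^ 2 + 3 / D * x ^ 2 by ring]

omit h in
/-- The squares of the errors, propagated. -/
lemma nq_bounds (g : Finset (Fin n)) :
    0 ≤ nq D G g ∧ nq D G g ≤ 2 * bq D G g := by
  refine ⟨sum_nonneg fun F _ => sq_nonneg _, ?_⟩
  rw [bq, bop, mul_sum]
  refine sum_le_sum fun F hF => ?_
  obtain ⟨hFt, hgF⟩ := mem_filter.1 hF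
  refine sq_sum_le_card_mul_sum_sq.trans (le_of_eq ?_)
  rw [card_erase_of_mem hgF, card_sides (mem_tri.1 hFt).1]
  norm_num

lemma sum_bq_le : ∑ g ∈ G, bq D G g ≤ 17 / 8 * D * potV D G := by
  have hdeg : ∀ f ∈ G, (deg G f : ℝ) ≤ 17 / 16 * D := fun f hf => h.deg_le hf
  refine (sum_le_sum_of_subset_of_nonneg (subset_univ G)
    fun g _ _ => bop_nonneg (fun f => sq_nonneg _) g).trans
    ((sum_bop_le (by linarith [h.pos]) hdeg fun f => sq_nonneg _).trans (le_of_eq ?_))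
  have : ∑ f : Finset (Fin n), xv D G f ^ 2 = potV D G := by
    rw [potV, ← sum_subset (subset_univ G) (fun f _ hf => by simp [xv, hf])]
    exact sum_congr rfl fun f hf => by simp [xv, hf]
  rw [this]; ring

lemma sum_bq_sq_le : ∑ g ∈ G, bq D G g ^ 2 ≤ 5 * D ^ 2 * potU4 D G := by
  have hdeg : ∀ f ∈ G, (deg G f : ℝ) ≤ 17 / 16 * D := fun f hf => h.deg_le hf
  refine (sum_le_sum_of_subset_of_nonneg (subset_univ G) fun g _ _ => sq_nonneg _).trans
    ((sum_bop_sq_le (by linarith [h.pos]) hdeg _).trans ?_)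
  have : ∑ f : Finset (Fin n), (xv D G f ^ 2) ^ 2 = potU4 D G := by
    rw [potU4, ← sum_subset (subset_univ G) (fun f _ hf => by simp [xv, hf])]
    exact sum_congr rfl fun f hf => by simp [xv, hf, ← pow_mul]
  rw [this]
  have : 0 ≤ potU4 D G := sum_nonneg fun g _ => Even.pow_nonneg (by decide) _
  nlinarith [mul_nonneg (sq_nonneg D) this]

lemma sum_qop_away_xv {g : Finset (Fin n)} :
    ∑ E ∈ away G g, qop G E (xv D G) g = (2 * D - 2) * (D * om D G g) + D * nq D G g := by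
  have hD := h.pos
  rw [sum_qop_away, om_eq, mul_div_cancel₀ _ hD.ne', nq, bop, mul_sum, mul_sum, ← sum_add_distrib]
  refine sum_congr rfl fun F hF => ?_
  obtain ⟨hFt, hgF⟩ := mem_filter.1 hF
  have e : ∑ f ∈ (sides F).erase g, (deg G f : ℝ) =
      D * (2 + ∑ f ∈ (sides F).erase g, xv D G f) := by
    rw [sum_congr rfl (fun f hf => by
      rw [deg_eq_xg hD f, show xg D G f = xv D G f from
        (if_pos ((mem_tri.1 hFt).2 (mem_erase.1 hf).2)).symm] :
      ∀ f ∈ (sides F).erase g, (deg G f : ℝ) = D * (1 + xv D G f)),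
      ← mul_sum, sum_add_distrib, sum_const, card_erase_of_mem hgF,
      card_sides (mem_tri.1 hFt).1]
    norm_num
  rw [e]
  ring

lemma sum_qop_sq_away {g : Finset (Fin n)} :
    ∑ E ∈ away G g, qop G E (xv D G) g ^ 2 ≤ 17 / 2 * D * bq D G g := by
  have h1 : ∀ E ∈ away G g, qop G E (xv D G) g ^ 2 ≤
      4 * qop G E (fun f => xv D G f ^ 2) g :=
    fun E hE => qop_sq_le (mem_filter.1 hE).1 (mem_filter.1 hE).2 _
  refine (sum_le_sum h1).trans ?_
  rw [← mul_sum, sum_qop_away, bq, bop, mul_sum, mul_sum]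
  refine sum_le_sum fun F hF => ?_
  obtain ⟨hFt, hgF⟩ := mem_filter.1 hF
  have e : ∑ f ∈ (sides F).erase g, (deg G f : ℝ) - 2 ≤ 17 / 8 * D := by
    have := sum_le_card_nsmul ((sides F).erase g) (fun f => (deg G f : ℝ)) (17 / 16 * D)
      fun f hf => h.deg_le ((mem_tri.1 hFt).2 (mem_erase.1 hf).2)
    rw [card_erase_of_mem hgF, card_sides (mem_tri.1 hFt).1, nsmul_eq_mul] at this
    norm_num at this
    linarith
  have h0 : 0 ≤ ∑ f ∈ (sides F).erase g, xv D G f ^ 2 := sum_nonneg fun f _ => sq_nonneg _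
  nlinarith [mul_le_mul_of_nonneg_left e h0]

/-- The second differences, summed. -/
lemma sum_secd_away' {g : Finset (Fin n)} (hg : g ∈ G) {Γ : ℝ} (hΓ0 : 0 ≤ Γ)
    (hΓ : ∀ g e : Finset (Fin n), e ≠ g → (paths2 G g e : ℝ) ≤ Γ) :
    ∃ err : ℝ, 0 ≤ err ∧ err ≤ 14 * D ^ 2 ∧
      ∑ E ∈ away G g, secd G E g = 2 * (D ^ 2 - D) * (D * (2 * (1 + xg D G g) + om D G g)) +
        D ^ 2 * bop G (omv D G) g - err ∧
      ∑ E ∈ away G g, secd G E g ^ 2 ≤ 3 * Γ * (5 * D ^ 3) := by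
  have hD := h.pos
  obtain ⟨hy0, hy1, hx⟩ := h.y_bounds hg
  obtain ⟨-, hw⟩ := h.abs_om_le (g := g)
  have hdeg : ∀ f ∈ G, (deg G f : ℝ) ≤ 17 / 16 * D := fun f hf => h.deg_le hf
  have hd : (deg G g : ℝ) = D * (1 + xg D G g) := deg_eq_xg hD g
  set S := ∑ E ∈ away G g, (lost G g E : ℝ)
  set BS := bop G (fun f => ∑ E ∈ away G f, (lost G f E : ℝ)) g
  have hBS : BS = 2 * (D ^ 2 - D) * (D * (2 * (1 + xg D G g) + om D G g)) +
      D ^ 2 * bop G (omv D G) g := by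
    have e : bop G (fun f => ∑ E ∈ away G f, (lost G f E : ℝ)) = bop G ((2 * (D ^ 2 - D)) •
        ((fun _ => (1 : ℝ)) + xv D G) + D ^ 2 • omv D G) := bop_congr fun f hf => by
      rw [sum_lost_away_xg hD]
      simp only [Pi.add_apply, Pi.smul_apply, smul_eq_mul, omv, xv, if_pos hf]
      ring
    simp only [BS, e, bop_add, bop_smul, Pi.add_apply, Pi.smul_apply, smul_eq_mul, bop_const, hd,
      om_eq]
    field_simp
  have hBSub : BS ≤ 5 * D ^ 3 := by
    refine (le_abs_self _).trans ((bop_sup_le (W := 37 / 16 * D ^ 2) (by positivity) hdeg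
      (by linarith) (fun f hf => ?_) g).trans ?_)
    · rw [abs_of_nonneg (sum_nonneg fun E _ => Nat.cast_nonneg _), sum_lost_away_xg hD]
      obtain ⟨f0, f1, -⟩ := h.y_bounds hf
      have h1 : D ^ 2 * (2 * (1 + xg D G f) + om D G f) ≤ D ^ 2 * (37 / 16) :=
        mul_le_mul_of_nonneg_left (by linarith [(abs_le.1 (h.abs_om_le (g := f)).2).2]) (sq_nonneg D)
      have h2 : 0 ≤ 2 * D * (1 + xg D G f) := mul_nonneg (by linarith) (by linarith)
      linarith
    · nlinarith [pow_pos hD 3]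
  have hSub : 4 * (17 / 16 * D) * deg G g + 4 * S ≤ 14 * D ^ 2 := by
    have h1 := h.deg_le hg
    have h2 : S ≤ 37 / 16 * D ^ 2 := by
      simp only [S]
      rw [sum_lost_away_xg hD]
      have h3 : D ^ 2 * (2 * (1 + xg D G g) + om D G g) ≤ D ^ 2 * (37 / 16) :=
        mul_le_mul_of_nonneg_left (by linarith [(abs_le.1 hw).2]) (sq_nonneg D)
      have h4 : 0 ≤ 2 * D * (1 + xg D G g) := mul_nonneg (by linarith) (by linarith)
      linarith
    nlinarith [mul_le_mul_of_nonneg_left h1 hD.le]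
  obtain ⟨hR1, hR2⟩ := sum_secd_away (g := g) hdeg
  refine ⟨BS - ∑ E ∈ away G g, secd G E g, sub_nonneg.2 hR1, ?_, ?_, ?_⟩
  · have : BS - 4 * (17 / 16 * D) * deg G g - 4 * S ≤ ∑ E ∈ away G g, secd G E g := hR2
    linarith
  · rw [← hBS]; ring
  · have h1 : ∀ E ∈ away G g, secd G E g ^ 2 ≤ 3 * Γ * secd G E g := by
      intro E hE
      obtain ⟨hEt, hgE⟩ := mem_filter.1 hE
      obtain ⟨r0, r1, -⟩ := secd_bounds hEt hgE
      rw [sq]
      exact mul_le_mul_of_nonneg_right (r1.trans (bop_lvec_le hΓ hEt hgE)) r0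
    refine (sum_le_sum h1).trans ?_
    rw [← mul_sum]
    exact mul_le_mul_of_nonneg_left (hR1.trans hBSub) (by positivity)

lemma om_sq_away {g : Finset (Fin n)} (hg : g ∈ G) {Γ : ℝ} (hΓ0 : 0 ≤ Γ)
    (hΓ : ∀ g e : Finset (Fin n), e ≠ g → (paths2 G g e : ℝ) ≤ Γ) :
    (-(deg G g : ℝ) * om D G g ^ 2 +
      ∑ E ∈ away G g, (om D (rem G E) g ^ 2 - om D G g ^ 2)) / D ≤
      -((1 + xg D G g) * om D G g ^ 2) - 8 * (om D G g ^ 2 + om D G g * (1 + xg D G g)) -
        2 / D * (om D G g * bop G (omv D G) g) - 2 * om D G g * nq D G g / D +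
        (|om D G g| * 40) / D + 17 / D ^ 2 * bq D G g + 30 * Γ / D ^ 2 := by
  have hD := h.pos
  obtain ⟨err, herr0, herr1, hR, hR3⟩ := h.sum_secd_away' hg hΓ0 hΓ
  have hP := h.sum_qop_away_xv (g := g)
  have hP2 := h.sum_qop_sq_away (g := g)
  obtain ⟨hy0, hy1, hx⟩ := h.y_bounds hg
  obtain ⟨-, hw⟩ := h.abs_om_le (g := g)
  have hd : (deg G g : ℝ) = D * (1 + xg D G g) := deg_eq_xg hD g
  generalize hyd : 1 + xg D G g = y at *
  generalize hwd : om D G g = w at *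
  have hsum : ∑ E ∈ away G g, (om D (rem G E) g ^ 2 - w ^ 2) ≤
      -(2 * w) / D * ∑ E ∈ away G g, qop G E (xv D G) g +
        -(2 * w) / D ^ 2 * ∑ E ∈ away G g, secd G E g +
        2 / D ^ 2 * ∑ E ∈ away G g, qop G E (xv D G) g ^ 2 +
        2 / D ^ 4 * ∑ E ∈ away G g, secd G E g ^ 2 := by
    simp only [mul_sum, ← sum_add_distrib]
    refine sum_le_sum fun E hE => ?_
    rw [om_rem (mem_filter.1 hE).2, hwd]
    generalize qop G E (xv D G) g = a
    generalize secd G E g = b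
    have e : (w - a / D - b / D ^ 2) ^ 2 - w ^ 2 =
        -(2 * w) / D * a + -(2 * w) / D ^ 2 * b + (a / D + b / D ^ 2) ^ 2 := by ring
    rw [e]
    have e2 : 2 / D ^ 2 * a ^ 2 + 2 / D ^ 4 * b ^ 2 = 2 * (a / D) ^ 2 + 2 * (b / D ^ 2) ^ 2 := by
      ring
    nlinarith [sq_nonneg (a / D - b / D ^ 2)]
  have hsum2 := add_le_add (le_refl (-(deg G g : ℝ) * w ^ 2)) (hsum.trans
    (add_le_add (add_le_add le_rfl (mul_le_mul_of_nonneg_left hP2 (by positivity)))
      (mul_le_mul_of_nonneg_left hR3 (by positivity))))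
  refine (div_le_div_of_nonneg_right hsum2 hD.le).trans ?_
  rw [hP, hR, hd]
  generalize nq D G g = N
  generalize bq D G g = B
  generalize bop G (omv D G) g = W
  have e : (-(D * y) * w ^ 2 + (-(2 * w) / D * ((2 * D - 2) * (D * w) + D * N) +
      -(2 * w) / D ^ 2 * (2 * (D ^ 2 - D) * (D * (2 * y + w)) + D ^ 2 * W - err) +
      2 / D ^ 2 * (17 / 2 * D * B) + 2 / D ^ 4 * (3 * Γ * (5 * D ^ 3)))) / D =
      -(y * w ^ 2) - 8 * (w ^ 2 + w * y) - 2 / D * (w * W) - 2 * w * N / D +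
        w * (4 * w + 4 * (2 * y + w) + 2 * (err / D ^ 2)) / D + 17 / D ^ 2 * B +
        30 * Γ / D ^ 2 := by
    field_simp
    ring
  rw [e]
  have h9 : err / D ^ 2 ≤ 14 := by rw [div_le_iff₀ (by positivity)]; exact herr1
  have h9' : 0 ≤ err / D ^ 2 := div_nonneg herr0 (sq_nonneg D)
  have hb : |4 * w + 4 * (2 * y + w) + 2 * (err / D ^ 2)| ≤ 40 :=
    abs_le.2 ⟨by linarith [(abs_le.1 hw).1], by linarith [(abs_le.1 hw).2]⟩
  have h10 : w * (4 * w + 4 * (2 * y + w) + 2 * (err / D ^ 2)) / D ≤ |w| * 40 / D := by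
    refine div_le_div_of_nonneg_right ((le_abs_self _).trans ?_) hD.le
    rw [abs_mul]
    exact mul_le_mul_of_nonneg_left hb (abs_nonneg _)
  linarith

lemma potW_point {g : Finset (Fin n)} (hg : g ∈ G) {Γ : ℝ} (hΓ0 : 0 ≤ Γ)
    (hΓ : ∀ g e : Finset (Fin n), e ≠ g → (paths2 G g e : ℝ) ≤ Γ) :
    8 * (om D G g ^ 2 + om D G g * (1 + xg D G g)) +
      (-(deg G g : ℝ) * om D G g ^ 2 +
        ∑ E ∈ away G g, (om D (rem G E) g ^ 2 - om D G g ^ 2)) / D ≤
      (-(3 / 4) + δ) * om D G g ^ 2 - 2 / D * (omv D G g * bop G (omv D G) g) +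
        32 / D ^ 2 * bq D G g ^ 2 + 17 / D ^ 2 * bq D G g + (3200 + 30 * Γ) / D ^ 2 := by
  have hD := h.pos
  have hmain := h.om_sq_away hg hΓ0 hΓ
  obtain ⟨hN0, hN⟩ := nq_bounds (D := D) (G := G) g
  have hxl := (abs_le.1 (h.hx g hg)).1
  rw [show omv D G g = om D G g from if_pos hg]
  generalize om D G g = w at *
  generalize xg D G g = x at *
  generalize nq D G g = N at *
  generalize bq D G g = B at *
  have h10 : |w| * 40 / D ≤ w ^ 2 / 8 + 3200 / D ^ 2 := by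
    have e2 : 0 ≤ (|w| - 160 / D) ^ 2 := sq_nonneg _
    have e3 : (|w| - 160 / D) ^ 2 = w ^ 2 - 8 * (|w| * 40 / D) + 25600 / D ^ 2 := by
      rw [sub_sq, sq_abs]; ring
    linarith [show (25600 : ℝ) / D ^ 2 = 8 * (3200 / D ^ 2) by ring]
  have h11 : -(2 * w * N / D) ≤ w ^ 2 / 8 + 32 / D ^ 2 * B ^ 2 := by
    have e1 : -(2 * w * N / D) ≤ |w| * (4 * (B / D)) := by
      have h1 : -(2 * w * N) ≤ |w| * (4 * B) := by
        nlinarith [mul_nonneg (abs_nonneg w) (sub_nonneg.2 hN), neg_abs_le w, hN0]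
      calc -(2 * w * N / D) = -(2 * w * N) / D := by ring
        _ ≤ |w| * (4 * B) / D := div_le_div_of_nonneg_right h1 hD.le
        _ = _ := by ring
    have e2 : 0 ≤ (|w| - 16 * (B / D)) ^ 2 := sq_nonneg _
    have e3 : (|w| - 16 * (B / D)) ^ 2 =
        w ^ 2 - 8 * (|w| * (4 * (B / D))) + 256 * (B ^ 2 / D ^ 2) := by
      rw [sub_sq, sq_abs]; ring
    linarith [show 32 / D ^ 2 * B ^ 2 = 32 * (B ^ 2 / D ^ 2) by ring]
  have h12 : -((1 + x) * w ^ 2) ≤ (-1 + δ) * w ^ 2 := by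
    nlinarith [mul_nonneg (sub_nonneg.2 hxl) (sq_nonneg w)]
  rw [show (3200 + 30 * Γ) / D ^ 2 = 3200 / D ^ 2 + 30 * Γ / D ^ 2 by ring]
  linarith

/-- The squared neighbour sums. -/
theorem potW_drift {β Γ : ℝ} (hΓ0 : 0 ≤ Γ)
    (hΓ : ∀ g e : Finset (Fin n), e ≠ g → (paths2 G g e : ℝ) ≤ Γ)
    (hspec : ∀ v : Vec n, -(β * D * ∑ g ∈ G, v g ^ 2) ≤ ip v (bop G v)) :
    8 * ∑ g ∈ G, (om D G g ^ 2 + om D G g * (1 + xg D G g)) + lgen (potW D) G / D ≤
      (2 * β + δ - 3 / 4) * potW D G + 160 * potU4 D G + 40 / D * potV D G +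
        (3200 + 30 * Γ) / D ^ 2 * G.card := by
  have hD := h.pos
  unfold potW
  rw [lgen_sum (fun H g => om D H g ^ 2), mul_sum, sum_div, ← sum_add_distrib]
  refine (sum_le_sum fun g hg => h.potW_point hg hΓ0 hΓ).trans ?_
  simp only [sum_add_distrib, sum_sub_distrib, ← mul_sum, sum_const, nsmul_eq_mul]
  have hip : ∑ g ∈ G, omv D G g * bop G (omv D G) g = ip (omv D G) (bop G (omv D G)) := by
    rw [ip]; exact sum_subset (subset_univ G) fun g _ hg => by simp [omv, hg]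
  have hsq : ∑ g ∈ G, omv D G g ^ 2 = ∑ g ∈ G, om D G g ^ 2 :=
    sum_congr rfl fun g hg => by simp [omv, hg]
  have hs := hspec (omv D G)
  rw [hsq] at hs
  rw [hip]
  have b1 : -(2 / D * ip (omv D G) (bop G (omv D G))) ≤ 2 * β * ∑ g ∈ G, om D G g ^ 2 := by
    have := mul_le_mul_of_nonneg_left hs (by positivity : 0 ≤ 2 / D)
    calc -(2 / D * ip (omv D G) (bop G (omv D G))) ≤ 2 / D * (β * D * ∑ g ∈ G, om D G g ^ 2) := by
          linarith
      _ = _ := by field_simp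
  have b2 : 32 / D ^ 2 * ∑ g ∈ G, bq D G g ^ 2 ≤ 160 * potU4 D G := by
    refine (mul_le_mul_of_nonneg_left h.sum_bq_sq_le (by positivity)).trans (le_of_eq ?_)
    field_simp
    ring
  have b3 : 17 / D ^ 2 * ∑ g ∈ G, bq D G g ≤ 40 / D * potV D G := by
    refine (mul_le_mul_of_nonneg_left h.sum_bq_le (by positivity)).trans ?_
    rw [show 17 / D ^ 2 * (17 / 8 * D * potV D G) = 289 / 8 / D * potV D G by field_simp; ring]
    exact mul_le_mul_of_nonneg_right (div_le_div_of_nonneg_right (by norm_num) hD.le)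
      (sum_nonneg fun g _ => sq_nonneg _)
  linarith

/-- The squared deviation of the number of edges. -/
theorem card_drift (M : ℝ) :
    2 * ((G.card : ℝ) - M) * M + lgen (fun H => ((H.card : ℝ) - M) ^ 2) G / D ≤
      -(((G.card : ℝ) - M) ^ 2) + G.card * potV D G + 4 * G.card := by
  have hD := h.pos
  set Z := (G.card : ℝ) - M with hZ
  set X := ∑ g ∈ G, xg D G g with hX
  have e : lgen (fun H => ((H.card : ℝ) - M) ^ 2) G = ((tri G).card : ℝ) * (-6 * Z + 9) := by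
    rw [lgen, ← nsmul_eq_mul, ← sum_const]
    refine sum_congr rfl fun E hE => ?_
    have := congrArg (Nat.cast : ℕ → ℝ) (card_rem hE)
    push_cast at this
    rw [hZ, ← this]
    ring
  have hT : 3 * ((tri G).card : ℝ) = D * (G.card + X) := by
    have h1 := congrArg (Nat.cast : ℕ → ℝ) (sum_deg G)
    push_cast at h1
    rw [← h1, hX, sum_congr rfl fun g _ => deg_eq_xg hD g, ← mul_sum, sum_add_distrib, sum_const,
      nsmul_eq_mul, mul_one]
  have hT' : ((tri G).card : ℝ) * (-6 * Z + 9) / D = ((G.card : ℝ) + X) * (-2 * Z + 3) := by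
    rw [div_eq_iff hD.ne', show ((tri G).card : ℝ) * (-6 * Z + 9) = 3 * ((tri G).card : ℝ) * (-2 * Z + 3)
      by ring, hT]
    ring
  rw [e, hT']
  have h1 : X ^ 2 ≤ (G.card : ℝ) * potV D G := sq_sum_le_card_mul_sum_sq
  have h2 : X ≤ (G.card : ℝ) / 16 := by
    refine (sum_le_card_nsmul G _ (1 / 16) fun g hg => ?_).trans (le_of_eq ?_)
    · exact (le_abs_self _).trans ((h.hx g hg).trans h.hδ)
    · rw [nsmul_eq_mul]; ring
  have h3 : -2 * Z * X ≤ Z ^ 2 + X ^ 2 := by nlinarith [sq_nonneg (Z + X)]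
  have hM : (G.card : ℝ) = Z + M := by rw [hZ]; ring
  nlinarith [(Nat.cast_nonneg _ : (0 : ℝ) ≤ G.card)]

end Flat

end Vale.Agent.P046.Full.One
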