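import Vale.Agent.P046.Full.One.Vec

/-!
P046, the first phase: norms of the iterated predictor, the Duhamel identity for a removed
triangle and the sums over removed triangles.
-/

namespace Vale.Agent.P046.Full.One

open Finset
open Vale.Agent.P046

variable {n : ℕ} {G : Gr n}

/-- Zeroing on the sides of `E`. -/
noncomputable def pv (E : Finset (Fin n)) (v : Vec n) : Vec n := fun f =>
  if f ∈ sides E then 0 else v f

/-- The triangles lost by the surviving edges when `E` is removed. -/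
noncomputable def lvec (G : Gr n) (E : Finset (Fin n)) : Vec n := fun f =>
  if f ∈ sides E then 0 else (lost G f E : ℝ)

/-- The Euclidean norm. -/
noncomputable def nrm (v : Vec n) : ℝ := Real.sqrt (∑ g, v g ^ 2)

/-! ### Norms -/

lemma nrm_nonneg (v : Vec n) : 0 ≤ nrm v := Real.sqrt_nonneg _

lemma nrm_sq (v : Vec n) : nrm v ^ 2 = ∑ g, v g ^ 2 :=
  Real.sq_sqrt (sum_nonneg fun g _ => sq_nonneg _)

lemma nrm_add_le (u v : Vec n) : nrm (u + v) ≤ nrm u + nrm v := by
  rw [nrm, Real.sqrt_le_left (add_nonneg (nrm_nonneg u) (nrm_nonneg v)), add_sq, nrm_sq, nrm_sq]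
  have h := Real.sum_mul_le_sqrt_mul_sqrt univ u v
  simp only [Pi.add_apply, add_sq, sum_add_distrib, mul_assoc, ← mul_sum]
  simp only [nrm] at *
  linarith

lemma nrm_smul (a : ℝ) (v : Vec n) : nrm (a • v) = |a| * nrm v := by
  simp only [nrm, Pi.smul_apply, smul_eq_mul, mul_pow, ← mul_sum]
  rw [Real.sqrt_mul (sq_nonneg a), Real.sqrt_sq_eq_abs]

lemma nrm_abs (v : Vec n) : nrm (fun f => |v f|) = nrm v := by simp [nrm]

lemma nrm_zero : nrm (0 : Vec n) = 0 := by simp [nrm]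

lemma nrm_sum_le {ι : Type*} (s : Finset ι) (f : ι → Vec n) :
    nrm (∑ i ∈ s, f i) ≤ ∑ i ∈ s, nrm (f i) := by
  classical
  induction s using Finset.induction with
  | empty => simp [nrm_zero]
  | insert i s hi ih =>
    rw [sum_insert hi, sum_insert hi]
    exact (nrm_add_le _ _).trans (add_le_add le_rfl ih)

/-! ### Iterates -/

lemma pop_iter_sup_le {Δ c : ℝ} (hΔ : 0 ≤ Δ) (hc : 0 ≤ c) (hd : ∀ g ∈ G, (deg G g : ℝ) ≤ Δ)
    {v : Vec n} {W : ℝ} (hv0 : ∀ g, 0 ≤ v g) (hv : ∀ g, v g ≤ W) :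
    ∀ (i : ℕ) (g : Finset (Fin n)), (pop c G)^[i] v g ≤ (1 + 2 * c * Δ) ^ i * W
  | 0, g => by simpa using hv g
  | i + 1, g => by
    have ih := pop_iter_sup_le hΔ hc hd hv0 hv i
    have h0 := pop_iter_nonneg (G := G) hc hv0 i
    have hW : 0 ≤ (1 + 2 * c * Δ) ^ i * W := (h0 g).trans (ih g)
    rw [Function.iterate_succ_apply', pop]
    have h1 := (le_abs_self _).trans
      (bop_sup_le hW hd hΔ (v := (pop c G)^[i] v) (fun f _ => (abs_of_nonneg (h0 f)).trans_le (ih f)) g)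
    calc (pop c G)^[i] v g + c * bop G ((pop c G)^[i] v) g
        ≤ (1 + 2 * c * Δ) ^ i * W + c * (2 * Δ * ((1 + 2 * c * Δ) ^ i * W)) :=
          add_le_add (ih g) (mul_le_mul_of_nonneg_left h1 hc)
      _ = (1 + 2 * c * Δ) ^ (i + 1) * W := by ring

lemma pop_iter_sum_le {Δ c : ℝ} (hΔ : 0 ≤ Δ) (hc : 0 ≤ c) (hd : ∀ g ∈ G, (deg G g : ℝ) ≤ Δ)
    {v : Vec n} (hv : ∀ g, 0 ≤ v g) :
    ∀ i : ℕ, ∑ g, (pop c G)^[i] v g ≤ (1 + 2 * c * Δ) ^ i * ∑ g, v g
  | 0 => by simp
  | i + 1 => by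
    have ih := pop_iter_sum_le hΔ hc hd hv i
    simp only [Function.iterate_succ_apply']
    simp only [pop, sum_add_distrib, ← mul_sum]
    have h1 := sum_bop_le hΔ hd (pop_iter_nonneg (G := G) hc hv i)
    calc ∑ g, (pop c G)^[i] v g + c * ∑ g, bop G ((pop c G)^[i] v) g
        ≤ (1 + c * (2 * Δ)) * ∑ g, (pop c G)^[i] v g := by
          have := mul_le_mul_of_nonneg_left h1 hc
          linarith
      _ ≤ (1 + c * (2 * Δ)) * ((1 + 2 * c * Δ) ^ i * ∑ g, v g) :=
          mul_le_mul_of_nonneg_left ih (by positivity)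
      _ = (1 + 2 * c * Δ) ^ (i + 1) * ∑ g, v g := by ring

lemma evec_nonneg (g f : Finset (Fin n)) : 0 ≤ evec g f := by
  unfold evec; split_ifs <;> norm_num

lemma sum_evec (g : Finset (Fin n)) : ∑ f, evec g f = 1 := by simp [evec]

/-- The off diagonal entries of the powers of `1 + c B`. -/
lemma pop_iter_entry_le {Δ c : ℝ} (hΔ : 0 ≤ Δ) (hc : 0 ≤ c) (hd : ∀ g ∈ G, (deg G g : ℝ) ≤ Δ)
    (g : Finset (Fin n)) {f : Finset (Fin n)} (hf : f ≠ g) :
    ∀ i : ℕ, (pop c G)^[i] (evec g) f ≤ i * c * (1 + 2 * c * Δ) ^ i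
  | 0 => by simp [evec, hf]
  | i + 1 => by
    rw [Function.iterate_succ_apply', pop]
    have h1 := pop_iter_entry_le hΔ hc hd g hf i
    have h2 : bop G ((pop c G)^[i] (evec g)) f ≤ (1 + 2 * c * Δ) ^ i := by
      refine (bop_le_sum (pop_iter_nonneg hc (evec_nonneg g) i) f).trans ?_
      have := pop_iter_sum_le hΔ hc hd (evec_nonneg g) i
      rwa [sum_evec, mul_one] at this
    have h3 : (1 + 2 * c * Δ) ^ i ≤ (1 + 2 * c * Δ) ^ (i + 1) :=
      pow_le_pow_right₀ (by nlinarith) (by omega)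
    calc (pop c G)^[i] (evec g) f + c * bop G ((pop c G)^[i] (evec g)) f
        ≤ i * c * (1 + 2 * c * Δ) ^ i + c * (1 + 2 * c * Δ) ^ i :=
          add_le_add h1 (mul_le_mul_of_nonneg_left h2 hc)
      _ = (i + 1) * c * (1 + 2 * c * Δ) ^ i := by ring
      _ ≤ (i + 1) * c * (1 + 2 * c * Δ) ^ (i + 1) :=
          mul_le_mul_of_nonneg_left h3 (by positivity)
      _ = _ := by push_cast; rfl

lemma mop_iter_row_le {G' : Gr n} {c c' : ℝ} (hG : G' ⊆ G) (hc' : |c'| ≤ c) (g : Finset (Fin n))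
    (v : Vec n) (i : ℕ) :
    |(mop c' G')^[i] v g| ≤ ip ((pop c G)^[i] (evec g)) (fun f => |v f|) := by
  rw [← pop_iter_symm, ip_evec]
  exact mop_iter_abs_le hG hc' v i g

lemma mop_iter_sup_le {G' : Gr n} {Δ c c' W : ℝ} (hΔ : 0 ≤ Δ) (hd : ∀ g ∈ G, (deg G g : ℝ) ≤ Δ)
    (hG : G' ⊆ G) (hc' : |c'| ≤ c) {v : Vec n} (hv : ∀ f, |v f| ≤ W) (i : ℕ)
    (g : Finset (Fin n)) : |(mop c' G')^[i] v g| ≤ (1 + 2 * c * Δ) ^ i * W :=
  (mop_iter_abs_le hG hc' v i g).trans
    (pop_iter_sup_le hΔ ((abs_nonneg _).trans hc') hd (fun _ => abs_nonneg _) hv i g)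

lemma nrm_mop_le {Δ c : ℝ} (hΔ : 0 ≤ Δ) (hc : 0 ≤ c) (hd : ∀ g ∈ G, (deg G g : ℝ) ≤ Δ)
    (v : Vec n) : nrm (mop c G v) ≤ Real.sqrt (1 + 2 * c * Δ + 4 * c ^ 2 * Δ ^ 2) * nrm v := by
  rw [nrm, nrm, ← Real.sqrt_mul (by positivity)]
  refine Real.sqrt_le_sqrt ?_
  have h1 : -(Δ * ∑ g, v g ^ 2) ≤ ip v (bop G v) := by
    refine le_trans ?_ (ip_bop_self_ge v)
    rw [neg_le_neg_iff, mul_sum]
    exact (sum_le_sum fun g hg => mul_le_mul_of_nonneg_right (hd g hg) (sq_nonneg _)).trans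
      (sum_le_sum_of_subset_of_nonneg (subset_univ _) fun g _ _ => mul_nonneg hΔ (sq_nonneg _))
  have h2 := mul_le_mul_of_nonneg_left (sum_bop_sq_le hΔ hd v) (sq_nonneg c)
  have h3 : ∑ g, mop c G v g ^ 2 =
      ∑ g, v g ^ 2 - 2 * c * ip v (bop G v) + c ^ 2 * ∑ g, bop G v g ^ 2 := by
    simp only [ip, mop, mul_sum, ← sum_sub_distrib, ← sum_add_distrib]
    exact sum_congr rfl fun g _ => by ring
  rw [h3]
  have h4 := mul_le_mul_of_nonneg_left h1 (mul_nonneg zero_le_two hc)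
  linarith

lemma nrm_mop_iter_le {Δ c : ℝ} (hΔ : 0 ≤ Δ) (hc : 0 ≤ c) (hd : ∀ g ∈ G, (deg G g : ℝ) ≤ Δ)
    (v : Vec n) : ∀ i : ℕ,
      nrm ((mop c G)^[i] v) ≤ Real.sqrt (1 + 2 * c * Δ + 4 * c ^ 2 * Δ ^ 2) ^ i * nrm v
  | 0 => by simp
  | i + 1 => by
    rw [Function.iterate_succ_apply', pow_succ', mul_assoc]
    exact (nrm_mop_le hΔ hc hd _).trans
      (mul_le_mul_of_nonneg_left (nrm_mop_iter_le hΔ hc hd v i) (Real.sqrt_nonneg _))

lemma nrm_bop_evec_le {Δ : ℝ} (hΔ : 0 ≤ Δ) (hd : ∀ g ∈ G, (deg G g : ℝ) ≤ Δ)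
    (g : Finset (Fin n)) : nrm (bop G (evec g)) ≤ Real.sqrt (2 * Δ) := by
  refine Real.sqrt_le_sqrt ((sum_bop_evec_sq_le g).trans ?_)
  by_cases hg : g ∈ G
  · linarith [hd g hg]
  · have h0 := bop_eq_zero_of_not_mem hg (fun _ => (1 : ℝ))
    rw [bop_const] at h0
    linarith

/-- The drift of a row from the unit vector. -/
lemma nrm_row_sub_le {Δ c : ℝ} (hΔ : 0 ≤ Δ) (hc : 0 ≤ c) (hd : ∀ g ∈ G, (deg G g : ℝ) ≤ Δ)
    (g : Finset (Fin n)) : ∀ i : ℕ, nrm ((mop c G)^[i] (evec g) - evec g) ≤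
      i * c * Real.sqrt (2 * Δ) * Real.sqrt (1 + 2 * c * Δ + 4 * c ^ 2 * Δ ^ 2) ^ i
  | 0 => by simp [nrm_zero]
  | i + 1 => by
    set s := Real.sqrt (1 + 2 * c * Δ + 4 * c ^ 2 * Δ ^ 2)
    have hs : 1 ≤ s := Real.one_le_sqrt.2 (by nlinarith)
    have e : (mop c G)^[i + 1] (evec g) - evec g =
        mop c G ((mop c G)^[i] (evec g) - evec g) + (-c) • bop G (evec g) := by
      rw [mop_sub, Function.iterate_succ_apply']
      funext f
      simp [mop]
      ring
    rw [e]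
    refine (nrm_add_le _ _).trans ?_
    rw [nrm_smul, abs_neg, abs_of_nonneg hc]
    refine (add_le_add ((nrm_mop_le hΔ hc hd _).trans (mul_le_mul_of_nonneg_left
      (nrm_row_sub_le hΔ hc hd g i) (Real.sqrt_nonneg _)))
      (mul_le_mul_of_nonneg_left (nrm_bop_evec_le hΔ hd g) hc)).trans ?_
    calc s * (i * c * Real.sqrt (2 * Δ) * s ^ i) + c * Real.sqrt (2 * Δ)
        ≤ i * c * Real.sqrt (2 * Δ) * s ^ (i + 1) + c * Real.sqrt (2 * Δ) * s ^ (i + 1) := by
          refine add_le_add (le_of_eq (by ring)) (le_mul_of_one_le_right (by positivity)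
            (one_le_pow₀ hs))
      _ = _ := by push_cast; ring

/-- Changing the parameter of the predictor. -/
lemma mop_iter_perturb {Δ c c' cm : ℝ} (hΔ : 0 ≤ Δ) (hd : ∀ g ∈ G, (deg G g : ℝ) ≤ Δ)
    (hc : |c| ≤ cm) (hc' : |c'| ≤ cm) {v : Vec n} {W : ℝ} (hv : ∀ f, |v f| ≤ W) :
    ∀ (i : ℕ) (g : Finset (Fin n)), |(mop c' G)^[i] v g - (mop c G)^[i] v g| ≤
      i * |c' - c| * (2 * Δ) * (1 + 2 * cm * Δ) ^ i * W
  | 0, g => by simp
  | i + 1, g => by
    have hcm : 0 ≤ cm := (abs_nonneg _).trans hc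
    have hW : 0 ≤ W := (abs_nonneg _).trans (hv g)
    set a := (1 + 2 * cm * Δ) ^ i with ha
    have ha0 : 0 ≤ a := by positivity
    rw [Function.iterate_succ_apply', Function.iterate_succ_apply']
    set u := (mop c' G)^[i] v with hu
    set w := (mop c G)^[i] v with hw
    have ih : ∀ f, |u f - w f| ≤ i * |c' - c| * (2 * Δ) * a * W :=
      fun f => mop_iter_perturb hΔ hd hc hc' hv i f
    have e : mop c' G u g - mop c G w g =
        (u g - w g) - c' * bop G (u - w) g - (c' - c) * bop G w g := by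
      rw [bop_sub]; simp [mop]; ring
    rw [e]
    have h1 : |c' * bop G (u - w) g| ≤ cm * (2 * Δ * (i * |c' - c| * (2 * Δ) * a * W)) := by
      rw [abs_mul]
      exact mul_le_mul hc' (bop_sup_le (by positivity) hd hΔ (fun f _ => ih f) g) (abs_nonneg _) hcm
    have h2 : |(c' - c) * bop G w g| ≤ |c' - c| * (2 * Δ * (a * W)) := by
      rw [abs_mul]
      exact mul_le_mul_of_nonneg_left (bop_sup_le (by positivity) hd hΔ
        (fun f _ => mop_iter_sup_le hΔ hd subset_rfl hc hv i f) g) (abs_nonneg _)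
    refine ((abs_sub _ _).trans (add_le_add ((abs_sub _ _).trans (add_le_add (ih g) h1)) h2)).trans ?_
    have h3 : a ≤ (1 + 2 * cm * Δ) ^ (i + 1) := by
      rw [ha]; exact pow_le_pow_right₀ (by nlinarith) (by omega)
    calc i * |c' - c| * (2 * Δ) * a * W + cm * (2 * Δ * (i * |c' - c| * (2 * Δ) * a * W)) +
          |c' - c| * (2 * Δ * (a * W))
        = i * |c' - c| * (2 * Δ) * (1 + 2 * cm * Δ) ^ (i + 1) * W +
          |c' - c| * (2 * Δ) * a * W := by rw [ha]; ring
      _ ≤ i * |c' - c| * (2 * Δ) * (1 + 2 * cm * Δ) ^ (i + 1) * W +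
          |c' - c| * (2 * Δ) * (1 + 2 * cm * Δ) ^ (i + 1) * W := by gcongr
      _ = _ := by push_cast; ring

/-! ### Removing a triangle -/

lemma pv_apply_not_mem {E f : Finset (Fin n)} (hf : f ∉ sides E) (v : Vec n) :
    pv E v f = v f := if_neg hf

lemma bop_rem_pv (E : Finset (Fin n)) (v : Vec n) : bop (rem G E) (pv E v) = bop (rem G E) v :=
  bop_congr fun f hf => pv_apply_not_mem (mem_sdiff.1 hf).2 v

lemma mop_rem_pv (c : ℝ) (E : Finset (Fin n)) (v : Vec n) :
    mop c (rem G E) (pv E v) = pv E (mop c G v) + c • qop G E v := by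
  funext f
  simp only [mop, bop_rem_pv, Pi.add_apply, Pi.smul_apply, smul_eq_mul]
  by_cases hf : f ∈ sides E
  · simp [pv, qop, hf, bop_rem_side E v hf]
  · rw [pv_apply_not_mem hf, pv_apply_not_mem hf, qop_eq E v hf]
    simp only [mop]
    ring

lemma mop_iter_sum {ι : Type*} (c : ℝ) (i : ℕ) (s : Finset ι) (v : ι → Vec n) :
    (mop c G)^[i] (∑ j ∈ s, v j) = ∑ j ∈ s, (mop c G)^[i] (v j) := by
  classical
  induction s using Finset.induction with
  | empty => simpa using mop_iter_smul (G := G) c 0 i (0 : Vec n)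
  | insert j s hj ih => rw [sum_insert hj, sum_insert hj, mop_iter_add, ih]

/-- Duhamel's formula for the removal of `E`. -/
lemma mop_iter_rem (c : ℝ) (E : Finset (Fin n)) : ∀ (i : ℕ) (v : Vec n),
    (mop c (rem G E))^[i] (pv E v) = pv E ((mop c G)^[i] v) +
      c • ∑ l ∈ range i, (mop c (rem G E))^[l] (qop G E ((mop c G)^[i - 1 - l] v))
  | 0, v => by simp
  | i + 1, v => by
    rw [Function.iterate_succ_apply, mop_rem_pv, mop_iter_add, mop_iter_smul,
      mop_iter_rem c E i (mop c G v), sum_range_succ, smul_add, ← Function.iterate_succ_apply,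
      add_assoc]
    congr 2
    · congr 1
      refine sum_congr rfl fun l hl => ?_
      rw [← Function.iterate_succ_apply, show i + 1 - 1 - l = (i - 1 - l) + 1 by
        have := mem_range.1 hl; omega]
    · simp

lemma lvec_nonneg (E f : Finset (Fin n)) : 0 ≤ lvec G E f := by
  unfold lvec; split_ifs <;> simp

lemma lvec_le_two {E : Finset (Fin n)} (hE : E ∈ tri G) (f : Finset (Fin n)) :
    lvec G E f ≤ 2 := by
  unfold lvec
  split_ifs with hf
  · norm_num
  · exact_mod_cast lost_le_two hE hf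

lemma qop_abs_le' (E : Finset (Fin n)) {v : Vec n} {W : ℝ} (hv : ∀ g ∈ G, |v g| ≤ W)
    (f : Finset (Fin n)) : |qop G E v f| ≤ 2 * W * lvec G E f := by
  by_cases hf : f ∈ sides E
  · simp [qop, lvec, hf]
  · rw [lvec, if_neg hf]; exact qop_abs_le E hv hf

lemma lvec_eq_qop {E : Finset (Fin n)} (f : Finset (Fin n)) :
    qop G E (fun _ => 1) f = 2 * lvec G E f := by
  by_cases hf : f ∈ sides E
  · simp [qop, lvec, hf]
  · rw [qop, lvec, if_neg hf, if_neg hf, lost, card_eq_sum_ones, Nat.cast_sum, mul_sum]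
    refine sum_congr rfl fun F hF => ?_
    obtain ⟨hFt, hfF, -⟩ := mem_filter.1 hF
    rw [sum_const, card_erase_of_mem hfF, card_sides (mem_tri.1 hFt).1]
    simp

/-- The lost triangles are the neighbours of the three edges. -/
lemma ip_lvec {E : Finset (Fin n)} (hE : E ∈ tri G) (u : Vec n) :
    ip u (lvec G E) = ∑ e ∈ sides E, bop G u e - 2 * ∑ e ∈ sides E, u e := by
  have hlhs : ip u (lvec G E) = ∑ F ∈ tri G,
      if Disjoint (sides F) (sides E) then 0 else ∑ f ∈ sides F, (if f ∈ sides E then 0 else u f) := by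
    have h1 : ∀ f, u f * lvec G E f = ∑ F ∈ tri G, if f ∈ sides F then
        (if Disjoint (sides F) (sides E) then 0 else (if f ∈ sides E then 0 else u f)) else 0 := by
      intro f
      by_cases hf : f ∈ sides E
      · simp [lvec, hf]
      · rw [lvec, if_neg hf, lost, card_filter, Nat.cast_sum, mul_sum]
        refine sum_congr rfl fun F _ => ?_
        by_cases h1 : f ∈ sides F <;> by_cases h2 : Disjoint (sides F) (sides E) <;>
          simp [h1, h2, hf]
    simp only [ip, h1]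
    rw [sum_comm]
    refine sum_congr rfl fun F _ => ?_
    rw [sum_ite_mem, univ_inter]
    by_cases h : Disjoint (sides F) (sides E) <;> simp [h]
  have hrhs : ∑ e ∈ sides E, bop G u e = ∑ F ∈ tri G, ∑ e ∈ sides E ∩ sides F,
      ∑ f ∈ (sides F).erase e, u f := by
    simp only [bop, sum_filter]
    rw [sum_comm]
    exact sum_congr rfl fun F _ => by rw [sum_ite_mem]
  have hsplit : ∀ F ∈ tri G, ∑ e ∈ sides E ∩ sides F, ∑ f ∈ (sides F).erase e, u f =
      (if Disjoint (sides F) (sides E) then 0 else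
        ∑ f ∈ sides F, (if f ∈ sides E then 0 else u f)) +
      (if F = E then 2 * ∑ e ∈ sides E, u e else 0) := by
    intro F hF
    by_cases hFE : F = E
    · subst hFE
      have hne : ¬Disjoint (sides F) (sides F) := by
        rw [disjoint_self]; exact (sides_nonempty (mem_tri.1 hE).1).ne_empty
      rw [inter_self, if_neg hne, if_pos rfl]
      rw [sum_congr rfl (fun f hf => if_pos hf : ∀ f ∈ sides F, _ = (0 : ℝ)), sum_const_zero,
        zero_add]
      rw [sum_congr rfl (fun e he => sum_erase_eq_sub he), sum_sub_distrib, sum_const,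
        card_sides (mem_tri.1 hE).1]
      simp
      ring
    · rw [if_neg hFE, add_zero]
      by_cases hdis : Disjoint (sides F) (sides E)
      · rw [if_pos hdis, inter_comm, disjoint_iff_inter_eq_empty.1 hdis, sum_empty]
      · rw [if_neg hdis]
        obtain ⟨k, hkF, hkE⟩ := not_disjoint_iff.1 hdis
        have hI : sides E ∩ sides F = {k} := by
          refine eq_singleton_iff_unique_mem.2 ⟨mem_inter.2 ⟨hkE, hkF⟩, fun e he => ?_⟩
          obtain ⟨h1, h2⟩ := mem_inter.1 he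
          exact shared_unique (mem_tri.1 hF).1 (mem_tri.1 hE).1 hFE h2 h1 hkF hkE
        rw [hI, sum_singleton, ← add_sum_erase _ (fun f => if f ∈ sides E then 0 else u f) hkF,
          if_pos hkE, zero_add]
        refine sum_congr rfl fun f hf => ?_
        have hfE : f ∉ sides E := fun h => (mem_erase.1 hf).1
          (mem_singleton.1 (hI ▸ mem_inter.2 ⟨h, (mem_erase.1 hf).2⟩))
        rw [if_neg hfE]
  rw [hrhs, sum_congr rfl hsplit, sum_add_distrib, sum_ite_eq', if_pos hE, hlhs]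
  ring

/-- The mean square of a linear functional of the lost triangles. -/
lemma sum_ip_lvec_sq {Δ : ℝ} (hd : ∀ g ∈ G, (deg G g : ℝ) ≤ Δ) (hΔ : 0 ≤ Δ) (u : Vec n) :
    ∑ E ∈ tri G, ip u (lvec G E) ^ 2 ≤ 6 * Δ * (nrm (bop G u) ^ 2 + 4 * nrm u ^ 2) := by
  have h1 : ∀ E ∈ tri G, ip u (lvec G E) ^ 2 ≤
      ∑ e ∈ sides E, 6 * (bop G u e ^ 2 + 4 * u e ^ 2) := by
    intro E hE
    rw [ip_lvec hE, mul_sum, ← sum_sub_distrib]
    refine sq_sum_le_card_mul_sum_sq.trans ?_
    rw [card_sides (mem_tri.1 hE).1, mul_sum]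
    refine sum_le_sum fun e _ => ?_
    push_cast
    nlinarith [sq_nonneg (bop G u e + 2 * u e)]
  refine (sum_le_sum h1).trans ?_
  rw [sum_tri_sides G (fun e => 6 * (bop G u e ^ 2 + 4 * u e ^ 2)), nrm_sq, nrm_sq, mul_sum,
    ← sum_add_distrib, mul_sum]
  refine (sum_le_sum fun e he => ?_).trans
    (sum_le_sum_of_subset_of_nonneg (subset_univ G) fun e _ _ => by positivity)
  rw [nsmul_eq_mul]
  have := mul_le_mul_of_nonneg_right (hd e he)
    (by positivity : (0 : ℝ) ≤ 6 * (bop G u e ^ 2 + 4 * u e ^ 2))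
  linarith

/-- The sum over the removed triangles that avoid `f`. -/
lemma sum_qop (v : Vec n) (f : Finset (Fin n)) :
    ∑ E ∈ tri G, qop G E v f =
      ∑ F ∈ (tri G).filter (fun F => f ∈ sides F),
        ((sdeg G F : ℝ) - deg G f - 2) * ∑ h ∈ (sides F).erase f, v h := by
  simp only [qop, sum_filter]
  have h1 : ∀ E ∈ tri G, (if f ∈ sides E then 0 else ∑ F ∈ tri G,
      if f ∈ sides F ∧ ¬Disjoint (sides F) (sides E) then ∑ h ∈ (sides F).erase f, v h else 0) =
      ∑ F ∈ tri G, if f ∈ sides F then (if f ∉ sides E ∧ ¬Disjoint (sides F) (sides E) then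
        ∑ h ∈ (sides F).erase f, v h else 0) else 0 := by
    intro E _
    by_cases hf : f ∈ sides E
    · simp [hf]
    · simp [hf, ite_and]
  rw [sum_congr rfl h1, sum_comm]
  refine sum_congr rfl fun F hF => ?_
  by_cases hfF : f ∈ sides F
  · simp only [hfF, if_true]
    rw [← sum_filter, sum_const, nsmul_eq_mul]
    congr 1
    have hFc := (mem_tri.1 hF).1
    have hset : (tri G).filter (fun E => f ∉ sides E ∧ ¬Disjoint (sides F) (sides E)) =
        ((sides F).erase f).biUnion (fun e => ((tri G).filter (fun E => e ∈ sides E)).erase F) := by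
      ext E
      simp only [mem_filter, mem_biUnion, mem_erase, not_disjoint_iff]
      constructor
      · rintro ⟨hE, hgE, e, heF, heE⟩
        exact ⟨e, ⟨fun h => hgE (h ▸ heE), heF⟩, fun h => hgE (h ▸ hfF), hE, heE⟩
      · rintro ⟨e, ⟨hef, heF⟩, hEF, hE, heE⟩
        exact ⟨hE, fun h => hef (shared_unique (mem_tri.1 hE).1 hFc hEF heE heF h hfF),
          e, heF, heE⟩
    rw [hset, card_biUnion]
    · have h3 : ∀ e ∈ (sides F).erase f,
          (((tri G).filter (fun E => e ∈ sides E)).erase F).card + 1 = deg G e :=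
        fun e he => card_erase_add_one (mem_filter.2 ⟨hF, (mem_erase.1 he).2⟩)
      have h4 : ∑ e ∈ (sides F).erase f,
          ((((tri G).filter (fun E => e ∈ sides E)).erase F).card + 1) + deg G f = sdeg G F := by
        rw [sum_congr rfl h3, sdeg, sum_erase_add _ _ hfF]
      rw [sum_add_distrib, sum_const, card_erase_of_mem hfF, card_sides hFc] at h4
      simp only [Nat.add_one_sub_one, smul_eq_mul, mul_one] at h4
      have h5 := congrArg (Nat.cast : ℕ → ℝ) h4
      push_cast at h5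
      push_cast
      linarith
    · intro e he e' he' hne
      simp only [Function.onFun, disjoint_left]
      intro E h1 h2
      simp only [mem_erase, mem_filter] at h1 h2
      exact hne (shared_unique (mem_tri.1 h1.2.1).1 hFc h1.1 h1.2.2 (mem_erase.1 he).2 h2.2.2
        (mem_erase.1 he').2)
  · simp [hfF]

lemma sum_lvec_edges_le {Δ : ℝ} (hd : ∀ g ∈ G, (deg G g : ℝ) ≤ Δ) {E : Finset (Fin n)}
    (hE : E ∈ tri G) : ∑ f, lvec G E f ≤ 6 * Δ := by
  have h := ip_lvec hE (fun _ => (1 : ℝ))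
  simp only [ip, one_mul] at h
  rw [h, sum_const, card_sides (mem_tri.1 hE).1]
  refine (sub_le_self _ (by simp)).trans ((sum_le_sum (g := fun _ => 2 * Δ) fun e he => ?_).trans ?_)
  · rw [bop_const]; linarith [hd e ((mem_tri.1 hE).2 he)]
  · rw [sum_const, card_sides (mem_tri.1 hE).1, nsmul_eq_mul]
    exact le_of_eq (by push_cast; ring)

lemma sum_tri_lvec_le {Δ : ℝ} (hd : ∀ g ∈ G, (deg G g : ℝ) ≤ Δ) (hΔ : 0 ≤ Δ)
    (f : Finset (Fin n)) : ∑ E ∈ tri G, lvec G E f ≤ 2 * Δ ^ 2 := by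
  have h := sum_qop (G := G) (fun _ => (1 : ℝ)) f
  simp only [lvec_eq_qop, ← mul_sum] at h
  have h2 : ∑ F ∈ (tri G).filter (fun F => f ∈ sides F),
      ((sdeg G F : ℝ) - deg G f - 2) * ∑ _h ∈ (sides F).erase f, (1 : ℝ) ≤
      (deg G f : ℝ) * (4 * Δ) := by
    rw [show (deg G f : ℝ) * (4 * Δ) =
      ((tri G).filter (fun F => f ∈ sides F)).card • (4 * Δ) from (nsmul_eq_mul _ _).symm]
    refine sum_le_card_nsmul _ _ _ fun F hF => ?_
    obtain ⟨hFt, hfF⟩ := mem_filter.1 hF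
    rw [sum_const, card_erase_of_mem hfF, card_sides (mem_tri.1 hFt).1]
    have h3 : (sdeg G F : ℝ) - deg G f ≤ 2 * Δ := by
      rw [sdeg, Nat.cast_sum, ← sum_erase_eq_sub hfF]
      refine (sum_le_card_nsmul _ _ Δ fun e he =>
        hd e ((mem_tri.1 hFt).2 (mem_erase.1 he).2)).trans_eq ?_
      rw [card_erase_of_mem hfF, card_sides (mem_tri.1 hFt).1, nsmul_eq_mul]
      norm_num
    simp
    nlinarith
  by_cases hf : f ∈ G
  · have h4 := mul_le_mul_of_nonneg_right (hd f hf) (by linarith : (0:ℝ) ≤ 4 * Δ)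
    nlinarith
  · have h0 := bop_eq_zero_of_not_mem hf (fun _ => (1 : ℝ))
    rw [bop_const] at h0
    have h1 : (deg G f : ℝ) = 0 := by linarith
    rw [h1, zero_mul] at h2
    rw [h1] at h
    nlinarith

end Vale.Agent.P046.Full.One
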