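import Vale.Agent.P046.Full.One.PredStep

/-!
P046, the first phase: the mean change of a prediction in one step of the lazy chain. The linear
terms cancel exactly.
-/

namespace Vale.Agent.P046.Full.One

open Finset
open Vale.Agent.P046

variable {n : ℕ} {G : Gr n}

/-- Changing the parameter of the predictor, to second order. -/
lemma mop_iter_perturb2 {Δ c c' cm : ℝ} (hΔ : 0 ≤ Δ) (hd : ∀ g ∈ G, (deg G g : ℝ) ≤ Δ)
    (hc : |c| ≤ cm) (hc' : |c'| ≤ cm) {v : Vec n} {W : ℝ} (hv : ∀ f, |v f| ≤ W) :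
    ∀ (i : ℕ) (g : Finset (Fin n)),
      |(mop c' G)^[i] v g - (mop c G)^[i] v g + i * (c' - c) * bop G ((mop c G)^[i - 1] v) g| ≤
        (i : ℝ) ^ 2 * (|c' - c| * (2 * Δ)) ^ 2 * (1 + 2 * cm * Δ) ^ i * W
  | 0, g => by simp
  | i + 1, g => by
    have hcm : 0 ≤ cm := (abs_nonneg _).trans hc
    have hW : 0 ≤ W := (abs_nonneg _).trans (hv g)
    set a := 1 + 2 * cm * Δ with ha
    have ha1 : 1 ≤ a := le_add_of_nonneg_right (by positivity)
    set u := (mop c' G)^[i] v with hu
    set w := (mop c G)^[i] v with hw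
    set e : Vec n := fun f => u f - w f + i * (c' - c) * bop G ((mop c G)^[i - 1] v) f with he
    have ih : ∀ f, |e f| ≤ (i : ℝ) ^ 2 * (|c' - c| * (2 * Δ)) ^ 2 * a ^ i * W :=
      fun f => mop_iter_perturb2 hΔ hd hc hc' hv i f
    have hB : (i : ℝ) * (c' - c) * bop G w g =
        (i : ℝ) * (c' - c) * (bop G ((mop c G)^[i - 1] v) g -
          c * bop G (bop G ((mop c G)^[i - 1] v)) g) := by
      cases i with
      | zero => simp
      | succ j =>
        rw [hw, Function.iterate_succ_apply', Nat.add_sub_cancel]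
        congr 1
        have e' : mop c G ((mop c G)^[j] v) =
            (mop c G)^[j] v - c • bop G ((mop c G)^[j] v) := by funext f; simp [mop]
        rw [e', bop_sub, bop_smul]
        simp
    have key : (mop c' G)^[i + 1] v g - (mop c G)^[i + 1] v g +
        ((i + 1 : ℕ) : ℝ) * (c' - c) * bop G ((mop c G)^[i + 1 - 1] v) g =
          mop c G e g - (c' - c) * bop G (u - w) g := by
      have h1 : bop G e g = bop G (u - w) g +
          i * (c' - c) * bop G (bop G ((mop c G)^[i - 1] v)) g := by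
        have : e = (u - w) + ((i : ℝ) * (c' - c)) • bop G ((mop c G)^[i - 1] v) := by
          funext f; simp [he]
        rw [this, bop_add, bop_smul]
        simp
      have h2 : bop G (u - w) g = bop G u g - bop G w g := by rw [bop_sub]; rfl
      rw [Function.iterate_succ_apply', Function.iterate_succ_apply', Nat.add_sub_cancel, ← hu,
        ← hw]
      simp only [mop]
      rw [h1]
      simp only [he]
      push_cast
      linear_combination hB + (c' - c + c) * h2
    rw [key]
    have hm : |mop c G e g| ≤ a * ((i : ℝ) ^ 2 * (|c' - c| * (2 * Δ)) ^ 2 * a ^ i * W) := by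
      simpa using mop_iter_sup_le hΔ hd subset_rfl hc ih 1 g
    have hd2 : |(c' - c) * bop G (u - w) g| ≤
        |c' - c| * (2 * Δ * (i * |c' - c| * (2 * Δ) * a ^ i * W)) := by
      rw [abs_mul]
      exact mul_le_mul_of_nonneg_left (bop_sup_le (by positivity) hd hΔ
        (fun f _ => mop_iter_perturb hΔ hd hc hc' hv i f) g) (abs_nonneg _)
    refine ((abs_sub _ _).trans (add_le_add hm hd2)).trans ?_
    have h3 : a ^ i ≤ a ^ (i + 1) := pow_le_pow_right₀ ha1 (by omega)
    calc a * ((i : ℝ) ^ 2 * (|c' - c| * (2 * Δ)) ^ 2 * a ^ i * W) +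
          |c' - c| * (2 * Δ * (i * |c' - c| * (2 * Δ) * a ^ i * W))
        = (i : ℝ) ^ 2 * (|c' - c| * (2 * Δ)) ^ 2 * a ^ (i + 1) * W +
          i * (|c' - c| * (2 * Δ)) ^ 2 * a ^ i * W := by ring
      _ ≤ (i : ℝ) ^ 2 * (|c' - c| * (2 * Δ)) ^ 2 * a ^ (i + 1) * W +
          i * (|c' - c| * (2 * Δ)) ^ 2 * a ^ (i + 1) * W := by gcongr
      _ = ((i : ℝ) ^ 2 + i) * ((|c' - c| * (2 * Δ)) ^ 2 * a ^ (i + 1) * W) := by ring
      _ ≤ (((i + 1 : ℕ) : ℝ) ^ 2) * ((|c' - c| * (2 * Δ)) ^ 2 * a ^ (i + 1) * W) := by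
          refine mul_le_mul_of_nonneg_right ?_ (by positivity)
          push_cast
          nlinarith
      _ = _ := by ring

/-- The triangles lost over all removals. -/
lemma sum_lvec_eq (D : ℝ) (hD : D ≠ 0) :
    ∑ E ∈ tri G, lvec G E =
      D • bop G (fun _ => 1) + D • bop G (xv D G) - bop G (fun _ => 1) := by
  funext f
  have h := sum_qop (G := G) (fun _ => (1 : ℝ)) f
  simp only [lvec_eq_qop, ← mul_sum] at h
  have h2 : ∀ F ∈ (tri G).filter (fun F => f ∈ sides F),
      ((sdeg G F : ℝ) - deg G f - 2) * ∑ _h ∈ (sides F).erase f, (1 : ℝ) =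
        2 * ∑ e ∈ (sides F).erase f, (deg G e : ℝ) - 4 := by
    intro F hF
    obtain ⟨hFt, hfF⟩ := mem_filter.1 hF
    rw [sum_erase_eq_sub (f := fun e => (deg G e : ℝ)) hfF, sdeg, Nat.cast_sum, sum_const,
      card_erase_of_mem hfF, card_sides (mem_tri.1 hFt).1]
    simp
    ring
  rw [sum_congr rfl h2, sum_sub_distrib, sum_const, nsmul_eq_mul, ← mul_sum] at h
  have h3 : bop G (fun e => (deg G e : ℝ)) f =
      D * bop G (fun _ => 1) f + D * bop G (xv D G) f := by
    rw [bop_congr (u := fun e => (deg G e : ℝ))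
      (v := D • (fun _ => (1 : ℝ)) + D • xv D G) (fun e he => by
        simp [xv, he, xg]; field_simp; ring), bop_add, bop_smul, bop_smul]
    rfl
  simp only [bop] at h3
  simp only [Finset.sum_apply, Pi.add_apply, Pi.sub_apply, Pi.smul_apply, smul_eq_mul, bop_const]
    at h ⊢
  have h5 : ∑ _E ∈ (tri G).filter (fun E => f ∈ sides E), ∑ _h ∈ (sides _E).erase f, (1 : ℝ) =
      2 * deg G f := by
    have := bop_const (G := G) 1 f
    simp only [bop, mul_one] at this
    exact this
  rw [h5] at h3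
  simp only [bop]
  have h6 : (((tri G).filter (fun E => f ∈ sides E)).card : ℝ) = deg G f := rfl
  rw [h6] at h
  linarith

namespace Ctx

variable {D q κ : ℝ} {r : ℕ} {g : Finset (Fin n)} (h : Ctx G D q κ r g)

include h

lemma deg_le_all (f : Finset (Fin n)) : (deg G f : ℝ) ≤ dB D κ := by
  by_cases hf : f ∈ G
  · exact h.deg_le hf
  · have h0 := bop_eq_zero_of_not_mem hf (fun _ => (1 : ℝ))
    rw [bop_const] at h0
    linarith [h.dB_pos]

lemma sdeg_dev {F f : Finset (Fin n)} (hF : F ∈ tri G) (hf : f ∈ sides F) :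
    |(sdeg G F : ℝ) - deg G f - 2 - 2 * D| ≤ 2 * (κ / Real.sqrt D) * D + 2 := by
  rw [sdeg, Nat.cast_sum, ← sum_erase_eq_sub hf]
  have h1 : ∀ e ∈ (sides F).erase f, |(deg G e : ℝ) - D| ≤ κ / Real.sqrt D * D := by
    intro e he
    have heG := (mem_tri.1 hF).2 (mem_erase.1 he).2
    have := h.abs_xv e
    rw [xv, if_pos heG, xg, div_sub_one h.D_pos.ne', abs_div, abs_of_pos h.D_pos,
      div_le_iff₀ h.D_pos] at this
    exact this
  have h2 : ∑ e ∈ (sides F).erase f, ((deg G e : ℝ) - D) =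
      ∑ e ∈ (sides F).erase f, (deg G e : ℝ) - 2 * D := by
    rw [sum_sub_distrib, sum_const, card_erase_of_mem hf, card_sides (mem_tri.1 hF).1]
    simp
  have h3 := (abs_sum_le_sum_abs _ _).trans (sum_le_card_nsmul _ _ _ h1)
  rw [h2, card_erase_of_mem hf, card_sides (mem_tri.1 hF).1, nsmul_eq_mul] at h3
  rw [abs_le] at h3 ⊢
  constructor <;> push_cast at h3 <;> linarith [h3.1, h3.2]

lemma sum_qop_dev {v : Vec n} {W : ℝ} (hv : ∀ e ∈ G, |v e| ≤ W) (hW : 0 ≤ W)
    (f : Finset (Fin n)) :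
    |(∑ E ∈ tri G, qop G E v) f - 2 * D * bop G v f| ≤
      dB D κ * ((2 * (κ / Real.sqrt D) * D + 2) * (2 * W)) := by
  rw [Finset.sum_apply, sum_qop, bop, mul_sum, ← sum_sub_distrib]
  refine ((abs_sum_le_sum_abs _ _).trans (sum_le_card_nsmul _ _
    ((2 * (κ / Real.sqrt D) * D + 2) * (2 * W)) fun F hF => ?_)).trans ?_
  · obtain ⟨hFt, hfF⟩ := mem_filter.1 hF
    rw [← sub_mul, abs_mul]
    refine mul_le_mul (h.sdeg_dev hFt hfF) ?_ (abs_nonneg _)
      ((abs_nonneg _).trans (h.sdeg_dev hFt hfF))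
    refine ((abs_sum_le_sum_abs _ _).trans (sum_le_card_nsmul _ _ W fun e he =>
      hv e ((mem_tri.1 hFt).2 (mem_erase.1 he).2))).trans_eq ?_
    rw [card_erase_of_mem hfF, card_sides (mem_tri.1 hFt).1]
    simp
  · rw [nsmul_eq_mul]
    refine mul_le_mul_of_nonneg_right (h.deg_le_all f) ?_
    have := h.dl_nonneg
    have := h.D_pos
    positivity

/-- The removals that destroy `g` barely reach it. -/
lemma through_le {E : Finset (Fin n)} (hE : E ∈ tri G) (hgE : g ∈ sides E) {y : Vec n} {W : ℝ}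
    (hy : ∀ f, |y f| ≤ W * lvec G E f) (hW : 0 ≤ W) (i : ℕ) :
    |(mop (q / D) G)^[i] y g| ≤
      W * (i * (q * (1 + 2 * q) / D) * aB D q κ ^ i) * (6 * dB D κ) := by
  refine (mop_iter_row_le subset_rfl h.c_le g y i).trans ?_
  have h0 : 0 ≤ (i : ℝ) * (q * (1 + 2 * q) / D) * aB D q κ ^ i := by
    have := h.q_pos; have := h.D_pos
    exact mul_nonneg (by positivity) (pow_nonneg (zero_le_one.trans h.aB_ge_one) i)
  refine (sum_le_sum (g := fun f => W * ((i : ℝ) * (q * (1 + 2 * q) / D) * aB D q κ ^ i) *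
    lvec G E f) fun f _ => ?_).trans ?_
  · change rowP G D q g i f * |y f| ≤ _
    by_cases hf : f = g
    · have hl : lvec G E f = 0 := by simp [lvec, hf, hgE]
      have h1 := hy f
      rw [hl, mul_zero] at h1
      rw [le_antisymm h1 (abs_nonneg _), hl, mul_zero, mul_zero]
    · calc rowP G D q g i f * |y f|
          ≤ ((i : ℝ) * (q * (1 + 2 * q) / D) * aB D q κ ^ i) * (W * lvec G E f) :=
            mul_le_mul (h.rowP_entry_le hf i) (hy f) (abs_nonneg _) h0
        _ = _ := by ring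
  · rw [← mul_sum]
    exact mul_le_mul_of_nonneg_left (sum_lvec_edges_le (fun _ hf => h.deg_le hf) hE)
      (mul_nonneg hW h0)

omit h in
lemma sum_avoid (f : Finset (Fin n) → ℝ) :
    ∑ E ∈ (tri G).filter (fun E => g ∉ sides E), f E =
      ∑ E ∈ tri G, f E - ∑ E ∈ (tri G).filter (fun E => g ∈ sides E), f E := by
  rw [← sum_filter_add_sum_filter_not (tri G) (fun E => g ∈ sides E) f]
  ring

/-- The main part from the change of the operator, averaged. -/
lemma sum_jumpA_dev :
    |∑ E ∈ (tri G).filter (fun E => g ∉ sides E), jumpA G D q r g E -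
      q / D * (2 * D) * (r * bop G ((mop (q / D) G)^[r - 1] (xv D G)) g)| ≤
    (24 * κ ^ 2 + 12 + 60 * (r * q)) * (1 + 2 * q) ^ r := by
  have hq := h.q_pos
  have hD := h.D_pos
  have hsD : 0 < Real.sqrt D := Real.sqrt_pos.2 hD
  have hk := h.one_le_kap
  have ha0 : 0 ≤ aB D q κ := zero_le_one.trans h.aB_ge_one
  set c := q / D with hc
  set M := mop c G
  set x := xv D G
  set K1 := dB D κ * ((2 * (κ / Real.sqrt D) * D + 2) * 2) +
    dB D κ * (2 * (r * (q * (1 + 2 * q) / D)) * (6 * dB D κ)) with hK1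
  have hterm : ∀ l ∈ range r,
      |∑ E ∈ (tri G).filter (fun E => g ∉ sides E), M^[l] (qop G E (M^[r - 1 - l] x)) g -
        2 * D * bop G (M^[r - 1] x) g| ≤ aB D q κ ^ l * wB D q κ (r - 1 - l) * K1 := by
    intro l hl
    have hlr := mem_range.1 hl
    set w := M^[r - 1 - l] x with hw
    have hWv : ∀ e ∈ G, |w e| ≤ wB D q κ (r - 1 - l) := fun e he =>
      h.pred_le (r - 1 - l) (by omega) e he
    have hmain : M^[l] ((2 * D) • bop G w) g = 2 * D * bop G (M^[r - 1] x) g := by
      rw [mop_iter_smul, mop_iter_bop, hw, ← Function.iterate_add_apply]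
      simp only [Pi.smul_apply, smul_eq_mul, show l + (r - 1 - l) = r - 1 by omega, M]
    have hR : |M^[l] (∑ E ∈ tri G, qop G E w - (2 * D) • bop G w) g| ≤
        aB D q κ ^ l * (dB D κ * ((2 * (κ / Real.sqrt D) * D + 2) *
          (2 * wB D q κ (r - 1 - l)))) := by
      refine h.mop_sup h.c_le subset_rfl (fun f => ?_) l g
      simpa using h.sum_qop_dev hWv (h.wB_nonneg _) f
    have hT : |∑ E ∈ (tri G).filter (fun E => g ∈ sides E), M^[l] (qop G E w) g| ≤
        dB D κ * (2 * wB D q κ (r - 1 - l) *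
          (l * (q * (1 + 2 * q) / D) * aB D q κ ^ l) * (6 * dB D κ)) := by
      refine ((abs_sum_le_sum_abs _ _).trans (sum_le_card_nsmul _ _ (2 * wB D q κ (r - 1 - l) *
          (l * (q * (1 + 2 * q) / D) * aB D q κ ^ l) * (6 * dB D κ)) fun E hE => ?_)).trans ?_
      · obtain ⟨hEt, hgE⟩ := mem_filter.1 hE
        exact h.through_le hEt hgE (fun f => qop_abs_le' E hWv f)
          (mul_nonneg zero_le_two (h.wB_nonneg _)) l
      · rw [nsmul_eq_mul]
        refine mul_le_mul_of_nonneg_right (h.deg_le_all g) ?_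
        have := h.wB_nonneg (r - 1 - l); have := h.dB_pos
        positivity
    have e1 : ∑ E ∈ tri G, M^[l] (qop G E w) g - 2 * D * bop G (M^[r - 1] x) g =
        M^[l] (∑ E ∈ tri G, qop G E w - (2 * D) • bop G w) g := by
      rw [← hmain, mop_iter_sub, mop_iter_sum, Pi.sub_apply, Finset.sum_apply]
    rw [sum_avoid (g := g) (fun E => M^[l] (qop G E w) g), sub_right_comm, e1]
    refine ((abs_sub _ _).trans (add_le_add hR hT)).trans ?_
    have hl' : (l : ℝ) ≤ r := by exact_mod_cast hlr.le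
    have h1 : (l : ℝ) * (q * (1 + 2 * q) / D) ≤ r * (q * (1 + 2 * q) / D) :=
      mul_le_mul_of_nonneg_right hl' (by positivity)
    have h2 : 0 ≤ aB D q κ ^ l * wB D q κ (r - 1 - l) * (dB D κ * 2 * (6 * dB D κ)) := by
      have := h.dB_pos; have := h.wB_nonneg (r - 1 - l); positivity
    rw [hK1]
    linarith [mul_le_mul_of_nonneg_left h1 h2]
  have e2 : ∑ E ∈ (tri G).filter (fun E => g ∉ sides E), jumpA G D q r g E -
      c * (2 * D) * (r * bop G (M^[r - 1] x) g) =
      c * ∑ l ∈ range r, (∑ E ∈ (tri G).filter (fun E => g ∉ sides E),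
        M^[l] (qop G E (M^[r - 1 - l] x)) g - 2 * D * bop G (M^[r - 1] x) g) := by
    simp only [jumpA, ← hc, sum_sub_distrib, sum_const, card_range, nsmul_eq_mul, ← mul_sum, M, x]
    rw [sum_comm]
    ring
  rw [e2, abs_mul, abs_of_pos h.c_pos]
  refine (mul_le_mul_of_nonneg_left ((abs_sum_le_sum_abs _ _).trans (sum_le_sum hterm))
    h.c_pos.le).trans ?_
  rw [← sum_mul]
  have hd0 := h.dl_nonneg
  have hK1' : K1 ≤ D * (6 * (κ / Real.sqrt D) * D + 6 + 28 * (r * q)) := by
    have hd := h.dB_le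
    have hd1 := h.dB_pos
    rw [hK1]
    calc dB D κ * ((2 * (κ / Real.sqrt D) * D + 2) * 2) +
          dB D κ * (2 * (r * (q * (1 + 2 * q) / D)) * (6 * dB D κ))
        ≤ 3 / 2 * D * ((2 * (κ / Real.sqrt D) * D + 2) * 2) +
          3 / 2 * D * (2 * (r * (q * (1 + 2 * q) / D)) * (6 * (3 / 2 * D))) := by gcongr
      _ = D * (6 * (κ / Real.sqrt D) * D + 6 + 27 * (1 + 2 * q) * (r * q)) := by field_simp; ring
      _ ≤ _ := by
          gcongr
          linarith [h.q_le']
  have hK10 : 0 ≤ K1 := by have := h.dB_pos; rw [hK1]; positivity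
  refine (mul_le_mul_of_nonneg_left (mul_le_mul h.sum_aw_le hK1' hK10
    (by positivity)) h.c_pos.le).trans ?_
  have e3 : c * (4 * κ * (1 + 2 * q) ^ r / (q * Real.sqrt D) *
      (D * (6 * (κ / Real.sqrt D) * D + 6 + 28 * (r * q)))) =
      (24 * κ ^ 2 + (24 + 112 * (r * q)) * (κ / Real.sqrt D)) * (1 + 2 * q) ^ r := by
    have hs : Real.sqrt D * Real.sqrt D = D := Real.mul_self_sqrt hD.le
    rw [hc]
    field_simp
    linear_combination (-24 * κ) * hs
  rw [e3]
  refine mul_le_mul_of_nonneg_right ?_ (by positivity)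
  have hrq : 0 ≤ (r : ℝ) * q := by positivity
  have := mul_le_mul_of_nonneg_left h.dl_le (by positivity : (0 : ℝ) ≤ 24 + 112 * (r * q))
  linarith

/-- The main part from the lost triangles, averaged. -/
lemma sum_jumpC_dev :
    |∑ E ∈ (tri G).filter (fun E => g ∉ sides E), jumpC G D q r g E -
      ((mop (q / D) G)^[r] (bop G (fun _ => 1)) g +
        bop G ((mop (q / D) G)^[r] (xv D G)) g)| ≤
    (6 + 28 * (r * q)) * (1 + 2 * q) ^ r := by
  have hq := h.q_pos
  have hD := h.D_pos
  set M := mop (q / D) G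
  have har := h.aB_pow_le le_rfl
  have hall : ∑ E ∈ tri G, jumpC G D q r g E = M^[r] (bop G (fun _ => 1)) g +
      bop G (M^[r] (xv D G)) g - M^[r] (bop G (fun _ => 1)) g / D := by
    simp only [jumpC, ← sum_div]
    rw [← Finset.sum_apply, ← mop_iter_sum, sum_lvec_eq D hD.ne', mop_iter_sub, mop_iter_add,
      mop_iter_smul, mop_iter_smul, mop_iter_bop (q / D) r (xv D G)]
    simp only [Pi.sub_apply, Pi.add_apply, Pi.smul_apply, smul_eq_mul, M]
    field_simp
  rw [sum_avoid (g := g), hall]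
  have e : ∀ a b u t : ℝ, a + b - u - t - (a + b) = -(u + t) := by intros; ring
  rw [e, abs_neg]
  have h1 : |M^[r] (bop G (fun _ => 1)) g / D| ≤ 6 * (1 + 2 * q) ^ r := by
    rw [abs_div, abs_of_pos hD, div_le_iff₀ hD]
    refine (h.mop_sup h.c_le subset_rfl (W := 2 * dB D κ) (fun f => ?_) r g).trans ?_
    · rw [bop_const, abs_of_nonneg (by positivity)]
      linarith [h.deg_le_all f]
    · refine (mul_le_mul har (mul_le_mul_of_nonneg_left h.dB_le zero_le_two)
        (by linarith [h.dB_pos]) (by positivity)).trans (le_of_eq (by ring))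
  have h2 : |∑ E ∈ (tri G).filter (fun E => g ∈ sides E), jumpC G D q r g E| ≤
      28 * (r * q) * (1 + 2 * q) ^ r := by
    refine ((abs_sum_le_sum_abs _ _).trans (sum_le_card_nsmul _ _
      (1 * (r * (q * (1 + 2 * q) / D) * (2 * (1 + 2 * q) ^ r)) * (6 * dB D κ) / D)
      fun E hE => ?_)).trans ?_
    · obtain ⟨hEt, hgE⟩ := mem_filter.1 hE
      rw [jumpC, abs_div, abs_of_pos hD]
      refine div_le_div_of_nonneg_right ((h.through_le hEt hgE (y := lvec G E) (W := 1)
        (fun f => by rw [one_mul, abs_of_nonneg (lvec_nonneg E f)]) zero_le_one r).trans ?_) hD.le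
      have := h.dB_pos
      gcongr
    · rw [nsmul_eq_mul]
      have hd := h.dB_pos
      refine (mul_le_mul_of_nonneg_right (h.deg_le_all g) (by positivity)).trans ?_
      calc dB D κ * (1 * (r * (q * (1 + 2 * q) / D) * (2 * (1 + 2 * q) ^ r)) * (6 * dB D κ) / D)
          ≤ 3 / 2 * D * (1 * (r * (q * (1 + 2 * q) / D) * (2 * (1 + 2 * q) ^ r)) *
              (6 * (3 / 2 * D)) / D) := by
            gcongr <;> exact h.dB_le
        _ = 27 * (1 + 2 * q) * (r * q) * (1 + 2 * q) ^ r := by field_simp; ring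
        _ ≤ _ := by
            gcongr
            linarith [h.q_le']
  refine (abs_add_le _ _).trans ((add_le_add h1 h2).trans (le_of_eq (by ring)))

/-- The change without a removal. -/
lemma stayD_dev :
    |stayD G D q r g - q / D * ((mop (q / D) G)^[r] (bop G (fun _ => 1)) g +
        bop G ((mop (q / D) G)^[r] (xv D G)) g -
        2 * q * r * bop G ((mop (q / D) G)^[r - 1] (xv D G)) g)| ≤
      q * (1 + 2 * q) ^ r / D := by
  have hq := h.q_pos
  have hD := h.D_pos
  have hc0 := h.c_pos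
  set c := q / D with hc
  set c' := q * (1 + 2 * q) / D with hc'
  set P := (1 + 2 * q) ^ r
  have hc'0 : 0 ≤ c' := by positivity
  have har := h.aB_pow_le le_rfl
  have hd : c' - c = 2 * q * c := by rw [hc', hc]; ring
  set x := xv D G
  have hx' : xv (D / (1 + 2 * q)) G = x + c • bop G (fun _ => (1 : ℝ)) := by
    funext f
    simp only [Pi.add_apply, Pi.smul_apply, smul_eq_mul, x]
    by_cases hf : f ∈ G
    · rw [bop_const]
      simp only [xv, if_pos hf, xg, hc]
      field_simp
      ring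
    · simp [xv, hf, bop_eq_zero_of_not_mem hf]
  have hdd : |c' - c| * (2 * dB D κ) ≤ 6 * q ^ 2 := by
    rw [hd, abs_of_pos (by positivity), hc]
    calc 2 * q * (q / D) * (2 * dB D κ) ≤ 2 * q * (q / D) * (2 * (3 / 2 * D)) := by
          gcongr; exact h.dB_le
      _ = 6 * q ^ 2 := by field_simp; ring
  have p1 := mop_iter_perturb2 (G := G) (v := x) h.dB_pos.le (fun _ hf => h.deg_le hf) h.c_le
    (by rw [abs_of_nonneg hc'0] : |c'| ≤ q * (1 + 2 * q) / D)
    (fun f => (h.abs_xv f).trans h.dl_le) r g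
  have p2 := mop_iter_perturb (G := G) (v := bop G (fun _ => (1 : ℝ))) (W := 2 * dB D κ)
    h.dB_pos.le (fun _ hf => h.deg_le hf) h.c_le
    (by rw [abs_of_nonneg hc'0] : |c'| ≤ q * (1 + 2 * q) / D) (fun f => by
      rw [bop_const, abs_of_nonneg (by positivity)]; linarith [h.deg_le_all f]) r g
  rw [← show aB D q κ = 1 + 2 * (q * (1 + 2 * q) / D) * dB D κ from rfl] at p1 p2
  have b1 : |(mop c' G)^[r] x g - (mop c G)^[r] x g +
      r * (c' - c) * bop G ((mop c G)^[r - 1] x) g| ≤ 36 * (r * q) ^ 2 * q ^ 2 * P := by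
    refine p1.trans ?_
    calc (r : ℝ) ^ 2 * (|c' - c| * (2 * dB D κ)) ^ 2 * aB D q κ ^ r * (1 / 2)
        ≤ (r : ℝ) ^ 2 * (6 * q ^ 2) ^ 2 * (2 * P) * (1 / 2) := by
          gcongr
          · exact pow_nonneg (zero_le_one.trans h.aB_ge_one) r
          · exact mul_nonneg (abs_nonneg _) (by linarith [h.dB_pos])
      _ = _ := by ring
  have b2 : |(mop c' G)^[r] (bop G (fun _ => (1 : ℝ))) g -
      (mop c G)^[r] (bop G (fun _ => (1 : ℝ))) g| ≤ 36 * (r * q) * q * P * D := by
    refine p2.trans ?_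
    calc (r : ℝ) * |c' - c| * (2 * dB D κ) * aB D q κ ^ r * (2 * dB D κ)
        = (r : ℝ) * (|c' - c| * (2 * dB D κ)) * aB D q κ ^ r * (2 * dB D κ) := by ring
      _ ≤ (r : ℝ) * (6 * q ^ 2) * (2 * P) * (2 * (3 / 2 * D)) := by
          gcongr
          · linarith [h.dB_pos]
          · exact pow_nonneg (zero_le_one.trans h.aB_ge_one) r
          · exact h.dB_le
      _ = _ := by ring
  have e : stayD G D q r g - c * ((mop c G)^[r] (bop G (fun _ => 1)) g +
      bop G ((mop c G)^[r] x) g - 2 * q * r * bop G ((mop c G)^[r - 1] x) g) =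
      ((mop c' G)^[r] x g - (mop c G)^[r] x g +
        r * (c' - c) * bop G ((mop c G)^[r - 1] x) g) +
      c * ((mop c' G)^[r] (bop G (fun _ => (1 : ℝ))) g -
        (mop c G)^[r] (bop G (fun _ => (1 : ℝ))) g) := by
    simp only [stayD, ← hc, ← hc', hx', mop_iter_add, mop_iter_smul, Pi.add_apply,
      Pi.smul_apply, smul_eq_mul, Function.iterate_succ_apply', mop, x, hd]
    ring
  rw [e]
  refine (abs_add_le _ _).trans ?_
  rw [abs_mul, abs_of_pos hc0]
  refine (add_le_add b1 (mul_le_mul_of_nonneg_left b2 hc0.le)).trans ?_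
  rw [show c * (36 * (r * q) * q * P * D) = 36 * (r * q) * q * q * P by rw [hc]; field_simp,
    le_div_iff₀ hD]
  have hrq : 0 ≤ (r : ℝ) * q := by positivity
  have h1 : 36 * (r * q) ^ 2 * q + 36 * (r * q) * q ≤ 100 * q * (1 + r * q) ^ 2 := by nlinarith
  have h2 : 100 * q * (1 + r * q) ^ 2 * D ≤ 1 := by
    refine le_trans ?_ h.q_le
    rw [mul_assoc (100 * q) _ ((1 + (r : ℝ) * q) ^ 2)]
    gcongr
    · exact le_mul_of_one_le_left (by positivity)
        (by linarith [Nat.cast_nonneg (α := ℝ) (tri G).card])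
    · exact le_self_pow₀ h.one_le_D two_ne_zero
  calc (36 * (r * q) ^ 2 * q ^ 2 * P + 36 * (r * q) * q * q * P) * D
      = (36 * (r * q) ^ 2 * q + 36 * (r * q) * q) * D * (q * P) := by ring
    _ ≤ 1 * (q * P) := by
        refine mul_le_mul_of_nonneg_right ?_ (by positivity)
        exact (mul_le_mul_of_nonneg_right h1 hD.le).trans h2
    _ = q * P := one_mul _

/-- The drift of the prediction of a surviving edge. -/
theorem drift_le :
    |stayD G D q r g + q / D * ∑ E ∈ (tri G).filter (fun E => g ∉ sides E), jumpD G D q r g E| ≤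
      q * (1 + 2 * q) ^ r / D * (400 * (κ ^ 2 + r * q)) := by
  have hq := h.q_pos
  have hD := h.D_pos
  set P := (1 + 2 * q) ^ r with hP
  set T := (tri G).filter (fun E => g ∉ sides E) with hT
  have hmain : |∑ E ∈ T, (jumpD G D q r g E - (jumpA G D q r g E - jumpC G D q r g E))| ≤
      (250 * (r * q) + 1) * P := by
    refine ((abs_sum_le_sum_abs _ _).trans (sum_le_sum fun E hE =>
      h.jump_expand (mem_filter.1 hE).1 (mem_filter.1 hE).2)).trans ?_
    rw [sum_add_distrib, sum_const, nsmul_eq_mul]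
    have h1 : ∑ E ∈ T, secB G D q κ r g E ≤ 250 * (r * q) * P := by
      refine le_trans ?_ h.sum_secB_le
      refine sum_le_sum_of_subset_of_nonneg (filter_subset _ _) fun E _ _ => ?_
      have := h.aB_ge_one
      refine add_nonneg (mul_nonneg (sq_nonneg _) (sum_nonneg fun l _ => sum_nonneg fun i _ => ?_))
        (mul_nonneg (by positivity) (sum_nonneg fun i _ => ?_))
      · exact mul_nonneg (mul_nonneg (mul_nonneg (by norm_num) (h.wB_nonneg _)) (by positivity))
          (h.ip_row_lvec_nonneg i E)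
      · exact mul_nonneg (by positivity) (h.ip_row_lvec_nonneg i E)
    have h2 : (T.card : ℝ) * (70 * q * (1 + r * q) * P) ≤ 1 * P := by
      rw [← mul_assoc]
      refine mul_le_mul_of_nonneg_right (le_trans ?_ h.q_le) (by positivity)
      have hTc : (T.card : ℝ) ≤ (tri G).card := by
        exact_mod_cast card_le_card (filter_subset _ _)
      have h3 : 1 + (r : ℝ) * q ≤ (1 + r * q) ^ 2 * D ^ 2 := by
        have : 0 ≤ (r : ℝ) * q := by positivity
        refine le_trans ?_ (le_mul_of_one_le_right (sq_nonneg _) (one_le_pow₀ h.one_le_D))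
        nlinarith
      calc (T.card : ℝ) * (70 * q * (1 + r * q))
          ≤ ((tri G).card + 1) * (100 * q * ((1 + r * q) ^ 2 * D ^ 2)) := by
            gcongr
            · linarith
            · linarith
        _ = _ := by ring
    linarith
  have hA := h.sum_jumpA_dev
  have hC := h.sum_jumpC_dev
  have hS := h.stayD_dev
  rw [← hT] at hA hC
  rw [← hP] at hA hC hS
  set Q := bop G ((mop (q / D) G)^[r - 1] (xv D G)) g
  set Z := (mop (q / D) G)^[r] (bop G (fun _ => 1)) g
  set Y := bop G ((mop (q / D) G)^[r] (xv D G)) g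
  have e : stayD G D q r g + q / D * ∑ E ∈ T, jumpD G D q r g E =
      (stayD G D q r g - q / D * (Z + Y - 2 * q * r * Q)) +
      q / D * ((∑ E ∈ T, jumpA G D q r g E - q / D * (2 * D) * (r * Q)) -
        (∑ E ∈ T, jumpC G D q r g E - (Z + Y)) +
        ∑ E ∈ T, (jumpD G D q r g E - (jumpA G D q r g E - jumpC G D q r g E))) := by
    simp only [sum_sub_distrib]
    field_simp
    ring
  rw [e]
  refine (abs_add_le _ _).trans ?_
  rw [abs_mul, abs_of_pos h.c_pos]
  refine (add_le_add hS (mul_le_mul_of_nonneg_left ((abs_add_le _ _).trans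
    (add_le_add ((abs_sub _ _).trans (add_le_add hA hC)) hmain)) h.c_pos.le)).trans ?_
  have hk2 : 1 ≤ κ ^ 2 := one_le_pow₀ h.one_le_kap
  have hrq : 0 ≤ (r : ℝ) * q := by positivity
  calc q * P / D + q / D * ((24 * κ ^ 2 + 12 + 60 * (r * q)) * P + (6 + 28 * (r * q)) * P +
        (250 * (r * q) + 1) * P)
      = q * P / D * (24 * κ ^ 2 + 20 + 338 * (r * q)) := by field_simp; ring
    _ ≤ _ := mul_le_mul_of_nonneg_left (by linarith) (by positivity)

end Ctx

end Vale.Agent.P046.Full.One
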