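import Vale.Agent.P046.Full.One.PredBase

/-!
P046, the first phase: the effect of one removal on the prediction of one edge.
-/

namespace Vale.Agent.P046.Full.One

open Finset
open Vale.Agent.P046

variable {n : ℕ} {G : Gr n}

/-- The hypotheses on a state under which the predictor of `g`, `r + 1` steps ahead, is analysed. -/
structure Ctx (G : Gr n) (D q κ : ℝ) (r : ℕ) (g : Finset (Fin n)) : Prop where
  mem : g ∈ G
  one_le_D : 1 ≤ D
  q_pos : 0 < q
  q_le : 100 * q * ((tri G).card + 1) * (1 + r * q) ^ 2 * D ^ 2 ≤ 1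
  one_le_kap : 1 ≤ κ
  kap_le : 2 * κ ≤ Real.sqrt D
  small : r * q * (κ / Real.sqrt D + 8 * q) ≤ 1 / 4
  far : (κ + r * q) ^ 2 * (1 + 2 * q) ^ r ≤ D
  pred : ∀ i ≤ r + 1, ∀ f ∈ G,
    |(mop (q / D) G)^[i] (xv D G) f| ≤ κ * Real.sqrt (1 + 2 * q) ^ i / Real.sqrt D

/-- The size of the prediction `i` steps ahead. -/
noncomputable def wB (D q κ : ℝ) (i : ℕ) : ℝ := κ * Real.sqrt (1 + 2 * q) ^ i / Real.sqrt D

/-- The codegree bound. -/
noncomputable def dB (D κ : ℝ) : ℝ := D * (1 + κ / Real.sqrt D)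

/-- The growth of the positive companion in one step. -/
noncomputable def aB (D q κ : ℝ) : ℝ := 1 + 2 * (q * (1 + 2 * q) / D) * dB D κ

/-- The main part of the jump: the change of the operator. -/
noncomputable def jumpA (G : Gr n) (D q : ℝ) (r : ℕ) (g E : Finset (Fin n)) : ℝ :=
  q / D * ∑ l ∈ range r,
    (mop (q / D) G)^[l] (qop G E ((mop (q / D) G)^[r - 1 - l] (xv D G))) g

/-- The main part of the jump: the lost triangles. -/
noncomputable def jumpC (G : Gr n) (D q : ℝ) (r : ℕ) (g E : Finset (Fin n)) : ℝ :=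
  (mop (q / D) G)^[r] (lvec G E) g / D

/-- The change of the prediction when `E` is removed. -/
noncomputable def jumpD (G : Gr n) (D q : ℝ) (r : ℕ) (g E : Finset (Fin n)) : ℝ :=
  (mop (q * (1 + 2 * q) / D) (rem G E))^[r] (xv (D / (1 + 2 * q)) (rem G E)) g -
    (mop (q / D) G)^[r + 1] (xv D G) g

/-- The change of the prediction when nothing is removed. -/
noncomputable def stayD (G : Gr n) (D q : ℝ) (r : ℕ) (g : Finset (Fin n)) : ℝ :=
  (mop (q * (1 + 2 * q) / D) G)^[r] (xv (D / (1 + 2 * q)) G) g -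
    (mop (q / D) G)^[r + 1] (xv D G) g

/-- The row of the positive companion. -/
noncomputable def rowP (G : Gr n) (D q : ℝ) (g : Finset (Fin n)) (i : ℕ) : Vec n :=
  (pop (q * (1 + 2 * q) / D) G)^[i] (evec g)

/-- The bound on the second order part of a jump. -/
noncomputable def secB (G : Gr n) (D q κ : ℝ) (r : ℕ) (g E : Finset (Fin n)) : ℝ :=
  (q / D) ^ 2 * ∑ l ∈ range r, ∑ i ∈ range l,
      8 * wB D q κ (r - 1 - l) * aB D q κ ^ (l - 1 - i) * ip (rowP G D q g i) (lvec G E) +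
    q / D / D * ∑ i ∈ range r, 4 * aB D q κ ^ (r - 1 - i) * ip (rowP G D q g i) (lvec G E)

namespace Ctx

variable {D q κ : ℝ} {r : ℕ} {g : Finset (Fin n)} (h : Ctx G D q κ r g)

include h

lemma D_pos : 0 < D := zero_lt_one.trans_le h.one_le_D

lemma q_le' : 100 * q ≤ 1 := by
  refine le_trans ?_ h.q_le
  rw [mul_assoc (100 * q), mul_assoc (100 * q)]
  refine le_mul_of_one_le_right (by linarith [h.q_pos]) ?_
  refine one_le_mul_of_one_le_of_one_le ?_ (one_le_pow₀ h.one_le_D)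
  refine one_le_mul_of_one_le_of_one_le (by simp) (one_le_pow₀ ?_)
  have := h.q_pos
  exact le_add_of_nonneg_right (by positivity)

lemma dl_nonneg : 0 ≤ κ / Real.sqrt D :=
  div_nonneg (zero_le_one.trans h.one_le_kap) (Real.sqrt_nonneg _)

lemma dl_le : κ / Real.sqrt D ≤ 1 / 2 := by
  rw [div_le_iff₀ (Real.sqrt_pos.2 h.D_pos)]
  linarith [h.kap_le]

lemma wB_nonneg (i : ℕ) : 0 ≤ wB D q κ i := by
  have := h.one_le_kap
  unfold wB
  positivity

lemma abs_xv (f : Finset (Fin n)) : |xv D G f| ≤ κ / Real.sqrt D := by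
  by_cases hf : f ∈ G
  · simpa using h.pred 0 (Nat.zero_le _) f hf
  · simpa [xv, hf] using h.dl_nonneg

lemma deg_le {f : Finset (Fin n)} (hf : f ∈ G) : (deg G f : ℝ) ≤ dB D κ := by
  have h1 := (abs_le.1 (h.abs_xv f)).2
  simp only [xv, if_pos hf, xg] at h1
  rw [sub_le_iff_le_add, div_le_iff₀ h.D_pos] at h1
  unfold dB
  linarith

lemma dB_pos : 0 < dB D κ := mul_pos h.D_pos (by linarith [h.dl_nonneg])

lemma dB_le : dB D κ ≤ 3 / 2 * D := by
  unfold dB
  nlinarith [h.D_pos, h.dl_le]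

lemma c_pos : 0 < q / D := div_pos h.q_pos h.D_pos

lemma c_le : |q / D| ≤ q * (1 + 2 * q) / D := by
  rw [abs_of_pos h.c_pos]
  exact div_le_div_of_nonneg_right (by nlinarith [h.q_pos]) h.D_pos.le

lemma aB_ge_one : 1 ≤ aB D q κ := by
  have := h.q_pos; have := h.D_pos; have := h.dB_pos
  unfold aB
  exact le_add_of_nonneg_right (by positivity)

/-- Growth factors below `2 * (1 + 2 q) ^ i`. -/
lemma growth_le {x : ℝ} (hx0 : 0 ≤ x)
    (hx : x ≤ (1 + 2 * q) * (1 + (2 * q * (κ / Real.sqrt D) + 16 * q ^ 2))) {i : ℕ} (hi : i ≤ r) :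
    x ^ i ≤ 2 * (1 + 2 * q) ^ i := by
  have := h.q_pos
  set y := 2 * q * (κ / Real.sqrt D) + 16 * q ^ 2 with hy
  have hy0 : 0 ≤ y := by have := h.dl_nonneg; positivity
  refine (pow_le_pow_left₀ hx0 hx i).trans ?_
  rw [mul_pow, mul_comm]
  refine mul_le_mul_of_nonneg_right ?_ (by positivity)
  refine (pow_le_pow_left₀ (by linarith) (by linarith [Real.add_one_le_exp y]) i).trans
    (b := Real.exp y ^ i) ?_
  rw [← Real.exp_nat_mul]
  refine le_trans (b := Real.exp (1 / 2 : ℝ)) (Real.exp_le_exp.2 ?_) ?_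
  · calc (i : ℝ) * y ≤ r * y := mul_le_mul_of_nonneg_right (by exact_mod_cast hi) hy0
      _ ≤ 1 / 2 := by
        have := h.small
        rw [hy]; nlinarith
  · have h1 : Real.exp (1 / 2 : ℝ) ^ 2 = Real.exp 1 := by rw [← Real.exp_nat_mul]; norm_num
    nlinarith [Real.exp_one_lt_d9, Real.exp_pos (1 / 2 : ℝ)]

lemma aB_pow_le {i : ℕ} (hi : i ≤ r) : aB D q κ ^ i ≤ 2 * (1 + 2 * q) ^ i := by
  refine h.growth_le (zero_le_one.trans h.aB_ge_one) ?_ hi
  have := h.q_pos; have := h.D_pos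
  have e : aB D q κ = 1 + 2 * q * (1 + 2 * q) * (1 + κ / Real.sqrt D) := by
    unfold aB dB; field_simp
  rw [e]
  nlinarith [sq_nonneg q, h.dl_nonneg]

lemma rowP_nonneg (i : ℕ) (f : Finset (Fin n)) : 0 ≤ rowP G D q g i f :=
  pop_iter_nonneg ((abs_nonneg _).trans h.c_le) (evec_nonneg g) i f

lemma sum_rowP_le (i : ℕ) : ∑ f, rowP G D q g i f ≤ aB D q κ ^ i := by
  have := pop_iter_sum_le h.dB_pos.le ((abs_nonneg _).trans h.c_le) (fun f hf => h.deg_le hf)
    (evec_nonneg g) i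
  rwa [sum_evec, mul_one] at this

lemma rowP_entry_le {f : Finset (Fin n)} (hf : f ≠ g) (i : ℕ) :
    rowP G D q g i f ≤ i * (q * (1 + 2 * q) / D) * aB D q κ ^ i :=
  pop_iter_entry_le h.dB_pos.le ((abs_nonneg _).trans h.c_le) (fun _ hf => h.deg_le hf) g hf i

lemma mop_sup {c' : ℝ} (hc' : |c'| ≤ q * (1 + 2 * q) / D) {G' : Gr n} (hG : G' ⊆ G) {v : Vec n}
    {W : ℝ} (hv : ∀ f, |v f| ≤ W) (i : ℕ) (f : Finset (Fin n)) :
    |(mop c' G')^[i] v f| ≤ aB D q κ ^ i * W :=
  mop_iter_sup_le h.dB_pos.le (fun _ hf => h.deg_le hf) hG hc' hv i f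

/-- The geometric sum of the weights. -/
lemma sum_aw_le : ∑ l ∈ range r, aB D q κ ^ l * wB D q κ (r - 1 - l) ≤
    4 * κ * (1 + 2 * q) ^ r / (q * Real.sqrt D) := by
  set b := Real.sqrt (1 + 2 * q) with hb
  have hq := h.q_pos
  have hb2 : b ^ 2 = 1 + 2 * q := Real.sq_sqrt (by linarith)
  have hb1 : 1 < b := Real.lt_sqrt_of_sq_lt (by linarith)
  have hk := h.one_le_kap
  have h1 : ∀ l ∈ range r, aB D q κ ^ l * wB D q κ (r - 1 - l) ≤
      2 * κ / Real.sqrt D * b ^ r * b ^ l := by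
    intro l hl
    have hlr := mem_range.1 hl
    refine (mul_le_mul_of_nonneg_right (h.aB_pow_le hlr.le) (h.wB_nonneg _)).trans ?_
    rw [wB, ← hb, ← hb2, ← pow_mul]
    have h2 : b ^ (2 * l) * b ^ (r - 1 - l) ≤ b ^ r * b ^ l := by
      rw [← pow_add, ← pow_add]
      exact pow_le_pow_right₀ hb1.le (by omega)
    calc 2 * b ^ (2 * l) * (κ * b ^ (r - 1 - l) / Real.sqrt D)
        = 2 * κ / Real.sqrt D * (b ^ (2 * l) * b ^ (r - 1 - l)) := by ring
      _ ≤ 2 * κ / Real.sqrt D * (b ^ r * b ^ l) :=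
          mul_le_mul_of_nonneg_left h2 (by positivity)
      _ = _ := by ring
  refine (sum_le_sum h1).trans ?_
  rw [← mul_sum, geom_sum_eq hb1.ne']
  have h3 : (b ^ r - 1) / (b - 1) ≤ 2 * b ^ r / q := by
    rw [div_le_div_iff₀ (by linarith) hq]
    have hb3 : b ≤ 3 := by rw [hb, Real.sqrt_le_left (by norm_num)]; linarith [h.q_le']
    have h4 : q ≤ 2 * (b - 1) := by nlinarith
    have h5 : 1 ≤ b ^ r := one_le_pow₀ hb1.le
    nlinarith
  refine (mul_le_mul_of_nonneg_left h3 (by positivity)).trans_eq ?_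
  rw [← hb2, ← pow_mul, two_mul r, pow_add]
  field_simp
  norm_num

lemma ip_row_le {y : Vec n} {V : ℝ} (hy : ∀ f, |y f| ≤ V) (i : ℕ) :
    ip (rowP G D q g i) (fun f => |y f|) ≤ aB D q κ ^ i * V := by
  refine (sum_le_sum fun f _ => mul_le_mul_of_nonneg_left (hy f) (h.rowP_nonneg i f)).trans ?_
  rw [← sum_mul]
  exact mul_le_mul_of_nonneg_right (h.sum_rowP_le i) ((abs_nonneg _).trans (hy g))

lemma ip_row_lvec_nonneg (i : ℕ) (E : Finset (Fin n)) : 0 ≤ ip (rowP G D q g i) (lvec G E) :=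
  sum_nonneg fun f _ => mul_nonneg (h.rowP_nonneg i f) (lvec_nonneg E f)

lemma ip_row_lvec_le {E : Finset (Fin n)} (hE : E ∈ tri G) (i : ℕ) :
    ip (rowP G D q g i) (lvec G E) ≤ 2 * aB D q κ ^ i := by
  have := h.ip_row_le (fun f => (abs_of_nonneg (lvec_nonneg (G := G) E f)).trans_le
    (lvec_le_two hE f)) i
  simp only [abs_of_nonneg (lvec_nonneg _ _)] at this
  linarith

/-- A bound on one term in which the operator changes twice. -/
lemma duhamel_le {E : Finset (Fin n)} {y : Vec n} {V : ℝ}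
    (hy : ∀ f, |y f| ≤ V) (hpv : pv E y = y) (hgE : g ∉ sides E) (l : ℕ) :
    |(mop (q / D) (rem G E))^[l] y g - (mop (q / D) G)^[l] y g| ≤
      q / D * ∑ i ∈ range l,
        2 * aB D q κ ^ (l - 1 - i) * V * ip (rowP G D q g i) (lvec G E) := by
  conv_lhs => rw [← hpv, mop_iter_rem, hpv]
  simp only [Pi.add_apply, Pi.smul_apply, smul_eq_mul, pv_apply_not_mem hgE, add_sub_cancel_left,
    Finset.sum_apply]
  rw [abs_mul, abs_of_pos h.c_pos]
  refine mul_le_mul_of_nonneg_left ((abs_sum_le_sum_abs _ _).trans (sum_le_sum fun i _ => ?_))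
    h.c_pos.le
  refine (mop_iter_row_le (rem_subset G E) h.c_le g _ i).trans ?_
  rw [ip, ip, mul_sum]
  refine sum_le_sum fun f _ => ?_
  have h1 := qop_abs_le' (G := G) E (fun f _ => h.mop_sup h.c_le subset_rfl hy (l - 1 - i) f) f
  calc rowP G D q g i f * |qop G E ((mop (q / D) G)^[l - 1 - i] y) f|
      ≤ rowP G D q g i f * (2 * (aB D q κ ^ (l - 1 - i) * V) * lvec G E f) :=
        mul_le_mul_of_nonneg_left h1 (h.rowP_nonneg i f)
    _ = _ := by ring

lemma pred_le (i : ℕ) (hi : i ≤ r + 1) : ∀ f ∈ G,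
    |(mop (q / D) G)^[i] (xv D G) f| ≤ wB D q κ i := h.pred i hi

lemma qop_pred_abs {E : Finset (Fin n)} (hE : E ∈ tri G) {i : ℕ} (hi : i ≤ r + 1)
    (f : Finset (Fin n)) :
    |qop G E ((mop (q / D) G)^[i] (xv D G)) f| ≤ 4 * wB D q κ i := by
  refine (qop_abs_le' E (h.pred_le i hi) f).trans ?_
  nlinarith [lvec_le_two hE f, h.wB_nonneg i]

omit h in
lemma pv_qop (E : Finset (Fin n)) (v : Vec n) : pv E (qop G E v) = qop G E v := by
  funext f; simp only [pv, qop]; split_ifs <;> rfl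

omit h in
lemma pv_lvec (E : Finset (Fin n)) : pv E (lvec G E) = lvec G E := by
  funext f; simp only [pv, lvec]; split_ifs <;> rfl

lemma xv_shift_le (E f : Finset (Fin n)) :
    |xv (D / (1 + 2 * q)) (rem G E) f - (pv E (xv D G) f - 1 / D * lvec G E f)| ≤ 3 * q := by
  have hq := h.q_pos
  have hD := h.D_pos
  by_cases hfE : f ∈ sides E
  · simp [xv, pv, lvec, rem, hfE]; linarith
  · by_cases hf : f ∈ G
    · have hfr : f ∈ rem G E := mem_sdiff.2 ⟨hf, hfE⟩
      have e : (deg (rem G E) f : ℝ) + lost G f E = deg G f := by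
        exact_mod_cast deg_rem_add_lost G f E
      rw [pv_apply_not_mem hfE, lvec, if_neg hfE]
      simp only [xv, if_pos hf, if_pos hfr, xg]
      have e2 : (deg (rem G E) f : ℝ) / (D / (1 + 2 * q)) - 1 -
          ((deg G f : ℝ) / D - 1 - 1 / D * (lost G f E : ℝ)) =
            2 * q * ((deg (rem G E) f : ℝ) / D) := by
        rw [← e]; field_simp; ring
      rw [e2, abs_mul, abs_of_pos (by linarith : 0 < 2 * q), abs_of_nonneg (by positivity)]
      have h1 : (deg (rem G E) f : ℝ) / D ≤ 3 / 2 := by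
        rw [div_le_iff₀ hD]
        linarith [h.deg_le hf, h.dB_le, (Nat.cast_nonneg (lost G f E) : (0 : ℝ) ≤ _)]
      nlinarith
    · have hl : lost G f E = 0 := by
        rw [lost, card_eq_zero, filter_eq_empty_iff]
        exact fun F hF hh => hf ((mem_tri.1 hF).2 hh.1)
      simp [xv, pv, lvec, rem, hf, hfE, hl]
      linarith

/-- One jump, to first order. -/
lemma jump_expand {E : Finset (Fin n)} (hE : E ∈ tri G) (hgE : g ∉ sides E) :
    |jumpD G D q r g E - (jumpA G D q r g E - jumpC G D q r g E)| ≤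
      secB G D q κ r g E + 70 * q * (1 + r * q) * (1 + 2 * q) ^ r := by
  have hD := h.D_pos
  have hq := h.q_pos
  set c := q / D with hc
  set c' := q * (1 + 2 * q) / D with hc'
  set P := (1 + 2 * q) ^ r with hP
  have hP1 : 1 ≤ P := one_le_pow₀ (by linarith)
  have har := h.aB_pow_le le_rfl
  have hc'0 : 0 ≤ c' := by positivity
  set x := xv D G
  set v' := xv (D / (1 + 2 * q)) (rem G E)
  set v0 := pv E x - (1 / D) • lvec G E
  have hv0 : ∀ f, |v0 f| ≤ 3 := fun f => by
    simp only [v0, Pi.sub_apply, Pi.smul_apply, smul_eq_mul]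
    refine (abs_sub _ _).trans ?_
    have h1 : |pv E x f| ≤ 1 / 2 := by
      unfold pv; split_ifs
      · simp
      · exact (h.abs_xv f).trans h.dl_le
    have h2 : |1 / D * lvec G E f| ≤ 2 := by
      rw [abs_mul, abs_of_nonneg (lvec_nonneg E f), abs_of_pos (by positivity)]
      have h3 : 1 / D ≤ 1 := (div_le_one hD).2 h.one_le_D
      nlinarith [lvec_le_two hE f, lvec_nonneg (G := G) E f]
    linarith
  have hshift : ∀ f, |(v' - v0) f| ≤ 3 * q := fun f => by
    simpa [v0, v'] using h.xv_shift_le E f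
  have hdrem : ∀ f ∈ rem G E, (deg (rem G E) f : ℝ) ≤ dB D κ := fun f hf => by
    refine le_trans ?_ (h.deg_le (rem_subset G E hf))
    exact_mod_cast (Nat.le_add_right _ _).trans_eq (deg_rem_add_lost G f E)
  -- the change of the parameter and of the vector
  have e1 : |(mop c' (rem G E))^[r] v' g - (mop c (rem G E))^[r] v0 g| ≤
      66 * q * (1 + r * q) * P := by
    have h1 := h.mop_sup (c' := c') (by rw [abs_of_nonneg hc'0]) (rem_subset G E) hshift r g
    rw [mop_iter_sub, Pi.sub_apply] at h1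
    have h2 := mop_iter_perturb (G := rem G E) h.dB_pos.le hdrem h.c_le
      (by rw [abs_of_nonneg hc'0] : |c'| ≤ q * (1 + 2 * q) / D) hv0 r g
    refine (abs_sub_le _ ((mop c' (rem G E))^[r] v0 g) _).trans ((add_le_add h1 h2).trans ?_)
    rw [show c' - c = 2 * q ^ 2 / D by rw [hc', hc]; field_simp; ring,
      abs_of_nonneg (by positivity)]
    have h3 : r * (2 * q ^ 2 / D) * (2 * dB D κ) ≤ 6 * (r * q) * q := by
      calc r * (2 * q ^ 2 / D) * (2 * dB D κ) ≤ r * (2 * q ^ 2 / D) * (2 * (3 / 2 * D)) := by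
            gcongr; exact h.dB_le
        _ = 6 * (r * q) * q := by field_simp; ring
    have h4 : r * (2 * q ^ 2 / D) * (2 * dB D κ) * aB D q κ ^ r * 3 ≤
        6 * (r * q) * q * (2 * P) * 3 :=
      mul_le_mul_of_nonneg_right (mul_le_mul h3 har
        (pow_nonneg (zero_le_one.trans h.aB_ge_one) r) (by positivity)) (by norm_num)
    have h5 := mul_le_mul_of_nonneg_right har (by positivity : (0:ℝ) ≤ 3 * q)
    have h6 : aB D q κ ^ r * (3 * q) + 6 * (r * q) * q * (2 * P) * 3 ≤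
        66 * q * (1 + r * q) * P := by
      have : 0 ≤ (r : ℝ) * q * q * P := by positivity
      nlinarith
    rw [← show aB D q κ = 1 + 2 * (q * (1 + 2 * q) / D) * dB D κ from rfl]
    linarith
  -- from `M ^ (r + 1)` to `M ^ r`
  have e2 : |(mop c G)^[r] x g - (mop c G)^[r + 1] x g| ≤ 4 * q * P := by
    rw [Function.iterate_succ_apply', mop, sub_sub_cancel, abs_mul, abs_of_pos h.c_pos]
    refine (mul_le_mul_of_nonneg_left (bop_sup_le (h.wB_nonneg r) (fun f hf => h.deg_le hf)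
      h.dB_pos.le (h.pred_le r (Nat.le_succ r)) g) h.c_pos.le).trans ?_
    have h1 : wB D q κ r ≤ P := by
      rw [wB, mul_div_right_comm]
      have h2 : Real.sqrt (1 + 2 * q) ^ r ≤ P :=
        pow_le_pow_left₀ (Real.sqrt_nonneg _) ((Real.sqrt_le_left (by linarith)).2
          (by nlinarith)) r
      calc κ / Real.sqrt D * Real.sqrt (1 + 2 * q) ^ r ≤ 1 * P :=
            mul_le_mul (h.dl_le.trans (by norm_num)) h2 (by positivity) zero_le_one
        _ = P := one_mul P
    calc c * (2 * dB D κ * wB D q κ r) ≤ c * (2 * (3 / 2 * D) * P) := by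
          gcongr
          · exact h.wB_nonneg r
          · exact h.dB_le
      _ = 3 * q * P := by rw [hc]; field_simp
      _ ≤ 4 * q * P := by nlinarith
  -- Duhamel
  have e3 : |(mop c (rem G E))^[r] v0 g - (mop c G)^[r] x g -
      (jumpA G D q r g E - jumpC G D q r g E)| ≤ secB G D q κ r g E := by
    have hA : (mop c (rem G E))^[r] (pv E x) g = (mop c G)^[r] x g +
        c * ∑ l ∈ range r, (mop c (rem G E))^[l] (qop G E ((mop c G)^[r - 1 - l] x)) g := by
      rw [mop_iter_rem]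
      simp [pv_apply_not_mem hgE]
    simp only [v0, mop_iter_sub, mop_iter_smul, Pi.sub_apply, Pi.smul_apply, smul_eq_mul, hA,
      jumpA, jumpC, ← hc]
    have h2 : ∀ l ∈ range r, |(mop c (rem G E))^[l] (qop G E ((mop c G)^[r - 1 - l] x)) g -
        (mop c G)^[l] (qop G E ((mop c G)^[r - 1 - l] x)) g| ≤
        c * ∑ i ∈ range l, 2 * aB D q κ ^ (l - 1 - i) * (4 * wB D q κ (r - 1 - l)) *
          ip (rowP G D q g i) (lvec G E) := fun l hl => h.duhamel_le
      (fun f => h.qop_pred_abs hE (by omega) f) (pv_qop E _) hgE l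
    have h3 := h.duhamel_le (fun f => (abs_of_nonneg (lvec_nonneg (G := G) E f)).trans_le
      (lvec_le_two hE f)) (pv_lvec E) hgE r
    rw [← hc] at h3
    have e : ∀ a b a' b' : ℝ, (mop c G)^[r] x g + c * a - 1 / D * b - (mop c G)^[r] x g -
        (c * a' - b' / D) = c * (a - a') - (1 / D) * (b - b') := by intros; ring
    rw [e, ← sum_sub_distrib, secB, ← hc]
    refine (abs_sub _ _).trans (add_le_add ?_ ?_)
    · rw [abs_mul, abs_of_pos h.c_pos, sq c, mul_assoc]
      refine mul_le_mul_of_nonneg_left ?_ h.c_pos.le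
      rw [mul_sum]
      refine ((abs_sum_le_sum_abs _ _).trans (sum_le_sum h2)).trans_eq ?_
      exact sum_congr rfl fun l _ => by congr 1; exact sum_congr rfl fun i _ => by ring
    · rw [abs_mul, abs_of_pos (one_div_pos.2 hD)]
      refine (mul_le_mul_of_nonneg_left h3 (by positivity)).trans_eq ?_
      rw [← mul_assoc, show 1 / D * c = c / D by ring]
      congr 1
      exact sum_congr rfl fun i _ => by ring
  have hsplit : jumpD G D q r g E - (jumpA G D q r g E - jumpC G D q r g E) =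
      ((mop c' (rem G E))^[r] v' g - (mop c (rem G E))^[r] v0 g) +
      ((mop c G)^[r] x g - (mop c G)^[r + 1] x g) +
      ((mop c (rem G E))^[r] v0 g - (mop c G)^[r] x g -
        (jumpA G D q r g E - jumpC G D q r g E)) := by
    simp only [jumpD, ← hc, ← hc', v', x]; ring
  rw [hsplit]
  refine (abs_add_three _ _ _).trans ?_
  have : 0 ≤ (r : ℝ) * q * q * P := by positivity
  nlinarith [e1, e2, e3]

/-- The size of the main part from the change of the operator. -/
lemma jumpA_abs_le {E : Finset (Fin n)} (hE : E ∈ tri G) :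
    |jumpA G D q r g E| ≤ 16 * κ * (1 + 2 * q) ^ r / (D * Real.sqrt D) := by
  have hD := h.D_pos
  rw [jumpA, abs_mul, abs_of_pos h.c_pos]
  refine (mul_le_mul_of_nonneg_left ((abs_sum_le_sum_abs _ _).trans (sum_le_sum fun l hl =>
    h.mop_sup h.c_le subset_rfl (fun f => h.qop_pred_abs hE
      (by have := mem_range.1 hl; omega) f) l g)) h.c_pos.le).trans ?_
  have e : ∑ l ∈ range r, aB D q κ ^ l * (4 * wB D q κ (r - 1 - l)) =
      4 * ∑ l ∈ range r, aB D q κ ^ l * wB D q κ (r - 1 - l) := by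
    rw [mul_sum]; exact sum_congr rfl fun l _ => by ring
  rw [e]
  refine (mul_le_mul_of_nonneg_left (mul_le_mul_of_nonneg_left h.sum_aw_le (by norm_num))
    h.c_pos.le).trans_eq ?_
  have := h.q_pos
  have : 0 < Real.sqrt D := Real.sqrt_pos.2 hD
  field_simp
  ring

/-- The size of the main part from the lost triangles. -/
lemma jumpC_abs_le {E : Finset (Fin n)} (hE : E ∈ tri G) :
    |jumpC G D q r g E| ≤ 4 * (1 + 2 * q) ^ r / D := by
  rw [jumpC, abs_div, abs_of_pos h.D_pos]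
  refine div_le_div_of_nonneg_right ((h.mop_sup h.c_le subset_rfl (fun f =>
    (abs_of_nonneg (lvec_nonneg (G := G) E f)).trans_le (lvec_le_two hE f)) r g).trans ?_)
    h.D_pos.le
  linarith [h.aB_pow_le le_rfl]

/-- The second order part of one jump. -/
lemma secB_le {E : Finset (Fin n)} (hE : E ∈ tri G) :
    secB G D q κ r g E ≤ 100 * (r * q) * (1 + 2 * q) ^ r / D ^ 2 := by
  have hq := h.q_pos
  have hD := h.D_pos
  have hsD : 0 < Real.sqrt D := Real.sqrt_pos.2 hD
  have ha := h.aB_ge_one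
  have h1 : ∀ l ∈ range r, ∑ i ∈ range l,
      8 * wB D q κ (r - 1 - l) * aB D q κ ^ (l - 1 - i) * ip (rowP G D q g i) (lvec G E) ≤
      (r : ℝ) * 16 * (aB D q κ ^ l * wB D q κ (r - 1 - l)) := by
    intro l hl
    have hlr := mem_range.1 hl
    refine (sum_le_card_nsmul _ _ (16 * (aB D q κ ^ l * wB D q κ (r - 1 - l)))
      fun i hi => ?_).trans ?_
    · have hil := mem_range.1 hi
      refine (mul_le_mul_of_nonneg_left (h.ip_row_lvec_le hE i) (mul_nonneg (mul_nonneg
        (by norm_num) (h.wB_nonneg _)) (pow_nonneg (zero_le_one.trans ha) _))).trans ?_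
      calc 8 * wB D q κ (r - 1 - l) * aB D q κ ^ (l - 1 - i) * (2 * aB D q κ ^ i)
          = 16 * (aB D q κ ^ (l - 1 - i + i) * wB D q κ (r - 1 - l)) := by rw [pow_add]; ring
        _ ≤ _ := mul_le_mul_of_nonneg_left (mul_le_mul_of_nonneg_right
            (pow_le_pow_right₀ ha (by omega)) (h.wB_nonneg _)) (by norm_num)
    · rw [card_range, nsmul_eq_mul, mul_assoc (r : ℝ)]
      exact mul_le_mul_of_nonneg_right (by exact_mod_cast hlr.le)
        (mul_nonneg (by norm_num) (mul_nonneg (pow_nonneg (zero_le_one.trans ha) _) (h.wB_nonneg _)))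
  have h2 : ∑ i ∈ range r, 4 * aB D q κ ^ (r - 1 - i) * ip (rowP G D q g i) (lvec G E) ≤
      (r : ℝ) * (16 * (1 + 2 * q) ^ r) := by
    refine (sum_le_card_nsmul _ _ (16 * (1 + 2 * q) ^ r) fun i hi => ?_).trans_eq (by simp)
    refine (mul_le_mul_of_nonneg_left (h.ip_row_lvec_le hE i) (by positivity)).trans ?_
    have h3 : aB D q κ ^ (r - 1 - i + i) ≤ aB D q κ ^ r :=
      pow_le_pow_right₀ ha (by have := mem_range.1 hi; omega)
    rw [pow_add] at h3
    linarith [h.aB_pow_le le_rfl]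
  rw [secB]
  refine (add_le_add (mul_le_mul_of_nonneg_left ((sum_le_sum h1).trans_eq (mul_sum _ _ _).symm)
    (sq_nonneg _)) (mul_le_mul_of_nonneg_left h2 (by positivity))).trans ?_
  refine (add_le_add (mul_le_mul_of_nonneg_left (mul_le_mul_of_nonneg_left h.sum_aw_le
    (by positivity)) (sq_nonneg _)) le_rfl).trans ?_
  have e : (q / D) ^ 2 * ((r : ℝ) * 16 * (4 * κ * (1 + 2 * q) ^ r / (q * Real.sqrt D))) +
      q / D / D * ((r : ℝ) * (16 * (1 + 2 * q) ^ r)) =
      (64 * (κ / Real.sqrt D) + 16) * ((r * q) * (1 + 2 * q) ^ r / D ^ 2) := by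
    field_simp
    ring
  rw [e, show 100 * (r * q) * (1 + 2 * q) ^ r / D ^ 2 =
    100 * ((r * q) * (1 + 2 * q) ^ r / D ^ 2) by ring]
  exact mul_le_mul_of_nonneg_right (by linarith [h.dl_le]) (by positivity)

/-- The second order parts, summed over the removed triangle. -/
lemma sum_secB_le : ∑ E ∈ tri G, secB G D q κ r g E ≤ 250 * (r * q) * (1 + 2 * q) ^ r := by
  have hq := h.q_pos
  have hD := h.D_pos
  have hsD : 0 < Real.sqrt D := Real.sqrt_pos.2 hD
  have ha := h.aB_ge_one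
  have ha0 : 0 ≤ aB D q κ := zero_le_one.trans ha
  have hrow : ∀ i, ∑ E ∈ tri G, ip (rowP G D q g i) (lvec G E) ≤
      aB D q κ ^ i * (9 / 2 * D ^ 2) := by
    intro i
    simp only [ip]
    rw [sum_comm]
    simp only [← mul_sum]
    refine (sum_le_sum fun f _ => mul_le_mul_of_nonneg_left
      (sum_tri_lvec_le (fun _ hf => h.deg_le hf) h.dB_pos.le f) (h.rowP_nonneg i f)).trans ?_
    rw [← sum_mul]
    refine mul_le_mul (h.sum_rowP_le i) ?_ (by positivity) (pow_nonneg ha0 i)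
    nlinarith [h.dB_le, h.dB_pos]
  simp only [secB, sum_add_distrib, ← mul_sum]
  have h1 : ∑ E ∈ tri G, ∑ l ∈ range r, ∑ i ∈ range l,
      8 * wB D q κ (r - 1 - l) * aB D q κ ^ (l - 1 - i) * ip (rowP G D q g i) (lvec G E) ≤
      (r : ℝ) * (36 * D ^ 2) * ∑ l ∈ range r, aB D q κ ^ l * wB D q κ (r - 1 - l) := by
    rw [sum_comm, mul_sum]
    refine sum_le_sum fun l hl => ?_
    rw [sum_comm]
    refine (sum_le_card_nsmul _ _ (36 * D ^ 2 * (aB D q κ ^ l * wB D q κ (r - 1 - l)))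
      fun i hi => ?_).trans ?_
    · rw [← mul_sum]
      refine (mul_le_mul_of_nonneg_left (hrow i) (mul_nonneg (mul_nonneg
        (by norm_num) (h.wB_nonneg _)) (pow_nonneg ha0 _))).trans ?_
      calc 8 * wB D q κ (r - 1 - l) * aB D q κ ^ (l - 1 - i) * (aB D q κ ^ i * (9 / 2 * D ^ 2))
          = 36 * D ^ 2 * (aB D q κ ^ (l - 1 - i + i) * wB D q κ (r - 1 - l)) := by
            rw [pow_add]; ring
        _ ≤ _ := mul_le_mul_of_nonneg_left (mul_le_mul_of_nonneg_right
            (pow_le_pow_right₀ ha (by have := mem_range.1 hi; omega)) (h.wB_nonneg _))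
            (by positivity)
    · rw [card_range, nsmul_eq_mul, mul_assoc (r : ℝ)]
      exact mul_le_mul_of_nonneg_right (by exact_mod_cast (mem_range.1 hl).le)
        (mul_nonneg (by positivity) (mul_nonneg (pow_nonneg ha0 _) (h.wB_nonneg _)))
  have h2 : ∑ E ∈ tri G, ∑ i ∈ range r,
      4 * aB D q κ ^ (r - 1 - i) * ip (rowP G D q g i) (lvec G E) ≤
      (r : ℝ) * (36 * D ^ 2 * (1 + 2 * q) ^ r) := by
    rw [sum_comm]
    refine (sum_le_card_nsmul _ _ (36 * D ^ 2 * (1 + 2 * q) ^ r) fun i hi => ?_).trans_eq (by simp)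
    rw [← mul_sum]
    refine (mul_le_mul_of_nonneg_left (hrow i) (by positivity)).trans ?_
    have h3 : aB D q κ ^ (r - 1 - i + i) ≤ 2 * (1 + 2 * q) ^ r :=
      (pow_le_pow_right₀ ha (by have := mem_range.1 hi; omega)).trans (h.aB_pow_le le_rfl)
    rw [pow_add] at h3
    nlinarith
  refine (add_le_add (mul_le_mul_of_nonneg_left (h1.trans (mul_le_mul_of_nonneg_left h.sum_aw_le
    (by positivity))) (sq_nonneg _)) (mul_le_mul_of_nonneg_left h2 (by positivity))).trans ?_
  have e : (q / D) ^ 2 * ((r : ℝ) * (36 * D ^ 2) *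
      (4 * κ * (1 + 2 * q) ^ r / (q * Real.sqrt D))) +
      q / D / D * ((r : ℝ) * (36 * D ^ 2 * (1 + 2 * q) ^ r)) =
      (144 * (κ / Real.sqrt D) + 36) * ((r * q) * (1 + 2 * q) ^ r) := by
    field_simp
    ring
  rw [e, show 250 * (r * q) * (1 + 2 * q) ^ r = 250 * ((r * q) * (1 + 2 * q) ^ r) by ring]
  exact mul_le_mul_of_nonneg_right (by linarith [h.dl_le]) (by positivity)

end Ctx

end Vale.Agent.P046.Full.One
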