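import Vale.Agent.P046.Full.One.PredDrift

/-!
P046, the first phase: the mean square change of a prediction and the size of one jump.
-/

namespace Vale.Agent.P046.Full.One

open Finset
open Vale.Agent.P046

variable {n : ℕ} {G : Gr n}

namespace Ctx

variable {D q κ : ℝ} {r : ℕ} {g : Finset (Fin n)} (h : Ctx G D q κ r g)

include h

lemma rq_le_D : (r : ℝ) * q ≤ D := by
  have := h.q_pos
  have h1 : 1 ≤ κ + r * q := le_add_of_le_of_nonneg h.one_le_kap (by positivity)
  calc (r : ℝ) * q ≤ κ + r * q := le_add_of_nonneg_left (zero_le_one.trans h.one_le_kap)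
    _ ≤ (κ + r * q) ^ 2 := le_self_pow₀ h1 two_ne_zero
    _ ≤ (κ + r * q) ^ 2 * (1 + 2 * q) ^ r :=
        le_mul_of_one_le_right (sq_nonneg _) (one_le_pow₀ (by linarith))
    _ ≤ D := h.far

lemma far_kap : κ ^ 2 * (1 + 2 * q) ^ r ≤ D := by
  have := h.q_pos
  refine le_trans ?_ h.far
  gcongr
  · exact zero_le_one.trans h.one_le_kap
  · exact le_add_of_nonneg_right (by positivity)

lemma far_rq : ((r : ℝ) * q) ^ 2 * (1 + 2 * q) ^ r ≤ D := by
  have := h.q_pos
  refine le_trans ?_ h.far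
  gcongr
  exact le_add_of_nonneg_left (zero_le_one.trans h.one_le_kap)

lemma pow_le_D : (1 + 2 * q) ^ r ≤ D := by
  have := h.q_pos
  refine le_trans ?_ h.far_kap
  exact le_mul_of_one_le_left (by positivity) (one_le_pow₀ h.one_le_kap)

lemma rq_four_le : ((r : ℝ) * q) ^ 4 ≤ 24 * (1 + 2 * q) ^ r := by
  have hq := h.q_pos
  have h0 : 0 ≤ (r : ℝ) * q := by positivity
  have h1 := Real.pow_div_factorial_le_exp _ h0 4
  rw [div_le_iff₀ (by positivity)] at h1
  refine h1.trans ?_
  rw [show ((Nat.factorial 4 : ℕ) : ℝ) = 24 by norm_num [Nat.factorial], mul_comm,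
    Real.exp_nat_mul]
  refine mul_le_mul_of_nonneg_left (pow_le_pow_left₀ (Real.exp_pos _).le ?_ r) (by norm_num)
  have := Real.exp_bound_div_one_sub_of_interval hq.le (by linarith [h.q_le'])
  refine this.trans ?_
  rw [div_le_iff₀ (by linarith [h.q_le'])]
  nlinarith [h.q_le']

lemma sqrt_growth_le {i : ℕ} (hi : i ≤ r) :
    Real.sqrt (1 + 2 * (q / D) * dB D κ + 4 * (q / D) ^ 2 * dB D κ ^ 2) ^ i ≤
      2 * Real.sqrt (1 + 2 * q) ^ i := by
  have hq := h.q_pos; have hD := h.D_pos; have hd := h.dB_pos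
  set z := 1 + 2 * (q / D) * dB D κ + 4 * (q / D) ^ 2 * dB D κ ^ 2 with hz
  have hz0 : 0 ≤ z := by positivity
  refine pow_le_pow_iff_left₀ (by positivity) (by positivity) two_ne_zero |>.1 ?_
  rw [mul_pow, ← pow_mul, ← pow_mul, mul_comm i 2, pow_mul, pow_mul, Real.sq_sqrt hz0,
    Real.sq_sqrt (by linarith)]
  refine (h.growth_le hz0 ?_ hi).trans ?_
  · have e : z = 1 + 2 * q * (1 + κ / Real.sqrt D) + 4 * q ^ 2 * (1 + κ / Real.sqrt D) ^ 2 := by
      rw [hz]; unfold dB; field_simp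
    rw [e]
    have h1 : (1 + κ / Real.sqrt D) ^ 2 ≤ 4 := by nlinarith [h.dl_le, h.dl_nonneg]
    nlinarith [sq_nonneg q, h.dl_nonneg]
  · linarith [pow_pos (by linarith : (0 : ℝ) < 1 + 2 * q) i]

lemma nrm_row_le : nrm ((mop (q / D) G)^[r] (evec g)) ≤ 2 * Real.sqrt (1 + 2 * q) ^ r := by
  refine (nrm_mop_iter_le h.dB_pos.le h.c_pos.le (fun _ hf => h.deg_le hf) _ r).trans ?_
  have e : nrm (evec g) = 1 := by simp [nrm, evec]
  rw [e, mul_one]
  exact h.sqrt_growth_le le_rfl

lemma nrm_bop_row_sq_le :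
    nrm (bop G ((mop (q / D) G)^[r] (evec g))) ^ 2 ≤ 12 * D * (1 + 2 * q) ^ r := by
  have hq := h.q_pos
  rw [← mop_iter_bop]
  have h1 := (nrm_mop_iter_le h.dB_pos.le h.c_pos.le (fun _ hf => h.deg_le hf) _ r).trans
    (mul_le_mul (h.sqrt_growth_le le_rfl) (nrm_bop_evec_le h.dB_pos.le (fun _ hf => h.deg_le hf) g)
      (nrm_nonneg _) (by positivity))
  refine (pow_le_pow_left₀ (nrm_nonneg _) h1 2).trans ?_
  rw [mul_pow, mul_pow, ← pow_mul, mul_comm r 2, pow_mul, Real.sq_sqrt (by linarith),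
    Real.sq_sqrt (by linarith [h.dB_pos])]
  calc 2 ^ 2 * (1 + 2 * q) ^ r * (2 * dB D κ) ≤ 2 ^ 2 * (1 + 2 * q) ^ r * (2 * (3 / 2 * D)) := by
        gcongr; exact h.dB_le
    _ = _ := by ring

/-- The mean square of the part from the lost triangles. -/
lemma sum_jumpC_sq : ∑ E ∈ tri G, jumpC G D q r g E ^ 2 ≤ 252 * (1 + 2 * q) ^ r := by
  have hD := h.D_pos
  have hq := h.q_pos
  set u := (mop (q / D) G)^[r] (evec g) with hu
  have e : ∀ E, jumpC G D q r g E = ip u (lvec G E) / D := fun E => by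
    rw [jumpC, hu, ← mop_iter_symm, ip_evec]
  simp only [e, div_pow, ← sum_div]
  rw [div_le_iff₀ (by positivity)]
  refine (sum_ip_lvec_sq (fun _ hf => h.deg_le hf) h.dB_pos.le u).trans ?_
  have h2 : nrm u ^ 2 ≤ 4 * (1 + 2 * q) ^ r := by
    refine (pow_le_pow_left₀ (nrm_nonneg _) h.nrm_row_le 2).trans_eq ?_
    rw [mul_pow, ← pow_mul, mul_comm r 2, pow_mul, Real.sq_sqrt (by linarith)]
    norm_num
  calc 6 * dB D κ * (nrm (bop G u) ^ 2 + 4 * nrm u ^ 2)
      ≤ 6 * (3 / 2 * D) * (12 * D * (1 + 2 * q) ^ r + 4 * (4 * (1 + 2 * q) ^ r)) := by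
        gcongr
        · exact h.dB_le
        · exact h.nrm_bop_row_sq_le
    _ ≤ 6 * (3 / 2 * D) * (12 * D * (1 + 2 * q) ^ r + 16 * D * (1 + 2 * q) ^ r) := by
        refine mul_le_mul_of_nonneg_left ?_ (by positivity)
        have := mul_le_mul_of_nonneg_right h.one_le_D
          (by positivity : (0 : ℝ) ≤ 16 * (1 + 2 * q) ^ r)
        linarith
    _ = 252 * (1 + 2 * q) ^ r * D ^ 2 := by ring

lemma geom_w_le : ∑ l ∈ range r, wB D q κ (r - 1 - l) ≤
    2 * κ * Real.sqrt (1 + 2 * q) ^ r / (q * Real.sqrt D) := by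
  have hq := h.q_pos; have := h.one_le_kap; have hD := h.D_pos
  rw [sum_range_reflect (fun i => wB D q κ i) r]
  set b := Real.sqrt (1 + 2 * q) with hb
  have hb2 : b ^ 2 = 1 + 2 * q := Real.sq_sqrt (by linarith)
  have hb1 : 1 < b := Real.lt_sqrt_of_sq_lt (by linarith)
  have e : ∑ i ∈ range r, wB D q κ i = κ / Real.sqrt D * ∑ i ∈ range r, b ^ i := by
    rw [mul_sum]; exact sum_congr rfl fun i _ => by simp only [wB, hb]; ring
  rw [e, geom_sum_eq hb1.ne']
  have h3 : (b ^ r - 1) / (b - 1) ≤ 2 * b ^ r / q := by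
    rw [div_le_div_iff₀ (by linarith) hq]
    have hb3 : b ≤ 3 := by rw [hb, Real.sqrt_le_left (by norm_num)]; linarith [h.q_le']
    have h4 : q ≤ 2 * (b - 1) := by nlinarith
    have h5 : 1 ≤ b ^ r := one_le_pow₀ hb1.le
    nlinarith
  refine (mul_le_mul_of_nonneg_left h3 (by positivity)).trans_eq ?_
  field_simp

/-- The mean square of the part from the change of the operator. -/
lemma sum_jumpA_sq : ∑ E ∈ tri G, jumpA G D q r g E ^ 2 ≤ 500000 * (1 + 2 * q) ^ r := by
  have hq := h.q_pos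
  have hD := h.D_pos
  have hk := h.one_le_kap
  have hsD : 0 < Real.sqrt D := Real.sqrt_pos.2 hD
  set c := q / D with hc
  have hc0 : 0 < c := h.c_pos
  set w : ℕ → Vec n := fun l => (mop c G)^[r - 1 - l] (xv D G) with hw
  set ũ : ℕ → Vec n := fun l => (mop c G)^[l] (evec g) - evec g with hut
  set U : Vec n := ∑ l ∈ range r, (c * wB D q κ (r - 1 - l)) • (fun f => |ũ l f|) with hU
  set S := c * ∑ l ∈ range r, wB D q κ (r - 1 - l) with hS
  have hterm : ∀ E, |jumpA G D q r g E| ≤ 2 * (S * lvec G E g) + 2 * ip U (lvec G E) := by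
    intro E
    rw [jumpA, abs_mul, abs_of_pos hc0, ← hc]
    have h1 : ∀ l ∈ range r, |(mop c G)^[l] (qop G E (w l)) g| ≤
        2 * wB D q κ (r - 1 - l) * lvec G E g +
          2 * wB D q κ (r - 1 - l) * ip (fun f => |ũ l f|) (lvec G E) := by
      intro l hl
      have hWv : ∀ e ∈ G, |w l e| ≤ wB D q κ (r - 1 - l) := fun e he =>
        h.pred_le (r - 1 - l) (by omega) e he
      have e : (mop c G)^[l] (qop G E (w l)) g =
          qop G E (w l) g + ip (ũ l) (qop G E (w l)) := by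
        calc (mop c G)^[l] (qop G E (w l)) g
            = ip ((mop c G)^[l] (evec g)) (qop G E (w l)) := by
              rw [← mop_iter_symm, ip_evec]
          _ = ip (evec g) (qop G E (w l)) + ip (ũ l) (qop G E (w l)) := by
              simp [ip, hut, sub_mul, sum_sub_distrib]
          _ = _ := by rw [ip_evec]
      rw [e]
      refine (abs_add_le _ _).trans (add_le_add (qop_abs_le' E hWv g) ?_)
      rw [ip, ip, mul_sum]
      refine (abs_sum_le_sum_abs _ _).trans (sum_le_sum fun f _ => ?_)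
      rw [abs_mul]
      refine (mul_le_mul_of_nonneg_left (qop_abs_le' E hWv f) (abs_nonneg _)).trans_eq ?_
      ring
    refine (mul_le_mul_of_nonneg_left ((abs_sum_le_sum_abs _ _).trans (sum_le_sum h1))
      hc0.le).trans_eq ?_
    have e2 : ip U (lvec G E) =
        ∑ l ∈ range r, c * wB D q κ (r - 1 - l) * ip (fun f => |ũ l f|) (lvec G E) := by
      simp only [ip, hU, Finset.sum_apply, Pi.smul_apply, smul_eq_mul, sum_mul, mul_sum]
      rw [sum_comm]
      exact sum_congr rfl fun l _ => sum_congr rfl fun f _ => by ring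
    rw [e2, hS, mul_sum, mul_sum, mul_sum, sum_mul, mul_sum, ← sum_add_distrib]
    exact sum_congr rfl fun l _ => by ring
  have hsq : ∀ E ∈ tri G, jumpA G D q r g E ^ 2 ≤
      8 * S ^ 2 * lvec G E g ^ 2 + 8 * ip U (lvec G E) ^ 2 := by
    intro E _
    rw [← sq_abs]
    refine (pow_le_pow_left₀ (abs_nonneg _) (hterm E) 2).trans ?_
    nlinarith [sq_nonneg (S * lvec G E g - ip U (lvec G E))]
  refine (sum_le_sum hsq).trans ?_
  rw [sum_add_distrib, ← mul_sum, ← mul_sum]
  have hl2 : ∑ E ∈ tri G, lvec G E g ^ 2 ≤ 9 * D ^ 2 := by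
    refine (sum_le_sum (g := fun E => 2 * lvec G E g) fun E hE => ?_).trans ?_
    · rw [sq]; exact mul_le_mul_of_nonneg_right (lvec_le_two hE g) (lvec_nonneg E g)
    · rw [← mul_sum]
      nlinarith [sum_tri_lvec_le (fun _ hf => h.deg_le hf) h.dB_pos.le g, h.dB_le, h.dB_pos]
  have hS0 : 0 ≤ S := mul_nonneg hc0.le (sum_nonneg fun l _ => h.wB_nonneg _)
  have hbsq : (Real.sqrt (1 + 2 * q) ^ r) ^ 2 = (1 + 2 * q) ^ r := by
    rw [← pow_mul, mul_comm r 2, pow_mul, Real.sq_sqrt (by linarith)]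
  have hS2 : S ^ 2 * (9 * D ^ 2) ≤ 36 * (1 + 2 * q) ^ r := by
    have h1 : S ≤ c * (2 * κ * Real.sqrt (1 + 2 * q) ^ r / (q * Real.sqrt D)) :=
      mul_le_mul_of_nonneg_left h.geom_w_le hc0.le
    refine (mul_le_mul_of_nonneg_right (pow_le_pow_left₀ hS0 h1 2) (by positivity)).trans ?_
    have e : (c * (2 * κ * Real.sqrt (1 + 2 * q) ^ r / (q * Real.sqrt D))) ^ 2 * (9 * D ^ 2) =
        36 * (κ / Real.sqrt D) ^ 2 * (1 + 2 * q) ^ r := by
      rw [← hbsq, hc]; field_simp; ring
    rw [e]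
    refine mul_le_mul_of_nonneg_right ?_ (by positivity)
    nlinarith [h.dl_le, h.dl_nonneg]
  have hUn : nrm U ≤ 4 * κ * (r * q) ^ 2 * Real.sqrt (1 + 2 * q) ^ r / D ^ 2 := by
    rw [hU]
    refine (nrm_sum_le _ _).trans ((sum_le_card_nsmul _ _
      (4 * κ * (r * q ^ 2) * Real.sqrt (1 + 2 * q) ^ r / D ^ 2) fun l hl => ?_).trans_eq ?_)
    · have hlr := mem_range.1 hl
      rw [nrm_smul, abs_of_nonneg (mul_nonneg hc0.le (h.wB_nonneg _)), nrm_abs]
      refine (mul_le_mul_of_nonneg_left ((nrm_row_sub_le h.dB_pos.le hc0.le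
        (fun _ hf => h.deg_le hf) g l).trans (mul_le_mul_of_nonneg_left (h.sqrt_growth_le hlr.le)
        (by positivity))) (mul_nonneg hc0.le (h.wB_nonneg _))).trans ?_
      have hs3 : Real.sqrt (2 * dB D κ) ≤ 2 * Real.sqrt D := by
        rw [Real.sqrt_le_left (by positivity), mul_pow, Real.sq_sqrt hD.le]
        linarith [h.dB_le]
      have hb : Real.sqrt (1 + 2 * q) ^ (r - 1 - l) * Real.sqrt (1 + 2 * q) ^ l ≤
          Real.sqrt (1 + 2 * q) ^ r := by
        rw [← pow_add]
        exact pow_le_pow_right₀ (Real.one_le_sqrt.2 (by linarith)) (by omega)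
      simp only [wB]
      calc c * (κ * Real.sqrt (1 + 2 * q) ^ (r - 1 - l) / Real.sqrt D) *
            (l * c * Real.sqrt (2 * dB D κ) * (2 * Real.sqrt (1 + 2 * q) ^ l))
          = 2 * κ * c ^ 2 * (l * Real.sqrt (2 * dB D κ) / Real.sqrt D) *
              (Real.sqrt (1 + 2 * q) ^ (r - 1 - l) * Real.sqrt (1 + 2 * q) ^ l) := by ring
        _ ≤ 2 * κ * c ^ 2 * (r * (2 * Real.sqrt D) / Real.sqrt D) *
              Real.sqrt (1 + 2 * q) ^ r := by
            gcongr
        _ = _ := by rw [hc]; field_simp; ring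
    · rw [card_range, nsmul_eq_mul]; ring
  have hU2 : ∑ E ∈ tri G, ip U (lvec G E) ^ 2 ≤ 62208 * (1 + 2 * q) ^ r := by
    refine (sum_ip_lvec_sq (fun _ hf => h.deg_le hf) h.dB_pos.le U).trans ?_
    have hbU : nrm (bop G U) ^ 2 ≤ 9 * D ^ 2 * nrm U ^ 2 := by
      rw [nrm_sq, nrm_sq]
      refine (sum_bop_sq_le h.dB_pos.le (fun _ hf => h.deg_le hf) U).trans ?_
      refine mul_le_mul_of_nonneg_right ?_ (sum_nonneg fun f _ => sq_nonneg _)
      nlinarith [h.dB_le, h.dB_pos]
    have hD2 : 1 ≤ D ^ 2 := one_le_pow₀ h.one_le_D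
    calc 6 * dB D κ * (nrm (bop G U) ^ 2 + 4 * nrm U ^ 2)
        ≤ 6 * (3 / 2 * D) * (9 * D ^ 2 * nrm U ^ 2 + 4 * D ^ 2 * nrm U ^ 2) := by
          gcongr
          · exact h.dB_le
          · exact le_mul_of_one_le_right (by norm_num) hD2
      _ ≤ 6 * (3 / 2 * D) * (13 * D ^ 2 *
            (4 * κ * (r * q) ^ 2 * Real.sqrt (1 + 2 * q) ^ r / D ^ 2) ^ 2) := by
          rw [← add_mul]
          refine mul_le_mul_of_nonneg_left ?_ (by positivity)
          exact mul_le_mul (by linarith) (pow_le_pow_left₀ (nrm_nonneg _) hUn 2) (sq_nonneg _)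
            (by positivity)
      _ = 1872 * (κ ^ 2 * (r * q) ^ 4 / D) * (1 + 2 * q) ^ r := by
          rw [← hbsq]; field_simp; ring
      _ ≤ 1872 * 24 * (1 + 2 * q) ^ r := by
          refine mul_le_mul_of_nonneg_right (mul_le_mul_of_nonneg_left ?_ (by norm_num))
            (by positivity)
          rw [div_le_iff₀ hD]
          calc κ ^ 2 * (r * q) ^ 4 ≤ κ ^ 2 * (24 * (1 + 2 * q) ^ r) :=
                mul_le_mul_of_nonneg_left h.rq_four_le (sq_nonneg _)
            _ = 24 * (κ ^ 2 * (1 + 2 * q) ^ r) := by ring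
            _ ≤ 24 * D := mul_le_mul_of_nonneg_left h.far_kap (by norm_num)
      _ ≤ _ := by nlinarith [pow_pos (by linarith : (0 : ℝ) < 1 + 2 * q) r]
  have h3 : S ^ 2 * ∑ E ∈ tri G, lvec G E g ^ 2 ≤ 36 * (1 + 2 * q) ^ r :=
    (mul_le_mul_of_nonneg_left hl2 (sq_nonneg _)).trans hS2
  have hP0 : 0 ≤ (1 + 2 * q) ^ r := by positivity
  linarith

lemma secB_nonneg (E : Finset (Fin n)) : 0 ≤ secB G D q κ r g E := by
  have := h.aB_ge_one
  have := h.c_pos
  have := h.D_pos
  refine add_nonneg (mul_nonneg (sq_nonneg _) (sum_nonneg fun l _ => sum_nonneg fun i _ => ?_))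
    (mul_nonneg (by positivity) (sum_nonneg fun i _ => ?_))
  · exact mul_nonneg (mul_nonneg (mul_nonneg (by norm_num) (h.wB_nonneg _)) (by positivity))
      (h.ip_row_lvec_nonneg i E)
  · exact mul_nonneg (by positivity) (h.ip_row_lvec_nonneg i E)

/-- The size of a jump. -/
theorem jump_le {E : Finset (Fin n)} (hE : E ∈ tri G) (hgE : g ∉ sides E) :
    |jumpD G D q r g E| ≤ 114 * (1 + 2 * q) ^ r / D := by
  have hq := h.q_pos
  have hD := h.D_pos
  set P := (1 + 2 * q) ^ r
  have hP : 0 ≤ P := by positivity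
  have h1 : 16 * κ * P / (D * Real.sqrt D) ≤ 8 * P / D := by
    rw [show 16 * κ * P / (D * Real.sqrt D) = 16 * (κ / Real.sqrt D) * P / D by ring]
    gcongr
    linarith [h.dl_le]
  have h2 : 100 * (r * q) * P / D ^ 2 ≤ 100 * P / D := by
    rw [show 100 * (r * q) * P / D ^ 2 = 100 * ((r * q) / D) * P / D by field_simp]
    gcongr
    have := (div_le_one hD).2 h.rq_le_D
    linarith
  have h3 : 70 * q * (1 + r * q) * P ≤ 2 * P / D := by
    rw [le_div_iff₀ hD]
    have h4 : 1 + (r : ℝ) * q ≤ (1 + r * q) ^ 2 := le_self_pow₀ (by simp; positivity) two_ne_zero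
    have h5 : 70 * q * (1 + r * q) * D ≤ 2 * (100 * q * ((tri G).card + 1) * (1 + r * q) ^ 2 * D ^ 2) := by
      have h7 : D ≤ D ^ 2 := le_self_pow₀ h.one_le_D two_ne_zero
      have h6 : 1 + (r : ℝ) * q ≤ ((tri G).card + 1) * (1 + r * q) ^ 2 :=
        h4.trans (le_mul_of_one_le_left (sq_nonneg _) (by simp))
      calc 70 * q * (1 + r * q) * D ≤ 200 * q * (((tri G).card + 1) * (1 + r * q) ^ 2) * D ^ 2 := by
            gcongr
            linarith
        _ = _ := by ring
    have := mul_le_mul_of_nonneg_right (h5.trans (mul_le_mul_of_nonneg_left h.q_le zero_le_two)) hP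
    linarith
  have hj := h.jump_expand hE hgE
  have hs := h.secB_le hE
  have hA := h.jumpA_abs_le hE
  have hC := h.jumpC_abs_le hE
  have hsplit : 8 * P / D + 4 * P / D + 100 * P / D + 2 * P / D = 114 * P / D := by ring
  rw [abs_le] at hj hA hC ⊢
  constructor <;> linarith

lemma stayD_abs_le : |stayD G D q r g| ≤ q * (10 + 6 * (r * q)) * (1 + 2 * q) ^ r := by
  have hq := h.q_pos
  have hD := h.D_pos
  set c := q / D with hc
  set P := (1 + 2 * q) ^ r
  have hP : 0 ≤ P := by positivity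
  have hS := h.stayD_dev
  have hb : ∀ i ≤ r, wB D q κ i ≤ P := by
    intro i hi
    have h1 : Real.sqrt (1 + 2 * q) ^ i ≤ P :=
      (pow_le_pow_left₀ (Real.sqrt_nonneg _)
        ((Real.sqrt_le_left (by linarith)).2 (by nlinarith)) i).trans
        (pow_le_pow_right₀ (by linarith) hi)
    rw [wB, mul_div_right_comm]
    calc κ / Real.sqrt D * Real.sqrt (1 + 2 * q) ^ i ≤ 1 * P :=
          mul_le_mul (h.dl_le.trans (by norm_num)) h1 (by positivity) zero_le_one
      _ = P := one_mul P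
  have hY : ∀ i ≤ r, |bop G ((mop c G)^[i] (xv D G)) g| ≤ 3 * D * P := fun i hi => by
    refine (bop_sup_le (h.wB_nonneg i) (fun _ hf => h.deg_le hf) h.dB_pos.le
      (h.pred_le i (by omega)) g).trans ?_
    exact mul_le_mul (by linarith [h.dB_le]) (hb i hi) (h.wB_nonneg i) (by positivity)
  have hZ : |(mop c G)^[r] (bop G (fun _ => 1)) g| ≤ 6 * D * P := by
    refine (h.mop_sup h.c_le subset_rfl (W := 3 * D) (fun f => ?_) r g).trans ?_
    · rw [bop_const, abs_of_nonneg (by positivity)]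
      linarith [h.deg_le_all f, h.dB_le]
    · calc aB D q κ ^ r * (3 * D) ≤ 2 * P * (3 * D) :=
            mul_le_mul_of_nonneg_right (h.aB_pow_le le_rfl) (by positivity)
        _ = _ := by ring
  set Q := bop G ((mop c G)^[r - 1] (xv D G)) g
  set Y := bop G ((mop c G)^[r] (xv D G)) g
  set Z := (mop c G)^[r] (bop G (fun _ => 1)) g
  have hQ : |2 * q * r * Q| ≤ 6 * (r * q) * (D * P) := by
    rw [abs_mul, abs_of_nonneg (by positivity)]
    calc 2 * q * r * |Q| ≤ 2 * q * r * (3 * D * P) :=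
          mul_le_mul_of_nonneg_left (hY (r - 1) (by omega)) (by positivity)
      _ = _ := by ring
  have hm : |c * (Z + Y - 2 * q * r * Q)| ≤ q * (9 + 6 * (r * q)) * P := by
    rw [abs_mul, abs_of_pos h.c_pos]
    refine (mul_le_mul_of_nonneg_left ((abs_sub _ _).trans (add_le_add ((abs_add_le _ _).trans
      (add_le_add hZ (hY r le_rfl))) hQ)) h.c_pos.le).trans_eq ?_
    field_simp; ring
  have h1 : q * P / D ≤ q * P := div_le_self (by positivity) h.one_le_D
  have hS' := abs_le.1 hS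
  have hm' := abs_le.1 hm
  have hrq : 0 ≤ q * (r * q) * P := by positivity
  rw [abs_le]
  constructor <;> linarith [hS'.1, hS'.2, hm'.1, hm'.2]

/-- The mean square change. -/
theorem var_le :
    stayD G D q r g ^ 2 + q / D * ∑ E ∈ (tri G).filter (fun E => g ∉ sides E),
      jumpD G D q r g E ^ 2 ≤ 2500000 * (q * (1 + 2 * q) ^ r / D) := by
  have hq := h.q_pos
  have hD := h.D_pos
  set P := (1 + 2 * q) ^ r with hPdef
  have hP : 0 ≤ P := by positivity
  have hP1 : 1 ≤ P := one_le_pow₀ (by linarith)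
  set T := (tri G).filter (fun E => g ∉ sides E) with hT
  set err := 70 * q * (1 + r * q) * P with herr
  have h1 : ∀ E ∈ T, jumpD G D q r g E ^ 2 ≤
      4 * jumpA G D q r g E ^ 2 + 4 * jumpC G D q r g E ^ 2 +
        4 * secB G D q κ r g E ^ 2 + 4 * err ^ 2 := by
    intro E hE
    have hj := h.jump_expand (mem_filter.1 hE).1 (mem_filter.1 hE).2
    set A := jumpA G D q r g E
    set C := jumpC G D q r g E
    set S := secB G D q κ r g E
    set d := jumpD G D q r g E - (A - C) with hd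
    have e : jumpD G D q r g E = A - C + d := by rw [hd]; ring
    have h2 : d ^ 2 ≤ (S + err) ^ 2 := by
      rw [← sq_abs d]
      exact pow_le_pow_left₀ (abs_nonneg _) hj 2
    rw [e]
    nlinarith [sq_nonneg (A - C - d), sq_nonneg (A + C), sq_nonneg (S - err)]
  have hsec : ∑ E ∈ T, secB G D q κ r g E ^ 2 ≤ 25000 * P := by
    refine (sum_le_sum (g := fun E => 100 * (r * q) * P / D ^ 2 * secB G D q κ r g E)
      fun E hE => ?_).trans ?_
    · rw [sq]
      exact mul_le_mul_of_nonneg_right (h.secB_le (mem_filter.1 hE).1) (h.secB_nonneg E)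
    · rw [← mul_sum]
      refine (mul_le_mul_of_nonneg_left ((sum_le_sum_of_subset_of_nonneg (filter_subset _ _)
        fun E _ _ => h.secB_nonneg E).trans h.sum_secB_le) (by positivity)).trans ?_
      rw [div_mul_eq_mul_div, div_le_iff₀ (by positivity)]
      calc 100 * (r * q) * P * (250 * (r * q) * P) = 25000 * (((r : ℝ) * q) ^ 2 * P) * P := by ring
        _ ≤ 25000 * D * P := by gcongr; exact h.far_rq
        _ ≤ 25000 * D ^ 2 * P := by gcongr; exact le_self_pow₀ h.one_le_D two_ne_zero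
        _ = _ := by ring
  have herr2 : (T.card : ℝ) * err ^ 2 ≤ 49 * P := by
    have hTc : (T.card : ℝ) ≤ (tri G).card + 1 := by
      have : (T.card : ℝ) ≤ (tri G).card := by exact_mod_cast card_le_card (filter_subset _ _)
      linarith
    calc (T.card : ℝ) * err ^ 2 ≤ ((tri G).card + 1) * err ^ 2 :=
          mul_le_mul_of_nonneg_right hTc (sq_nonneg _)
      _ = 49 * (100 * q * ((tri G).card + 1) * (1 + r * q) ^ 2) * (q * P) * P := by
          rw [herr]; ring
      _ ≤ 49 * (100 * q * ((tri G).card + 1) * (1 + r * q) ^ 2) * D ^ 2 * P := by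
          gcongr
          have hqP : q * P ≤ D := by
            calc q * P ≤ 1 * P := mul_le_mul_of_nonneg_right (by linarith [h.q_le']) hP
              _ ≤ D := by rw [one_mul]; exact h.pow_le_D
          exact hqP.trans (le_self_pow₀ h.one_le_D two_ne_zero)
      _ ≤ 49 * 1 * P := by
          rw [mul_assoc 49 _ (D ^ 2)]
          exact mul_le_mul_of_nonneg_right (mul_le_mul_of_nonneg_left h.q_le (by norm_num)) hP
      _ = _ := by ring
  have hsum : ∑ E ∈ T, jumpD G D q r g E ^ 2 ≤ 2499999 * P - 1 := by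
    refine (sum_le_sum h1).trans ?_
    simp only [sum_add_distrib, ← mul_sum, sum_const, nsmul_eq_mul]
    have hA := (sum_le_sum_of_subset_of_nonneg (filter_subset (fun E => g ∉ sides E) (tri G))
      fun E _ _ => sq_nonneg (jumpA G D q r g E)).trans (h.sum_jumpA_sq)
    have hC := (sum_le_sum_of_subset_of_nonneg (filter_subset (fun E => g ∉ sides E) (tri G))
      fun E _ _ => sq_nonneg (jumpC G D q r g E)).trans (h.sum_jumpC_sq)
    rw [← hT] at hA hC
    rw [← hPdef] at hA hC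
    nlinarith [hA, hC, hsec, herr2, hP1]
  have hstay : stayD G D q r g ^ 2 ≤ q / D * P := by
    rw [← sq_abs]
    refine (pow_le_pow_left₀ (abs_nonneg _) h.stayD_abs_le 2).trans ?_
    rw [div_mul_eq_mul_div, le_div_iff₀ hD, ← hPdef]
    have hrq : 0 ≤ (r : ℝ) * q := by positivity
    calc (q * (10 + 6 * (r * q)) * P) ^ 2 * D
        ≤ (q * (10 * (1 + r * q)) * P) ^ 2 * D := by gcongr; linarith
      _ = 100 * q * (1 + r * q) ^ 2 * (P * D) * (q * P) := by ring
      _ ≤ 100 * q * (1 + r * q) ^ 2 * (D * D) * (q * P) := by gcongr; exact h.pow_le_D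
      _ ≤ 1 * (q * P) := by
          refine mul_le_mul_of_nonneg_right (le_trans ?_ h.q_le) (by positivity)
          rw [← sq D, mul_assoc (100 * q) _ ((1 + (r : ℝ) * q) ^ 2)]
          gcongr
          exact le_mul_of_one_le_left (sq_nonneg _) (by simp)
      _ = q * P := one_mul _
  calc stayD G D q r g ^ 2 + q / D * ∑ E ∈ T, jumpD G D q r g E ^ 2
      ≤ q / D * P + q / D * (2499999 * P - 1) :=
        add_le_add hstay (mul_le_mul_of_nonneg_left hsum h.c_pos.le)
    _ ≤ 2500000 * (q * P / D) := by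
        have : 0 ≤ q / D := h.c_pos.le
        rw [show q * P / D = q / D * P by ring]
        nlinarith

end Ctx

end Vale.Agent.P046.Full.One
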