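import Vale.Agent.P046.Full.One.Model

/-!
P046, the first phase: linear algebra of the adjacency operator `bop`.
-/

namespace Vale.Agent.P046.Full.One

open Finset
open Vale.Agent.P046

variable {n : ℕ} {G : Gr n}

/-- The inner product of two vectors. -/
noncomputable def ip (u v : Vec n) : ℝ := ∑ g, u g * v g

/-- The unit vector at `g`. -/
noncomputable def evec (g : Finset (Fin n)) : Vec n := fun f => if f = g then 1 else 0

/-- The positive companion `1 + c B` of the one step predictor. -/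
noncomputable def pop (c : ℝ) (G : Gr n) (v : Vec n) : Vec n := fun g => v g + c * bop G v g

/-- The change `P B - B' P` of the operator when `E` is removed. -/
noncomputable def qop (G : Gr n) (E : Finset (Fin n)) (v : Vec n) : Vec n := fun g =>
  if g ∈ sides E then 0 else
    ∑ F ∈ (tri G).filter (fun F => g ∈ sides F ∧ ¬Disjoint (sides F) (sides E)),
      ∑ f ∈ (sides F).erase g, v f

/-! ### Linearity and positivity -/

lemma bop_add (u v : Vec n) : bop G (u + v) = bop G u + bop G v := by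
  funext g; simp [bop, sum_add_distrib]

lemma bop_sub (u v : Vec n) : bop G (u - v) = bop G u - bop G v := by
  funext g; simp [bop, sum_sub_distrib]

lemma bop_smul (a : ℝ) (v : Vec n) : bop G (a • v) = a • bop G v := by
  funext g; simp [bop, mul_sum]

lemma bop_nonneg {v : Vec n} (hv : ∀ g, 0 ≤ v g) (g : Finset (Fin n)) : 0 ≤ bop G v g :=
  sum_nonneg fun _ _ => sum_nonneg fun f _ => hv f

lemma bop_mono {u v : Vec n} (h : ∀ g, u g ≤ v g) (g : Finset (Fin n)) :
    bop G u g ≤ bop G v g :=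
  sum_le_sum fun _ _ => sum_le_sum fun f _ => h f

lemma abs_bop_le (v : Vec n) (g : Finset (Fin n)) : |bop G v g| ≤ bop G (fun f => |v f|) g :=
  (abs_sum_le_sum_abs _ _).trans (sum_le_sum fun _ _ => abs_sum_le_sum_abs _ _)

lemma bop_const (a : ℝ) (g : Finset (Fin n)) : bop G (fun _ => a) g = 2 * a * deg G g := by
  have h : ∀ E ∈ (tri G).filter (fun E => g ∈ sides E), ∑ _f ∈ (sides E).erase g, a = 2 * a := by
    intro E hE
    obtain ⟨hE, hg⟩ := mem_filter.1 hE
    rw [sum_const, card_erase_of_mem hg, card_sides (mem_tri.1 hE).1]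
    simp
  rw [bop, sum_congr rfl h, sum_const, nsmul_eq_mul, deg]
  ring

lemma bop_eq_zero_of_not_mem {g : Finset (Fin n)} (hg : g ∉ G) (v : Vec n) : bop G v g = 0 := by
  refine sum_eq_zero fun E hE => absurd ?_ hg
  exact (mem_tri.1 (mem_filter.1 hE).1).2 (mem_filter.1 hE).2

lemma bop_congr {u v : Vec n} (h : ∀ g ∈ G, u g = v g) : bop G u = bop G v := by
  funext g
  exact sum_congr rfl fun E hE => sum_congr rfl fun f hf =>
    h f ((mem_tri.1 (mem_filter.1 hE).1).2 (mem_erase.1 hf).2)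

/-- A double sum over the edges of the triangles, with both orders. -/
lemma sum_mul_bop (u v : Vec n) :
    ip u (bop G v) = ∑ E ∈ tri G, ∑ g ∈ sides E, ∑ f ∈ (sides E).erase g, u g * v f := by
  simp only [ip, bop, mul_sum, sum_filter]
  rw [sum_comm]
  refine sum_congr rfl fun E _ => ?_
  simp only [mul_ite, mul_zero, sum_ite_mem, univ_inter, mul_sum]

lemma ip_comm (u v : Vec n) : ip u v = ip v u := sum_congr rfl fun _ _ => mul_comm _ _

lemma bop_symm (u v : Vec n) : ip u (bop G v) = ip (bop G u) v := by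
  rw [ip_comm (bop G u) v, sum_mul_bop, sum_mul_bop]
  refine sum_congr rfl fun E _ => ?_
  rw [sum_comm' (t' := sides E) (s' := fun f => (sides E).erase f)
    (by intro g f; simp only [mem_erase]; tauto)]
  exact sum_congr rfl fun f _ => sum_congr rfl fun g _ => mul_comm _ _

/-- The quadratic form of `bop`. -/
lemma ip_bop_self (v : Vec n) :
    ip v (bop G v) = ∑ E ∈ tri G, ((∑ g ∈ sides E, v g) ^ 2 - ∑ g ∈ sides E, v g ^ 2) := by
  rw [sum_mul_bop]
  refine sum_congr rfl fun E _ => ?_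
  rw [sq, sum_mul_sum, ← sum_sub_distrib]
  refine sum_congr rfl fun g hg => ?_
  rw [← add_sum_erase _ _ hg]
  ring

/-- `B + diag deg` is positive semidefinite. -/
lemma ip_bop_self_ge (v : Vec n) : -∑ g ∈ G, (deg G g : ℝ) * v g ^ 2 ≤ ip v (bop G v) := by
  rw [ip_bop_self, sum_sub_distrib, sum_tri_sides G (fun g => v g ^ 2)]
  simp only [nsmul_eq_mul]
  linarith [sum_nonneg (s := tri G) fun E _ => sq_nonneg (∑ g ∈ sides E, v g)]

lemma ip_evec (g : Finset (Fin n)) (v : Vec n) : ip (evec g) v = v g := by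
  simp [ip, evec]

/-- A nonnegative vector is not increased entrywise beyond its total. -/
lemma bop_le_sum {v : Vec n} (hv : ∀ g, 0 ≤ v g) (g : Finset (Fin n)) :
    bop G v g ≤ ∑ f, v f := by
  rw [bop, ← sum_biUnion]
  · exact sum_le_sum_of_subset_of_nonneg (subset_univ _) fun f _ _ => hv f
  · intro E hE E' hE' hne
    simp only [Function.onFun, disjoint_left]
    intro f hf hf'
    obtain ⟨hEt, hgE⟩ := mem_filter.1 hE
    obtain ⟨hEt', hgE'⟩ := mem_filter.1 hE'
    exact (mem_erase.1 hf).1 (shared_unique (mem_tri.1 hEt).1 (mem_tri.1 hEt').1 hne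
      (mem_erase.1 hf).2 (mem_erase.1 hf').2 hgE hgE')

/-! ### Norm bounds under a codegree bound -/

lemma bop_sup_le {Δ W : ℝ} (hW : 0 ≤ W) (hd : ∀ g ∈ G, (deg G g : ℝ) ≤ Δ) (hΔ : 0 ≤ Δ)
    {v : Vec n} (hv : ∀ g ∈ G, |v g| ≤ W) (g : Finset (Fin n)) : |bop G v g| ≤ 2 * Δ * W := by
  by_cases hg : g ∈ G
  · refine (abs_bop_le v g).trans ?_
    rw [bop_congr (u := fun f => |v f|) (v := fun f => if f ∈ G then |v f| else 0)
      (fun f hf => by simp [hf])]
    refine (bop_mono (v := fun _ => W) (fun f => ?_) g).trans ?_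
    · split_ifs with hf
      · exact hv f hf
      · exact hW
    · rw [bop_const]
      nlinarith [hd g hg]
  · rw [bop_eq_zero_of_not_mem hg, abs_zero]
    positivity

lemma sum_bop (v : Vec n) : ∑ g, bop G v g = 2 * ∑ g ∈ G, (deg G g : ℝ) * v g := by
  have h := bop_symm (G := G) (fun _ => (1 : ℝ)) v
  simp only [ip, one_mul, bop_const] at h
  rw [h, mul_sum]
  refine (sum_subset (subset_univ G) fun g _ hg => ?_).symm.trans
    (sum_congr rfl fun g _ => by ring)
  have h0 := bop_eq_zero_of_not_mem hg (fun _ => (1 : ℝ))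
  rw [bop_const] at h0
  rw [h0, zero_mul]

lemma sum_bop_le {Δ : ℝ} (hΔ : 0 ≤ Δ) (hd : ∀ g ∈ G, (deg G g : ℝ) ≤ Δ) {v : Vec n}
    (hv : ∀ g, 0 ≤ v g) : ∑ g, bop G v g ≤ 2 * Δ * ∑ g, v g := by
  rw [sum_bop, mul_assoc]
  refine mul_le_mul_of_nonneg_left ?_ zero_le_two
  calc ∑ g ∈ G, (deg G g : ℝ) * v g ≤ ∑ g ∈ G, Δ * v g :=
        sum_le_sum fun g hg => mul_le_mul_of_nonneg_right (hd g hg) (hv g)
    _ ≤ ∑ g, Δ * v g :=
        sum_le_sum_of_subset_of_nonneg (subset_univ _) fun g _ _ => mul_nonneg hΔ (hv g)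
    _ = Δ * ∑ g, v g := (mul_sum _ _ _).symm

/-- Cauchy-Schwarz along the rows of `bop`. -/
lemma bop_sq_le (v : Vec n) (g : Finset (Fin n)) :
    bop G v g ^ 2 ≤ 2 * (deg G g : ℝ) * bop G (fun f => v f ^ 2) g := by
  have h : ∀ a b : ℝ, 2 * a * b ≤ a ^ 2 + b ^ 2 := fun a b => two_mul_le_add_sq a b
  simp only [bop]
  rw [sum_sigma', sum_sigma']
  refine sq_sum_le_card_mul_sum_sq.trans (le_of_eq ?_)
  congr 1
  rw [card_sigma]
  have h2 : ∀ E ∈ (tri G).filter (fun E => g ∈ sides E), ((sides E).erase g).card = 2 := by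
    intro E hE
    obtain ⟨hE, hg⟩ := mem_filter.1 hE
    rw [card_erase_of_mem hg, card_sides (mem_tri.1 hE).1]
  rw [sum_congr rfl h2, sum_const, smul_eq_mul, deg]
  push_cast
  ring

lemma sum_bop_sq_le {Δ : ℝ} (hΔ : 0 ≤ Δ) (hd : ∀ g ∈ G, (deg G g : ℝ) ≤ Δ) (v : Vec n) :
    ∑ g, bop G v g ^ 2 ≤ 4 * Δ ^ 2 * ∑ g, v g ^ 2 := by
  have h1 : ∀ g, bop G v g ^ 2 ≤ 2 * Δ * bop G (fun f => v f ^ 2) g := by
    intro g
    by_cases hg : g ∈ G
    · refine (bop_sq_le v g).trans ?_
      exact mul_le_mul_of_nonneg_right (by linarith [hd g hg]) (bop_nonneg (fun f => sq_nonneg _) g)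
    · simp [bop_eq_zero_of_not_mem hg]
  refine (sum_le_sum fun g _ => h1 g).trans ?_
  rw [← mul_sum]
  refine (mul_le_mul_of_nonneg_left (sum_bop_le hΔ hd fun f => sq_nonneg (v f))
    (by positivity)).trans_eq ?_
  ring

lemma bop_evec_nonneg (g f : Finset (Fin n)) : 0 ≤ bop G (evec g) f :=
  bop_nonneg (fun h => by unfold evec; split_ifs <;> norm_num) f

lemma bop_evec_le_one (g f : Finset (Fin n)) : bop G (evec g) f ≤ 1 := by
  refine (bop_le_sum (fun h => by unfold evec; split_ifs <;> norm_num) f).trans ?_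
  simp [evec]

lemma sum_bop_evec_sq_le (g : Finset (Fin n)) :
    ∑ f, bop G (evec g) f ^ 2 ≤ 2 * (deg G g : ℝ) := by
  refine (sum_le_sum fun f _ => (sq (bop G (evec g) f)).trans_le
    (mul_le_of_le_one_left (bop_evec_nonneg g f) (bop_evec_le_one g f))).trans_eq ?_
  rw [sum_bop]
  by_cases hg : g ∈ G
  · simp [evec, hg]
  · have h0 := bop_eq_zero_of_not_mem hg (fun _ => (1 : ℝ))
    rw [bop_const] at h0
    have h1 : (deg G g : ℝ) = 0 := by linarith
    simp [evec, hg, h1]

/-! ### Removing a triangle -/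

lemma deg_rem_of_mem {E g : Finset (Fin n)} (hg : g ∈ sides E) : deg (rem G E) g = 0 := by
  rw [deg, card_eq_zero, filter_eq_empty_iff]
  intro F hF hgF
  have := (mem_tri.1 hF).2 hgF
  simp [rem, hg] at this

lemma qop_eq (E : Finset (Fin n)) (v : Vec n) {g : Finset (Fin n)} (hg : g ∉ sides E) :
    qop G E v g = bop G v g - bop (rem G E) v g := by
  rw [qop, if_neg hg, eq_sub_iff_add_eq, bop, bop, tri_rem, filter_filter,
    ← sum_union (by
      rw [disjoint_left]
      intro F h1 h2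
      simp only [mem_filter] at h1 h2
      exact h1.2.2 h2.2.1)]
  refine sum_congr ?_ fun _ _ => rfl
  ext F
  simp only [mem_union, mem_filter]
  tauto

lemma bop_rem_side (E : Finset (Fin n)) (v : Vec n) {g : Finset (Fin n)} (hg : g ∈ sides E) :
    bop (rem G E) v g = 0 :=
  bop_eq_zero_of_not_mem (by simp [rem, hg]) v

lemma qop_abs_le (E : Finset (Fin n)) {v : Vec n} {W : ℝ} (hv : ∀ g ∈ G, |v g| ≤ W)
    {g : Finset (Fin n)} (hg : g ∉ sides E) : |qop G E v g| ≤ 2 * W * lost G g E := by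
  rw [qop, if_neg hg]
  refine (abs_sum_le_sum_abs _ _).trans ((sum_le_sum (g := fun _ => 2 * W) fun F hF => ?_).trans ?_)
  · obtain ⟨hFt, hgF, -⟩ := mem_filter.1 hF
    refine (abs_sum_le_sum_abs _ _).trans ((sum_le_sum (g := fun _ => W) fun f hf =>
      hv f ((mem_tri.1 hFt).2 (mem_erase.1 hf).2)).trans_eq ?_)
    rw [sum_const, card_erase_of_mem hgF, card_sides (mem_tri.1 hFt).1]
    simp
  · rw [sum_const, nsmul_eq_mul, lost]
    exact le_of_eq (by ring)

/-! ### Iterates -/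

lemma mop_sub (c : ℝ) (u v : Vec n) : mop c G (u - v) = mop c G u - mop c G v := by
  funext g; simp [mop, bop_sub]; ring

lemma mop_add (c : ℝ) (u v : Vec n) : mop c G (u + v) = mop c G u + mop c G v := by
  funext g; simp [mop, bop_add]; ring

lemma mop_smul (c a : ℝ) (v : Vec n) : mop c G (a • v) = a • mop c G v := by
  funext g; simp [mop, bop_smul]; ring

lemma mop_iter_sub (c : ℝ) : ∀ (i : ℕ) (u v : Vec n),
    (mop c G)^[i] (u - v) = (mop c G)^[i] u - (mop c G)^[i] v
  | 0, _, _ => rfl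
  | i + 1, u, v => by
    simp only [Function.iterate_succ_apply, mop_sub, mop_iter_sub c i]

lemma mop_iter_add (c : ℝ) : ∀ (i : ℕ) (u v : Vec n),
    (mop c G)^[i] (u + v) = (mop c G)^[i] u + (mop c G)^[i] v
  | 0, _, _ => rfl
  | i + 1, u, v => by
    simp only [Function.iterate_succ_apply, mop_add, mop_iter_add c i]

lemma mop_iter_smul (c a : ℝ) : ∀ (i : ℕ) (v : Vec n),
    (mop c G)^[i] (a • v) = a • (mop c G)^[i] v
  | 0, _ => rfl
  | i + 1, v => by
    simp only [Function.iterate_succ_apply, mop_smul, mop_iter_smul c a i]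

lemma mop_iter_bop (c : ℝ) : ∀ (i : ℕ) (v : Vec n),
    (mop c G)^[i] (bop G v) = bop G ((mop c G)^[i] v)
  | 0, _ => rfl
  | i + 1, v => by
    have e : mop c G (bop G v) = bop G (mop c G v) := by
      have e' : mop c G v = v - c • bop G v := by funext g; simp [mop]
      rw [e', bop_sub, bop_smul]
      funext g; simp [mop]
    simp only [Function.iterate_succ_apply, e, mop_iter_bop c i]

lemma ip_sub_smul (c : ℝ) (u v : Vec n) : ip u (mop c G v) = ip u v - c * ip u (bop G v) := by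
  simp only [ip, mop, mul_sum, ← sum_sub_distrib]
  exact sum_congr rfl fun g _ => by ring

lemma mop_symm (c : ℝ) (u v : Vec n) : ip u (mop c G v) = ip (mop c G u) v := by
  rw [ip_comm (mop c G u) v, ip_sub_smul, ip_sub_smul, bop_symm, ip_comm u v,
    ip_comm (bop G u) v]

lemma mop_iter_symm (c : ℝ) : ∀ (i : ℕ) (u v : Vec n),
    ip u ((mop c G)^[i] v) = ip ((mop c G)^[i] u) v
  | 0, _, _ => rfl
  | i + 1, u, v => by
    rw [Function.iterate_succ_apply', mop_symm, mop_iter_symm c i, ← Function.iterate_succ_apply]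

lemma pop_nonneg {c : ℝ} (hc : 0 ≤ c) {v : Vec n} (hv : ∀ g, 0 ≤ v g) (g : Finset (Fin n)) :
    0 ≤ pop c G v g :=
  add_nonneg (hv g) (mul_nonneg hc (bop_nonneg hv g))

lemma pop_iter_nonneg {c : ℝ} (hc : 0 ≤ c) {v : Vec n} (hv : ∀ g, 0 ≤ v g) :
    ∀ (i : ℕ) (g : Finset (Fin n)), 0 ≤ (pop c G)^[i] v g
  | 0, g => hv g
  | i + 1, g => by
    rw [Function.iterate_succ_apply']
    exact pop_nonneg hc (pop_iter_nonneg hc hv i) g

lemma pop_symm (c : ℝ) (u v : Vec n) : ip u (pop c G v) = ip (pop c G u) v := by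
  have e : ∀ w, pop c G w = mop (-c) G w := fun w => by funext g; simp [pop, mop]
  rw [e, e, mop_symm]

lemma pop_iter_symm (c : ℝ) : ∀ (i : ℕ) (u v : Vec n),
    ip u ((pop c G)^[i] v) = ip ((pop c G)^[i] u) v
  | 0, _, _ => rfl
  | i + 1, u, v => by
    rw [Function.iterate_succ_apply', pop_symm, pop_iter_symm c i, ← Function.iterate_succ_apply]

lemma bop_subgraph_le {G' : Gr n} (h : G' ⊆ G) {v : Vec n} (hv : ∀ g, 0 ≤ v g)
    (g : Finset (Fin n)) : bop G' v g ≤ bop G v g := by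
  refine sum_le_sum_of_subset_of_nonneg ?_ fun F _ _ => sum_nonneg fun f _ => hv f
  intro F hF
  obtain ⟨hFt, hgF⟩ := mem_filter.1 hF
  exact mem_filter.2 ⟨mem_tri.2 ⟨(mem_tri.1 hFt).1, (mem_tri.1 hFt).2.trans h⟩, hgF⟩

/-- Entrywise domination by the positive companion. -/
lemma mop_iter_abs_le {G' : Gr n} {c c' : ℝ} (hG : G' ⊆ G) (hc' : |c'| ≤ c) (v : Vec n) :
    ∀ (i : ℕ) (g : Finset (Fin n)),
      |(mop c' G')^[i] v g| ≤ (pop c G)^[i] (fun f => |v f|) g
  | 0, g => le_rfl
  | i + 1, g => by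
    have hc : 0 ≤ c := (abs_nonneg _).trans hc'
    rw [Function.iterate_succ_apply', Function.iterate_succ_apply']
    simp only [mop, pop]
    refine (abs_sub _ _).trans (add_le_add (mop_iter_abs_le hG hc' v i g) ?_)
    rw [abs_mul]
    refine mul_le_mul hc' ?_ (abs_nonneg _) hc
    refine (abs_bop_le _ g).trans ((bop_mono (mop_iter_abs_le hG hc' v i) g).trans ?_)
    exact bop_subgraph_le hG (pop_iter_nonneg hc (fun f => abs_nonneg _) i) g

end Vale.Agent.P046.Full.One
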